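import Mathlib

/-! Row 285: auxiliary lemmas for `Flow.lean`. -/

set_option autoImplicit false

open MeasureTheory Set Filter Topology Metric
open scoped NNReal ENNReal

namespace Crest.Agent.R285

section Measure

/-- Measures finite on compact sets agree as soon as they agree on bounded Lipschitz functions
with bounded support. -/
theorem flow_measure_ext {X : Type*} [NormedAddCommGroup X] [ProperSpace X] [MeasurableSpace X]
    [BorelSpace X] (ν₁ ν₂ : Measure X) [IsFiniteMeasureOnCompacts ν₁]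
    [IsFiniteMeasureOnCompacts ν₂]
    (h : ∀ (φ : X → ℝ) (K : ℝ≥0) (r : ℝ), LipschitzWith K φ → (∀ x, |φ x| ≤ 1) →
      (∀ x, r < ‖x‖ → φ x = 0) → ∫ x, φ x ∂ν₁ = ∫ x, φ x ∂ν₂) : ν₁ = ν₂ := by
  have key : ∀ (F : Set X) (r : ℝ), IsClosed F → F ⊆ closedBall 0 r → ν₁ F = ν₂ F := by
    intro F r hF hFr
    have hδ : ∀ n : ℕ, (0 : ℝ) < 1 / ((n : ℝ) + 1) := fun n => by positivity
    have hlim : Tendsto (fun n : ℕ => 1 / ((n : ℝ) + 1)) atTop (𝓝 0) :=
      tendsto_one_div_add_atTop_nhds_zero_nat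
    have hz : ∀ (n : ℕ) (x : X), r + 1 < ‖x‖ → (thickenedIndicator (hδ n) F x : ℝ) = 0 := by
      intro n x hx
      have : x ∉ thickening (1 / ((n : ℝ) + 1)) F := by
        intro hx'
        obtain ⟨z, hz, hd⟩ := mem_thickening_iff.mp hx'
        have h1 : ‖z‖ ≤ r := by simpa using hFr hz
        have h2 : 1 / ((n : ℝ) + 1) ≤ 1 := by
          rw [div_le_one (by positivity)]; have : (0 : ℝ) ≤ n := Nat.cast_nonneg n; linarith
        have h3 : ‖x‖ ≤ ‖z‖ + dist x z := by
          rw [dist_eq_norm]; have := norm_add_le z (x - z); simpa using this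
        linarith
      rw [thickenedIndicator_zero (hδ n) F this]; rfl
    have hlimν : ∀ (ν : Measure X) [IsFiniteMeasureOnCompacts ν],
        Tendsto (fun n : ℕ => ∫ x, (thickenedIndicator (hδ n) F x : ℝ) ∂ν) atTop
          (𝓝 (ν.real F)) := by
      intro ν _
      have : IsFiniteMeasure (ν.restrict (closedBall (0 : X) (r + 1))) :=
        isFiniteMeasure_restrict.mpr (isCompact_closedBall _ _).measure_lt_top.ne
      have := tendsto_integral_thickenedIndicator_of_isClosed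
        (ν.restrict (closedBall (0 : X) (r + 1))) hF hδ hlim
      have e1 : (ν.restrict (closedBall (0 : X) (r + 1))).real F = ν.real F := by
        rw [Measure.real_def, Measure.real_def, Measure.restrict_apply hF.measurableSet,
          inter_eq_left.mpr (hFr.trans (closedBall_subset_closedBall (by linarith)))]
      rw [e1] at this
      refine this.congr fun n => ?_
      apply setIntegral_eq_integral_of_forall_compl_eq_zero
      intro x hx
      apply hz
      simpa using hx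
    have heq : ∀ n : ℕ, ∫ x, (thickenedIndicator (hδ n) F x : ℝ) ∂ν₁ =
        ∫ x, (thickenedIndicator (hδ n) F x : ℝ) ∂ν₂ := by
      intro n
      refine h _ (1 * (1 / ((n : ℝ) + 1)).toNNReal⁻¹) (r + 1) ?_ ?_ (hz n)
      · exact (NNReal.isometry_coe.lipschitz).comp (lipschitzWith_thickenedIndicator (hδ n) F)
      · intro x
        rw [abs_of_nonneg (NNReal.coe_nonneg _)]
        exact_mod_cast thickenedIndicator_le_one (hδ n) F x
    have h1 := hlimν ν₁
    simp_rw [heq] at h1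
    have h2 := tendsto_nhds_unique h1 (hlimν ν₂)
    have hc : IsCompact F := (isCompact_closedBall (0 : X) r).of_isClosed_subset hF hFr
    rwa [Measure.real_def, Measure.real_def,
      ENNReal.toReal_eq_toReal_iff' hc.measure_lt_top.ne hc.measure_lt_top.ne] at h2
  refine Measure.ext_of_generateFrom_of_cover (S := {s | IsClosed s})
    (T := range fun n : ℕ => closedBall (0 : X) n) ?_ (countable_range _) isPiSystem_isClosed
    ?_ ?_ ?_ ?_
  · rw [BorelSpace.measurable_eq (α := X), borel_eq_generateFrom_isClosed]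
  · rw [sUnion_range]; exact iUnion_closedBall_nat 0
  · rintro _ ⟨n, rfl⟩; exact (isCompact_closedBall _ _).measure_lt_top.ne
  · rintro _ ⟨n, rfl⟩ s hs
    exact key _ n (IsClosed.inter hs isClosed_closedBall) inter_subset_right
  · rintro _ ⟨n, rfl⟩
    exact key _ n isClosed_closedBall subset_rfl

end Measure

section Calc

/-- A function with uniformly vanishing difference quotients is constant. -/
theorem flow_const_of_unif {I : ℝ → ℝ} {τ : ℝ} (hτ : 0 ≤ τ)
    (h : ∀ ε > 0, ∃ δ > 0, ∀ s h, 0 ≤ s → 0 ≤ h → h ≤ δ → s + h ≤ τ → |I (s + h) - I s| ≤ ε * h) :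
    I τ = I 0 := by
  have hd : ∀ s ∈ Icc 0 τ, HasDerivWithinAt I 0 (Icc 0 τ) s := by
    intro s hs
    rw [hasDerivWithinAt_iff_isLittleO, Asymptotics.isLittleO_iff]
    intro c hc
    obtain ⟨δ, hδ, hI⟩ := h c hc
    filter_upwards [self_mem_nhdsWithin, mem_nhdsWithin_of_mem_nhds (closedBall_mem_nhds s hδ)]
      with t ht htδ
    rw [mem_closedBall, Real.dist_eq] at htδ
    simp only [smul_zero, sub_zero, Real.norm_eq_abs]
    rcases le_total s t with hst | hst
    · have := hI s (t - s) hs.1 (by linarith) ((le_abs_self _).trans htδ) (by linarith [ht.2])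
      rw [abs_of_nonneg (by linarith : 0 ≤ t - s)]
      simpa using this
    · have h5 : s - t ≤ δ := by
        rw [abs_sub_comm] at htδ
        exact (le_abs_self _).trans htδ
      have := hI t (s - t) ht.1 (by linarith) h5 (by linarith [hs.2])
      rw [abs_sub_comm t s, abs_of_nonneg (by linarith : 0 ≤ s - t), abs_sub_comm]
      simpa using this
  have := (convex_Icc 0 τ).norm_image_sub_le_of_norm_hasDerivWithin_le (C := 0) hd
    (fun _ _ => by simp) (left_mem_Icc.mpr hτ) (right_mem_Icc.mpr hτ)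
  simpa [sub_eq_zero] using this

/-- Uniform little-o estimate on a compact parameter set. -/
theorem flow_unif_littleo {Y : Type*} [NormedAddCommGroup Y] [NormedSpace ℝ Y] {G : Y × ℝ → ℝ}
    (hG : ContDiff ℝ 1 G) {K : Set Y} (hK : IsCompact K) (h0 : ∀ y ∈ K, G (y, 0) = 0)
    (h1 : ∀ y ∈ K, HasDerivAt (fun h => G (y, h)) 0 0) :
    ∀ ε > 0, ∃ δ > 0, ∀ y ∈ K, ∀ h, 0 ≤ h → h ≤ δ → |G (y, h)| ≤ ε * h := by
  intro ε hε
  have hdiff : Differentiable ℝ G := hG.differentiable one_ne_zero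
  have hder : ∀ y h, HasDerivAt (fun h => G (y, h)) (fderiv ℝ G (y, h) (0, 1)) h := by
    intro y h
    have h2 : HasDerivAt (fun h : ℝ => ((y, h) : Y × ℝ)) (0, 1) h :=
      (hasDerivAt_const h y).prodMk (hasDerivAt_id h)
    exact (hdiff (y, h)).hasFDerivAt.comp_hasDerivAt h h2
  have hc : Continuous fun q : ℝ × Y => fderiv ℝ G (q.2, q.1) (0, 1) := by
    have := hG.continuous_fderiv one_ne_zero
    fun_prop
  have hev : ∀ᶠ h in 𝓝 (0 : ℝ), ∀ y ∈ K, |fderiv ℝ G (y, h) (0, 1)| < ε := by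
    apply hK.eventually_forall_of_forall_eventually
    intro y hy
    have h3 : fderiv ℝ G (y, 0) (0, 1) = 0 := (hder y 0).unique (h1 y hy)
    have h4 : Tendsto (fun q : ℝ × Y => |fderiv ℝ G (q.2, q.1) (0, 1)|) (𝓝 (0, y)) (𝓝 0) := by
      have := (hc.abs.tendsto (0, y))
      simpa [h3] using this
    exact h4.eventually (gt_mem_nhds hε)
  obtain ⟨δ, hδ, hball⟩ := Metric.eventually_nhds_iff_ball.mp hev
  refine ⟨δ / 2, by positivity, fun y hy h hh hhδ => ?_⟩
  have := (convex_Icc 0 h).norm_image_sub_le_of_norm_hasDerivWithin_le (C := ε)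
    (fun t _ => (hder y t).hasDerivWithinAt)
    (fun t ht => (hball t (by
      rw [mem_ball, Real.dist_eq, sub_zero, abs_of_nonneg ht.1]; linarith [ht.2]) y hy).le)
    (left_mem_Icc.mpr hh) (right_mem_Icc.mpr hh)
  simpa [h0 y hy, abs_of_nonneg hh] using this

variable {X : Type*} [NormedAddCommGroup X] [NormedSpace ℝ X]

theorem flow_contDiff_det [FiniteDimensional ℝ X] {n : WithTop ℕ∞} :
    ContDiff ℝ n fun A : X →L[ℝ] X => A.det := by
  classical
  let b := Module.finBasis ℝ X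
  have h : (fun A : X →L[ℝ] X => A.det) = fun A : X →L[ℝ] X =>
      ∑ σ : Equiv.Perm (Fin (Module.finrank ℝ X)), (Equiv.Perm.sign σ : ℝ) *
        ∏ i, b.coord (σ i) (A (b i)) := by
    funext A
    rw [ContinuousLinearMap.det, ← LinearMap.det_toMatrix b, Matrix.det_apply']
    simp [LinearMap.toMatrix_apply]
  rw [h]
  refine ContDiff.sum fun σ _ => contDiff_const.mul (contDiff_prod fun i _ => ?_)
  exact ((LinearMap.toContinuousLinearMap (b.coord (σ i))).comp
    (ContinuousLinearMap.apply ℝ X (b i))).contDiff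

theorem flow_hasDerivAt_det [FiniteDimensional ℝ X] (A : X →L[ℝ] X) :
    HasDerivAt (fun h : ℝ => (ContinuousLinearMap.id ℝ X + h • A).det)
      (LinearMap.trace ℝ X (A : X →ₗ[ℝ] X)) 0 := by
  classical
  let b := Module.finBasis ℝ X
  set M := LinearMap.toMatrix b b (A : X →ₗ[ℝ] X) with hM
  set Q : Polynomial ℝ :=
    (Matrix.det (1 + (Polynomial.X : Polynomial ℝ) • M.map Polynomial.C)).divX.divX with hQ
  have h : (fun h : ℝ => (ContinuousLinearMap.id ℝ X + h • A).det) =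
      fun h : ℝ => 1 + M.trace * h + Q.eval h * h ^ 2 := by
    funext h
    rw [← Matrix.det_one_add_smul, ContinuousLinearMap.det, ← LinearMap.det_toMatrix b]
    congr 1
    simp [hM]
  rw [h, LinearMap.trace_eq_matrix_trace ℝ b]
  have h1 : HasDerivAt (fun h : ℝ => Q.eval h * h ^ 2) 0 0 := by
    have := (Q.hasDerivAt 0).fun_mul (hasDerivAt_pow 2 (0 : ℝ))
    simpa using this
  have h2 : HasDerivAt (fun h : ℝ => 1 + M.trace * h) M.trace 0 := by
    simpa using ((hasDerivAt_id (0 : ℝ)).const_mul M.trace).const_add 1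
  simpa using h2.fun_add h1

theorem flow_right_deriv {γ : ℝ → X} {v : X} {T s t : ℝ} (hs : 0 ≤ s) (ht : t ≤ T) {u : ℝ}
    (hu : u ∈ Ico s t) (h : HasDerivWithinAt γ v (Icc 0 T) u) : HasDerivWithinAt γ v (Ici u) u :=
  h.mono_of_mem_nhdsWithin (mem_of_superset (Icc_mem_nhdsGE (hu.2.trans_le ht))
    (Icc_subset_Icc_left (hs.trans hu.1)))

/-- forward a-priori bound -/
theorem flow_apriori_fwd {γ γ' : ℝ → X} {T C : ℝ} (hC : 0 ≤ C)
    (hγ : ∀ t ∈ Icc 0 T, HasDerivWithinAt γ (γ' t) (Icc 0 T) t)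
    (hb : ∀ t ∈ Icc 0 T, ‖γ' t‖ ≤ C * (1 + ‖γ t‖)) {s t : ℝ} (hs : s ∈ Icc 0 T)
    (ht : t ∈ Icc 0 T) (hst : s ≤ t) : ‖γ t‖ ≤ (1 + ‖γ s‖) * Real.exp (C * T) := by
  have hc : ContinuousOn γ (Icc 0 T) := fun u hu => (hγ u hu).continuousWithinAt
  have hsub : Icc s t ⊆ Icc 0 T := Icc_subset_Icc hs.1 ht.2
  have h1 := norm_le_gronwallBound_of_norm_deriv_right_le (f := γ) (f' := γ') (δ := ‖γ s‖)
    (K := C) (ε := C) (a := s) (b := t) (hc.mono hsub)
    (fun u hu => flow_right_deriv hs.1 ht.2 hu (hγ u (hsub (Ico_subset_Icc_self hu)))) le_rfl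
    (fun u hu => by have := hb u (hsub (Ico_subset_Icc_self hu)); linarith) t
    (right_mem_Icc.mpr hst)
  refine h1.trans ?_
  have h2 : Real.exp (C * (t - s)) ≤ Real.exp (C * T) :=
    Real.exp_le_exp.mpr (mul_le_mul_of_nonneg_left (by linarith [hs.1, ht.2]) hC)
  have h3 : 1 ≤ Real.exp (C * T) := Real.one_le_exp (mul_nonneg hC (hs.1.trans hs.2))
  have h4 := norm_nonneg (γ s)
  rcases hC.eq_or_lt with h0 | h0
  · subst h0
    rw [gronwallBound_K0]
    simp
  · rw [gronwallBound_of_K_ne_0 h0.ne']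
    simp only [div_self h0.ne', one_mul]
    nlinarith

/-- two-sided a-priori bound -/
theorem flow_apriori {γ γ' : ℝ → X} {T C : ℝ} (hC : 0 ≤ C)
    (hγ : ∀ t ∈ Icc 0 T, HasDerivWithinAt γ (γ' t) (Icc 0 T) t)
    (hb : ∀ t ∈ Icc 0 T, ‖γ' t‖ ≤ C * (1 + ‖γ t‖)) {s t : ℝ} (hs : s ∈ Icc 0 T)
    (ht : t ∈ Icc 0 T) : ‖γ t‖ ≤ (1 + ‖γ s‖) * Real.exp (C * T) := by
  rcases le_total s t with hst | hst
  · exact flow_apriori_fwd hC hγ hb hs ht hst
  · have hm : ∀ u ∈ Icc 0 T, T - u ∈ Icc 0 T := fun u hu => ⟨by linarith [hu.2], by linarith [hu.1]⟩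
    have := flow_apriori_fwd (γ := fun u => γ (T - u)) (γ' := fun u => -γ' (T - u)) (T := T) hC
      (fun u hu => by
        have h1 : HasDerivWithinAt (fun u : ℝ => T - u) (-1) (Icc 0 T) u := by
          simpa using ((hasDerivAt_id u).const_sub T).hasDerivWithinAt
        have h2 := (hγ (T - u) (hm u hu)).scomp u h1 hm
        simpa [Function.comp_def] using h2)
      (fun u hu => by simpa using hb (T - u) (hm u hu)) (hm s hs) (hm t ht) (by linarith)
    simpa using this

theorem flow_lip {b : ℝ × X → X} [FiniteDimensional ℝ X] (hb : ContDiff ℝ 2 b) (T R : ℝ) :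
    ∃ K : ℝ≥0, LipschitzOnWith K b (Icc 0 T ×ˢ closedBall 0 R) :=
  hb.contDiffOn.exists_lipschitzOnWith (by norm_num) ((convex_Icc 0 T).prod (convex_closedBall 0 R))
    (isCompact_Icc.prod (isCompact_closedBall 0 R))

omit [NormedSpace ℝ X] in
theorem flow_lip_slice {b : ℝ × X → X} {T R : ℝ} {K : ℝ≥0}
    (h : LipschitzOnWith K b (Icc 0 T ×ˢ closedBall 0 R)) {t : ℝ} (ht : t ∈ Icc 0 T) :
    LipschitzOnWith K (fun x => b (t, x)) (closedBall 0 R) := by
  refine LipschitzOnWith.of_dist_le_mul fun x hx y hy => ?_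
  have := h.dist_le_mul (t, x) ⟨ht, hx⟩ (t, y) ⟨ht, hy⟩
  simpa [Prod.dist_eq] using this

/-- global existence -/
theorem flow_exists [FiniteDimensional ℝ X] {b : ℝ × X → X} (hb : ContDiff ℝ 2 b) {T C : ℝ}
    (hC : 0 ≤ C) (hgrowth : ∀ τ ∈ Icc 0 T, ∀ x, ‖b (τ, x)‖ ≤ C * (1 + ‖x‖)) {s : ℝ}
    (hs : s ∈ Icc 0 T) (x : X) :
    ∃ γ : ℝ → X, γ s = x ∧ ∀ t ∈ Icc 0 T, HasDerivWithinAt γ (b (t, γ t)) (Icc 0 T) t := by
  have hT : 0 ≤ T := hs.1.trans hs.2
  set R := (1 + ‖x‖) * Real.exp (C * T) with hR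
  have hR0 : 0 < R := by positivity
  let χ : ContDiffBump (0 : X) := ⟨R, R + 1, hR0, by linarith⟩
  let c : ℝ × X → X := fun q => χ q.2 • b q
  have hc : ContDiff ℝ 2 c := (χ.contDiff.comp contDiff_snd).smul hb
  have hcg : ∀ τ ∈ Icc 0 T, ∀ y, ‖c (τ, y)‖ ≤ C * (1 + ‖y‖) := by
    intro τ hτ y
    simp only [c, norm_smul, Real.norm_eq_abs, abs_of_nonneg χ.nonneg]
    calc χ y * ‖b (τ, y)‖ ≤ 1 * ‖b (τ, y)‖ :=
          mul_le_mul_of_nonneg_right χ.le_one (norm_nonneg _)
      _ ≤ _ := by rw [one_mul]; exact hgrowth τ hτ y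
  let L : ℝ≥0 := ⟨C * (2 + R), by positivity⟩
  have hcL : ∀ τ ∈ Icc 0 T, ∀ y, ‖c (τ, y)‖ ≤ L := by
    intro τ hτ y
    by_cases hy : ‖y‖ ≤ R + 1
    · refine (hcg τ hτ y).trans ?_
      exact mul_le_mul_of_nonneg_left (by linarith) hC
    · have : χ y = 0 := χ.zero_of_le_dist (by simpa using (not_le.mp hy).le)
      simp [c, this]
  let a : ℝ≥0 := ⟨‖x‖ + L * T, by positivity⟩
  obtain ⟨K, hK⟩ := flow_lip hc T a
  have hPL : IsPicardLindelof (fun t y => c (t, y)) (⟨s, hs⟩ : Icc 0 T) (0 : X) a ‖x‖₊ L K :=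
    { lipschitzOnWith := fun t ht => flow_lip_slice hK ht
      continuousOn := fun y _ => (hc.continuous.comp (by fun_prop)).continuousOn
      norm_le := fun t ht y _ => hcL t ht y
      mul_max_le := by
        have h1 : max (T - s) (s - 0) ≤ T := max_le (by linarith [hs.1]) (by linarith [hs.2])
        have h2 := mul_le_mul_of_nonneg_left h1 L.2
        have h3 : (a : ℝ) = ‖x‖ + L * T := rfl
        simp only [h3, coe_nnnorm]
        simp only [NNReal.val_eq_coe] at h2
        linarith }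
  obtain ⟨γ, hγ0, hγ⟩ := hPL.exists_eq_forall_mem_Icc_hasDerivWithinAt (x := x) (by simp)
  refine ⟨γ, hγ0, fun t ht => ?_⟩
  have h1 := flow_apriori hC hγ (fun u hu => hcg u hu _) hs ht
  have hγ0' : γ s = x := hγ0
  rw [hγ0'] at h1
  have h2 : χ (γ t) = 1 := χ.one_of_mem_closedBall (by simpa using h1)
  simpa [c, h2] using hγ t ht

/-- the Euler step covers a smaller ball -/
theorem flow_euler_surj [CompleteSpace X] {f : X → X} {K : ℝ≥0} {R L h : ℝ} (hh : 0 ≤ h)
    (hf : LipschitzOnWith K f (closedBall 0 (R + 1)))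
    (hL : ∀ x ∈ closedBall (0 : X) (R + 1), ‖f x‖ ≤ L) (hK : h * K ≤ 1 / 2) (hhL : h * L ≤ 1)
    {y : X} (hy : ‖y‖ ≤ R) : ∃ x ∈ closedBall (0 : X) (R + 1), x + h • f x = y := by
  let g : X → X := fun x => y - h • f x
  have hm : MapsTo g (closedBall 0 (R + 1)) (closedBall 0 (R + 1)) := by
    intro x hx
    rw [mem_closedBall_zero_iff]
    calc ‖y - h • f x‖ ≤ ‖y‖ + ‖h • f x‖ := norm_sub_le _ _
      _ ≤ R + 1 := by
        rw [norm_smul, Real.norm_eq_abs, abs_of_nonneg hh]
        have := mul_le_mul_of_nonneg_left (hL x hx) hh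
        linarith
  have hcon : ContractingWith (1 / 2) (hm.restrict g _ _) := by
    refine ⟨by norm_num, LipschitzWith.of_dist_le_mul fun x x' => ?_⟩
    have h1 := hf.dist_le_mul x x.2 x' x'.2
    rw [Subtype.dist_eq, Subtype.dist_eq]
    simp only [MapsTo.val_restrict_apply, g, dist_sub_left, dist_smul₀, Real.norm_eq_abs,
      abs_of_nonneg hh]
    have h2 := mul_le_mul_of_nonneg_left h1 hh
    have h3 := mul_le_mul_of_nonneg_right hK (dist_nonneg (x := (x : X)) (y := x'))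
    push_cast
    nlinarith
  have hy' : y ∈ closedBall (0 : X) (R + 1) := by simp; linarith
  obtain ⟨x, hx, hfix, -⟩ := ContractingWith.exists_fixedPoint' isClosed_closedBall.isComplete hm
    hcon hy' (edist_ne_top _ _)
  exact ⟨x, hx, by rw [← hfix.eq]; simp only [g]; rw [show y - h • f x = x from hfix.eq]; exact
    (eq_sub_iff_add_eq.mp (hfix.eq).symm)⟩

theorem flow_euler_inj {f : X → X} {K : ℝ≥0} {S : Set X} {h : ℝ} (hh : 0 ≤ h)
    (hf : LipschitzOnWith K f S) (hK : h * K ≤ 1 / 2) : InjOn (fun x => x + h • f x) S := by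
  intro x hx x' hx' he
  have h1 := hf.dist_le_mul x hx x' hx'
  have h2 : x - x' = h • (f x' - f x) := by
    have : x + h • f x = x' + h • f x' := he
    rw [smul_sub]
    exact sub_eq_sub_iff_add_eq_add.mpr (by rw [this, add_comm])
  have h3 : dist x x' = h * dist (f x) (f x') := by
    rw [dist_eq_norm, h2, norm_smul, Real.norm_eq_abs, abs_of_nonneg hh, dist_comm, dist_eq_norm]
  have h4 := mul_le_mul_of_nonneg_left h1 hh
  have h5 := mul_le_mul_of_nonneg_right hK (dist_nonneg (x := x) (y := x'))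
  have h6 := dist_nonneg (x := x) (y := x')
  exact dist_le_zero.mp (by nlinarith)

end Calc

end Crest.Agent.R285
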