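import Mathlib
import Crest.Agent.R285.FlowAux

/-! Row 285: global flows of vector fields of linear growth and transport of densities. -/

set_option autoImplicit false

open MeasureTheory

namespace Crest.Agent.R285

section FlowLemmas

open Set Filter Topology Metric
open scoped NNReal ENNReal

variable {X : Type*} [NormedAddCommGroup X] [NormedSpace ℝ X]

/-- two-parameter flow of `b` on `[0, T]` -/
structure FlowData (b : ℝ × X → X) (T C : ℝ) (Φ : ℝ → X → ℝ → X) : Prop where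
  smooth : ContDiff ℝ 2 b
  C_nonneg : 0 ≤ C
  growth : ∀ τ ∈ Icc 0 T, ∀ x, ‖b (τ, x)‖ ≤ C * (1 + ‖x‖)
  init : ∀ s ∈ Icc 0 T, ∀ x, Φ s x s = x
  der : ∀ s ∈ Icc 0 T, ∀ x, ∀ t ∈ Icc 0 T,
    HasDerivWithinAt (Φ s x) (b (t, Φ s x t)) (Icc 0 T) t

variable {b : ℝ × X → X} {T C : ℝ} {Φ : ℝ → X → ℝ → X}

theorem FlowData.bound (h : FlowData b T C Φ) {s : ℝ} (hs : s ∈ Icc 0 T) (x : X) {u t : ℝ}
    (hu : u ∈ Icc 0 T) (ht : t ∈ Icc 0 T) :
    ‖Φ s x t‖ ≤ (1 + ‖Φ s x u‖) * Real.exp (C * T) :=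
  flow_apriori h.C_nonneg (h.der s hs x) (fun v hv => h.growth v hv _) hu ht

theorem FlowData.bound' (h : FlowData b T C Φ) {s : ℝ} (hs : s ∈ Icc 0 T) {x : X} {R : ℝ}
    (hx : ‖x‖ ≤ R) {t : ℝ} (ht : t ∈ Icc 0 T) :
    ‖Φ s x t‖ ≤ (1 + R) * Real.exp (C * T) := by
  refine (h.bound hs x hs ht).trans ?_
  rw [h.init s hs]
  exact mul_le_mul_of_nonneg_right (by linarith) (Real.exp_pos _).le

theorem FlowData.contOn (h : FlowData b T C Φ) {s : ℝ} (hs : s ∈ Icc 0 T) (x : X) :
    ContinuousOn (Φ s x) (Icc 0 T) := fun u hu => (h.der s hs x u hu).continuousWithinAt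

theorem FlowData.traj (h : FlowData b T C Φ) {R : ℝ} {K : ℝ≥0}
    (hK : LipschitzOnWith K b (Icc 0 T ×ˢ closedBall 0 R)) {s s' : ℝ} (hs : s ∈ Icc 0 T)
    (hs' : s' ∈ Icc 0 T) {x y : X} (hx : ∀ t ∈ Icc 0 T, ‖Φ s x t‖ ≤ R)
    (hy : ∀ t ∈ Icc 0 T, ‖Φ s' y t‖ ≤ R) {u t : ℝ} (hu : u ∈ Icc 0 T) (ht : t ∈ Icc 0 T)
    (hut : u ≤ t) :
    dist (Φ s x t) (Φ s' y t) ≤ dist (Φ s x u) (Φ s' y u) * Real.exp (K * T) := by
  have hsub : Icc u t ⊆ Icc 0 T := Icc_subset_Icc hu.1 ht.2
  have hsub' : Ico u t ⊆ Icc 0 T := Ico_subset_Icc_self.trans hsub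
  have := dist_le_of_trajectories_ODE_of_mem (v := fun t y => b (t, y))
    (s := fun _ => closedBall 0 R) (K := K) (f := Φ s x) (g := Φ s' y) (a := u) (b := t)
    (fun v hv => flow_lip_slice hK (hsub' hv)) ((h.contOn hs x).mono hsub)
    (fun v hv => flow_right_deriv hu.1 ht.2 hv (h.der s hs x v (hsub' hv)))
    (fun v hv => by simpa using hx v (hsub' hv)) ((h.contOn hs' y).mono hsub)
    (fun v hv => flow_right_deriv hu.1 ht.2 hv (h.der s' hs' y v (hsub' hv)))
    (fun v hv => by simpa using hy v (hsub' hv)) le_rfl t (right_mem_Icc.mpr hut)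
  refine this.trans (mul_le_mul_of_nonneg_left (Real.exp_le_exp.mpr ?_) dist_nonneg)
  exact mul_le_mul_of_nonneg_left (by linarith [hu.1, ht.2]) K.2

variable [FiniteDimensional ℝ X]

theorem FlowData.lip (h : FlowData b T C Φ) (R : ℝ) : ∃ Λ : ℝ, 0 ≤ Λ ∧ ∀ s ∈ Icc 0 T,
    ∀ t ∈ Icc 0 T, s ≤ t → ∀ x y : X, ‖x‖ ≤ R → ‖y‖ ≤ R →
      dist (Φ s x t) (Φ s y t) ≤ Λ * dist x y := by
  obtain ⟨K, hK⟩ := flow_lip h.smooth T ((1 + R) * Real.exp (C * T))
  refine ⟨Real.exp (K * T), (Real.exp_pos _).le, fun s hs t ht hst x y hx hy => ?_⟩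
  have := h.traj hK hs hs (fun v hv => h.bound' hs hx hv) (fun v hv => h.bound' hs hy hv) hs ht hst
  rwa [h.init s hs, h.init s hs, mul_comm] at this

theorem FlowData.semigroup (h : FlowData b T C Φ) {s u t : ℝ} (hs : s ∈ Icc 0 T)
    (hu : u ∈ Icc 0 T) (ht : t ∈ Icc 0 T) (hut : u ≤ t) (x : X) :
    Φ u (Φ s x u) t = Φ s x t := by
  obtain ⟨K, hK⟩ := flow_lip h.smooth T ((1 + ‖Φ s x u‖) * Real.exp (C * T))
  have := h.traj hK hu hs (x := Φ s x u) (y := x) (fun v hv => h.bound' hu le_rfl hv)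
    (fun v hv => h.bound hs x hu hv) hu ht hut
  rw [h.init u hu, dist_self, zero_mul] at this
  exact dist_le_zero.mp this

theorem FlowData.cont (h : FlowData b T C Φ) {s t : ℝ} (hs : s ∈ Icc 0 T) (ht : t ∈ Icc 0 T)
    (hst : s ≤ t) : Continuous fun x => Φ s x t := by
  refine continuous_iff_continuousAt.mpr fun x => ?_
  obtain ⟨Λ, hΛ, hl⟩ := h.lip (‖x‖ + 1)
  refine continuousAt_of_locally_lipschitz one_pos Λ fun y hy => ?_
  refine hl s hs t ht hst y x ?_ (by linarith)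
  have := norm_add_le x (y - x)
  rw [dist_eq_norm] at hy
  simp only [add_sub_cancel] at this
  linarith

theorem FlowData.euler (h : FlowData b T C Φ) {R : ℝ} (hR : 0 ≤ R) : ∃ A : ℝ, 0 ≤ A ∧
    ∀ s h' : ℝ, 0 ≤ s → 0 ≤ h' → s + h' ≤ T → ∀ x : X, ‖x‖ ≤ R →
      dist (Φ s x (s + h')) (x + h' • b (s, x)) ≤ A * h' * h' := by
  set R' := (1 + R) * Real.exp (C * T) with hR'
  obtain ⟨K, hK⟩ := flow_lip h.smooth T R'
  have hC := h.C_nonneg
  have hR'0 : 0 ≤ R' := by positivity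
  refine ⟨K * (1 + C * (1 + R')), by positivity, fun s h' hs0 hh hsT x hx => ?_⟩
  have hs : s ∈ Icc 0 T := ⟨hs0, by linarith⟩
  have hsub : Icc s (s + h') ⊆ Icc 0 T := Icc_subset_Icc hs0 hsT
  have hin : ∀ t ∈ Icc 0 T, ‖Φ s x t‖ ≤ R' := fun t ht => h.bound' hs hx ht
  have hxR : ‖x‖ ≤ R' := by have := hin s hs; rwa [h.init s hs] at this
  have hsp : ∀ t ∈ Icc s (s + h'), ‖Φ s x t - x‖ ≤ C * (1 + R') * h' := by
    intro t ht
    have := (convex_Icc 0 T).norm_image_sub_le_of_norm_hasDerivWithin_le (C := C * (1 + R'))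
      (h.der s hs x) (fun v hv => (h.growth v hv _).trans
        (mul_le_mul_of_nonneg_left (by linarith [hin v hv]) hC)) hs (hsub ht)
    rw [h.init s hs, Real.norm_eq_abs, abs_of_nonneg (by linarith [ht.1])] at this
    exact this.trans (mul_le_mul_of_nonneg_left (by linarith [ht.2]) (by positivity))
  have hd : ∀ t ∈ Icc s (s + h'), HasDerivWithinAt (fun t => Φ s x t - (t - s) • b (s, x))
      (b (t, Φ s x t) - b (s, x)) (Icc s (s + h')) t := by
    intro t ht
    have h1 := (h.der s hs x t (hsub ht)).mono hsub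
    have h2 : HasDerivWithinAt (fun t : ℝ => (t - s) • b (s, x)) (b (s, x)) (Icc s (s + h')) t := by
      simpa using (((hasDerivAt_id t).sub_const s).smul_const (b (s, x))).hasDerivWithinAt
    exact h1.sub h2
  have := (convex_Icc s (s + h')).norm_image_sub_le_of_norm_hasDerivWithin_le
    (C := K * (1 + C * (1 + R')) * h') hd (fun t ht => by
      have h1 := hK.dist_le_mul (t, Φ s x t) ⟨hsub ht, by simpa using hin t (hsub ht)⟩ (s, x)
        ⟨hs, by simpa using hxR⟩
      rw [dist_eq_norm] at h1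
      refine h1.trans ?_
      rw [mul_assoc]
      refine mul_le_mul_of_nonneg_left ?_ K.2
      rw [Prod.dist_eq, Real.dist_eq, dist_eq_norm]
      have h3 : 0 ≤ C * (1 + R') * h' := by positivity
      refine max_le ?_ ?_
      · simp only
        rw [abs_of_nonneg (by linarith [ht.1])]
        nlinarith [ht.2]
      · have := hsp t ht
        simp only
        nlinarith)
    (left_mem_Icc.mpr (by linarith)) (right_mem_Icc.mpr (by linarith))
  rw [h.init s hs] at this
  simp only [add_sub_cancel_left, sub_self, zero_smul, sub_zero, Real.norm_eq_abs,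
    abs_of_nonneg hh] at this
  rw [dist_eq_norm]
  rwa [← sub_sub, sub_right_comm]

/-- the defect of the Euler step in the continuity equation -/
theorem flow_defect {p : ℝ × X → ℝ} (hb : ContDiff ℝ 2 b) (hp : ContDiff ℝ 2 p)
    (hcont : ∀ τ ∈ Icc 0 T, ∀ x, fderiv ℝ p (τ, x) (1, b (τ, x)) + p (τ, x) *
      LinearMap.trace ℝ X (fderiv ℝ (fun y => b (τ, y)) x : X →ₗ[ℝ] X) = 0) (R : ℝ) :
    ∀ ε > 0, ∃ δ > 0, ∀ s ∈ Icc 0 T, ∀ x : X, ‖x‖ ≤ R → ∀ h, 0 ≤ h → h ≤ δ →
      |(ContinuousLinearMap.id ℝ X + h • fderiv ℝ (fun y => b (s, y)) x).det *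
        p (s + h, x + h • b (s, x)) - p (s, x)| ≤ ε * h := by
  have hD : ∀ q : ℝ × X, fderiv ℝ (fun y => b (q.1, y)) q.2 =
      (fderiv ℝ b q).comp (ContinuousLinearMap.inr ℝ ℝ X) := by
    intro q
    have h1 : HasFDerivAt (fun y : X => ((q.1, y) : ℝ × X)) (ContinuousLinearMap.inr ℝ ℝ X) q.2 :=
      hasFDerivAt_prodMk_right q.1 q.2
    exact ((hb.differentiable (by norm_num) q).hasFDerivAt.comp q.2 h1).fderiv
  have hDc : ContDiff ℝ 1 fun q : ℝ × X => fderiv ℝ (fun y => b (q.1, y)) q.2 := by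
    simp only [hD]
    exact (hb.fderiv_right (m := 1) (by norm_num)).clm_comp contDiff_const
  have hb1 : ContDiff ℝ 1 b := hb.of_le (by norm_num)
  have hp1 : ContDiff ℝ 1 p := hp.of_le (by norm_num)
  let G : (ℝ × X) × ℝ → ℝ := fun q =>
    (ContinuousLinearMap.id ℝ X + q.2 • fderiv ℝ (fun y => b (q.1.1, y)) q.1.2).det *
      p (q.1.1 + q.2, q.1.2 + q.2 • b q.1) - p q.1
  have hG : ContDiff ℝ 1 G := by
    refine ContDiff.sub (ContDiff.mul (flow_contDiff_det.comp
      (contDiff_const.add (contDiff_snd.smul (hDc.comp contDiff_fst)))) (hp1.comp ?_))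
      (hp1.comp contDiff_fst)
    exact ((contDiff_fst.comp contDiff_fst).add contDiff_snd).prodMk
      ((contDiff_snd.comp contDiff_fst).add (contDiff_snd.smul (hb1.comp contDiff_fst)))
  intro ε hε
  obtain ⟨δ, hδ, hG'⟩ := flow_unif_littleo hG
    (K := Icc (0 : ℝ) T ×ˢ closedBall (0 : X) R)
    (isCompact_Icc.prod (isCompact_closedBall (0 : X) R))
    (fun y _ => by simp [G, ContinuousLinearMap.det])
    (fun y hy => by
      have h1 := flow_hasDerivAt_det (fderiv ℝ (fun z => b (y.1, z)) y.2)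
      have h2 : HasDerivAt (fun h : ℝ => ((y.1 + h, y.2 + h • b y) : ℝ × X)) (1, b y) 0 := by
        refine ((hasDerivAt_id (0 : ℝ)).const_add y.1).prodMk ?_
        simpa using ((hasDerivAt_id (0 : ℝ)).smul_const (b y)).const_add y.2
      have h3 : HasFDerivAt p (fderiv ℝ p y) (y.1 + 0, y.2 + (0 : ℝ) • b y) := by
        simpa using (hp1.differentiable one_ne_zero y).hasFDerivAt
      have h4 := (h1.fun_mul (h3.comp_hasDerivAt (0 : ℝ) h2)).sub_const (p y)
      have h5 := hcont y.1 hy.1 y.2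
      refine h4.congr_deriv ?_
      simp only [zero_smul, add_zero, Function.comp_apply, ContinuousLinearMap.det,
        ContinuousLinearMap.coe_id, LinearMap.det_id, one_mul]
      simp only [Prod.mk.eta] at h5 ⊢
      linarith) ε hε
  exact ⟨δ, hδ, fun s hs x hx h hh hhδ => hG' (s, x) ⟨hs, by simpa using hx⟩ h hh hhδ⟩

variable [MeasurableSpace X] [BorelSpace X]

theorem FlowData.transport (h : FlowData b T C Φ) (μ : Measure X) [μ.IsAddHaarMeasure]
    {p : ℝ × X → ℝ} (hp : ContDiff ℝ 2 p) (hp0 : ∀ q, 0 ≤ p q)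
    (hcont : ∀ τ ∈ Icc 0 T, ∀ x, fderiv ℝ p (τ, x) (1, b (τ, x)) + p (τ, x) *
      LinearMap.trace ℝ X (fderiv ℝ (fun y => b (τ, y)) x : X →ₗ[ℝ] X) = 0)
    {τ : ℝ} (hτ : τ ∈ Icc 0 T) {φ : X → ℝ} {Kφ : ℝ≥0} {r : ℝ} (hφ : LipschitzWith Kφ φ)
    (hφ1 : ∀ x, |φ x| ≤ 1) (hφr : ∀ x, r < ‖x‖ → φ x = 0) :
    ∫ x, φ x * p (τ, x) ∂μ = ∫ x, φ (Φ 0 x τ) * p (0, x) ∂μ := by
  have hC := h.C_nonneg
  have hT : 0 ≤ T := hτ.1.trans hτ.2
  have hbd := h.smooth.differentiable (by norm_num)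
  -- radii
  set R₀ := (1 + |r|) * Real.exp (C * T) with hR₀
  have hR₀0 : 0 ≤ R₀ := by positivity
  have hsupp : ∀ s ∈ Icc 0 T, ∀ x, R₀ < ‖x‖ → φ (Φ s x τ) = 0 := by
    intro s hs x hx
    apply hφr
    by_contra hc
    have h1 := h.bound hs x hτ hs
    rw [h.init s hs] at h1
    have h2 : (1 + ‖Φ s x τ‖) * Real.exp (C * T) ≤ R₀ :=
      mul_le_mul_of_nonneg_right (by linarith [le_abs_self r, not_lt.mp hc]) (Real.exp_pos _).le
    linarith
  set B : Set X := closedBall 0 (R₀ + 1) with hB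
  have hBc : IsCompact B := isCompact_closedBall _ _
  have hBn : ∀ x ∈ B, ‖x‖ ≤ R₀ + 1 := fun x hx => by simpa [hB] using hx
  set L := C * (1 + (R₀ + 1)) with hL
  have hL0 : 0 ≤ L := by positivity
  have hbL : ∀ s ∈ Icc 0 T, ∀ x ∈ B, ‖b (s, x)‖ ≤ L := fun s hs x hx =>
    (h.growth s hs x).trans (mul_le_mul_of_nonneg_left (by linarith [hBn x hx]) hC)
  obtain ⟨K, hK⟩ := flow_lip h.smooth T (R₀ + 1)
  set R₂ := (1 + (R₀ + 1)) * Real.exp (C * T) with hR₂
  have hR₂ge : R₀ + 2 ≤ R₂ := by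
    have : 1 ≤ Real.exp (C * T) := Real.one_le_exp (mul_nonneg hC hT)
    nlinarith
  obtain ⟨Λ, hΛ, hlip⟩ := h.lip R₂
  obtain ⟨A, hA, heul⟩ := h.euler (R := R₀ + 1) (by linarith)
  obtain ⟨P, hP⟩ := (isCompact_Icc.prod hBc : IsCompact (Icc 0 T ×ˢ B)).exists_bound_of_continuousOn
    hp.continuous.continuousOn
  have hP0 : 0 ≤ P := (norm_nonneg _).trans (hP (0, 0) ⟨⟨le_rfl, hT⟩, by simp [hB]; linarith⟩)
  set m := μ.real B with hm
  have hm0 : 0 ≤ m := measureReal_nonneg
  let I : ℝ → ℝ := fun s => ∫ x, φ (Φ s x τ) * p (s, x) ∂μ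
  have hI : I τ = I 0 := by
    refine flow_const_of_unif hτ.1 fun ε hε => ?_
    set ε' := ε / (2 * (m + 1)) with hε'
    have hε'0 : 0 < ε' := by positivity
    obtain ⟨δ₁, hδ₁, hdef⟩ := flow_defect h.smooth hp hcont (R₀ + 1) ε' hε'0
    set D := Kφ * Λ * A * P with hD
    have hD0 : 0 ≤ D := by positivity
    refine ⟨min δ₁ (min (1 / (2 * (K + 1))) (min (1 / (L + 1)) (ε' / (D + 1)))), by positivity,
      fun s t hs0 ht0 htδ hst => ?_⟩
    have ht1 : t ≤ δ₁ := htδ.trans (min_le_left _ _)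
    have ht2 : t * K ≤ 1 / 2 := by
      have : t ≤ 1 / (2 * (K + 1)) := htδ.trans ((min_le_right _ _).trans (min_le_left _ _))
      rw [le_div_iff₀ (by positivity)] at this
      nlinarith [K.2]
    have ht3 : t * L ≤ 1 := by
      have : t ≤ 1 / (L + 1) :=
        htδ.trans ((min_le_right _ _).trans ((min_le_right _ _).trans (min_le_left _ _)))
      rw [le_div_iff₀ (by positivity)] at this
      nlinarith
    have ht4 : D * t ≤ ε' := by
      have : t ≤ ε' / (D + 1) :=
        htδ.trans ((min_le_right _ _).trans ((min_le_right _ _).trans (min_le_right _ _)))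
      rw [le_div_iff₀ (by positivity)] at this
      nlinarith
    have hs : s ∈ Icc 0 T := ⟨hs0, by linarith [hτ.2]⟩
    have hs' : s + t ∈ Icc 0 T := ⟨by linarith, by linarith [hτ.2]⟩
    let F : X → X := fun x => x + t • b (s, x)
    let F' : X → X →L[ℝ] X := fun x =>
      ContinuousLinearMap.id ℝ X + t • fderiv ℝ (fun y => b (s, y)) x
    let w : X → ℝ := fun y => φ (Φ (s + t) y τ)
    have hbs : ContDiff ℝ 2 fun y => b (s, y) := h.smooth.comp (by fun_prop)
    have hF : ∀ x, HasFDerivAt F (F' x) x := fun x =>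
      (hasFDerivAt_id x).add
        ((hbs.differentiable (by norm_num) x).hasFDerivAt.const_smul t)
    have hFc : Continuous F := continuous_id.add (hbs.continuous.const_smul t)
    have hF'c : Continuous fun x => (F' x).det :=
      (flow_contDiff_det (n := 0)).continuous.comp
        (continuous_const.add ((hbs.continuous_fderiv (by norm_num)).const_smul t))
    have hwc : Continuous w := hφ.continuous.comp (h.cont hs' hτ hst)
    have hKs := flow_lip_slice hK hs
    have e1 : I (s + t) = ∫ x in B, |(F' x).det| • (w (F x) * p (s + t, F x)) ∂μ := by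
      rw [← integral_image_eq_integral_abs_det_fderiv_smul μ hBc.measurableSet
        (fun x _ => (hF x).hasFDerivWithinAt) (flow_euler_inj ht0 hKs ht2)
        (fun y => w y * p (s + t, y))]
      symm
      apply setIntegral_eq_integral_of_forall_compl_eq_zero
      intro y hy
      have : R₀ < ‖y‖ := by
        by_contra hc
        obtain ⟨x, hx, hxy⟩ := flow_euler_surj ht0 hKs (hbL s hs) ht2 ht3 (not_lt.mp hc)
        exact hy ⟨x, hx, hxy⟩
      simp [w, hsupp _ hs' y this]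
    have e2 : I s = ∫ x in B, w (Φ s x (s + t)) * p (s, x) ∂μ := by
      have : ∀ x, w (Φ s x (s + t)) = φ (Φ s x τ) := fun x => by
        simp only [w, h.semigroup hs hs' hτ hst x]
      simp only [this]
      symm
      apply setIntegral_eq_integral_of_forall_compl_eq_zero
      intro y hy
      have : R₀ < ‖y‖ := by
        have : R₀ + 1 < ‖y‖ := by simpa [hB] using hy
        linarith
      simp [hsupp _ hs y this]
    have hpc := hp.continuous
    have i1 : IntegrableOn (fun x => |(F' x).det| • (w (F x) * p (s + t, F x))) B μ := by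
      refine ContinuousOn.integrableOn_compact hBc (Continuous.continuousOn ?_)
      exact hF'c.abs.smul ((hwc.comp hFc).mul (hpc.comp (continuous_const.prodMk hFc)))
    have i2 : IntegrableOn (fun x => w (Φ s x (s + t)) * p (s, x)) B μ := by
      refine ContinuousOn.integrableOn_compact hBc (Continuous.continuousOn ?_)
      exact (hwc.comp (h.cont hs hs' (by linarith))).mul
        (hpc.comp (continuous_const.prodMk continuous_id))
    rw [e1, e2, ← integral_sub i1 i2, ← Real.norm_eq_abs]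
    have hpt : ∀ x ∈ B, ‖|(F' x).det| • (w (F x) * p (s + t, F x)) -
        w (Φ s x (s + t)) * p (s, x)‖ ≤ 2 * ε' * t := by
      intro x hx
      have a1 := hdef s hs x (hBn x hx) t ht0 ht1
      have a2 : abs (|(F' x).det| * p (s + t, F x) - p (s, x)) ≤ ε' * t := by
        refine le_trans ?_ a1
        have := abs_abs_sub_abs_le_abs_sub ((F' x).det * p (s + t, F x)) (p (s, x))
        rwa [abs_mul, abs_of_nonneg (hp0 _), abs_of_nonneg (hp0 _)] at this
      have a3 : ‖F x‖ ≤ R₂ := by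
        have := norm_add_le x (t • b (s, x))
        rw [norm_smul, Real.norm_eq_abs, abs_of_nonneg ht0] at this
        have h2 := mul_le_mul_of_nonneg_left (hbL s hs x hx) ht0
        have h3 := hBn x hx
        simp only [F]
        linarith
      have a4 : ‖Φ s x (s + t)‖ ≤ R₂ := h.bound' hs (hBn x hx) hs'
      have a5 : |w (F x) - w (Φ s x (s + t))| ≤ Kφ * (Λ * (A * t * t)) := by
        rw [← Real.dist_eq]
        refine (hφ.dist_le_mul _ _).trans (mul_le_mul_of_nonneg_left ?_ Kφ.2)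
        refine (hlip _ hs' τ hτ hst _ _ a3 a4).trans (mul_le_mul_of_nonneg_left ?_ hΛ)
        rw [dist_comm]
        exact heul s t hs0 ht0 hs'.2 x (hBn x hx)
      have a6 : p (s, x) ≤ P := (le_abs_self _).trans (hP (s, x) ⟨hs, hx⟩)
      have a7 : |w (F x)| ≤ 1 := hφ1 _
      have e : |(F' x).det| • (w (F x) * p (s + t, F x)) - w (Φ s x (s + t)) * p (s, x) =
          w (F x) * (|(F' x).det| * p (s + t, F x) - p (s, x)) +
            (w (F x) - w (Φ s x (s + t))) * p (s, x) := by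
        rw [smul_eq_mul]; ring
      rw [e, Real.norm_eq_abs]
      refine (abs_add_le _ _).trans ?_
      rw [abs_mul, abs_mul, abs_of_nonneg (hp0 _)]
      have b1 : |w (F x)| * abs (|(F' x).det| * p (s + t, F x) - p (s, x)) ≤ 1 * (ε' * t) :=
        mul_le_mul a7 a2 (abs_nonneg _) zero_le_one
      have b2 : |w (F x) - w (Φ s x (s + t))| * p (s, x) ≤ Kφ * (Λ * (A * t * t)) * P :=
        mul_le_mul a5 a6 (hp0 _) (by positivity)
      have b3 : Kφ * (Λ * (A * t * t)) * P = D * t * t := by rw [hD]; ring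
      have b4 : D * t * t ≤ ε' * t := mul_le_mul_of_nonneg_right ht4 ht0
      linarith
    refine (norm_setIntegral_le_of_norm_le_const hBc.measure_lt_top hpt).trans ?_
    rw [← hm]
    have : 2 * ε' * (m + 1) = ε := by rw [hε']; field_simp
    nlinarith [mul_nonneg hε'0.le ht0]
  simp only [I, h.init τ hτ] at hI
  exact hI

omit [NormedSpace ℝ X] [FiniteDimensional ℝ X] in
theorem flow_finite_withDensity (μ : Measure X) [IsFiniteMeasureOnCompacts μ] {f : X → ℝ}
    (hf : Continuous f) : IsFiniteMeasureOnCompacts (μ.withDensity fun x => ENNReal.ofReal (f x)) := by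
  refine ⟨fun K hK => ?_⟩
  rw [withDensity_apply _ hK.measurableSet]
  exact (hf.continuousOn.integrableOn_compact hK).lintegral_lt_top

end FlowLemmas

theorem exists_transport_flow {X : Type} [NormedAddCommGroup X] [NormedSpace ℝ X]
    [FiniteDimensional ℝ X] [MeasurableSpace X] [BorelSpace X] (μ : Measure X)
    [μ.IsAddHaarMeasure] (b : ℝ × X → X) (p : ℝ × X → ℝ) (hb : ContDiff ℝ 2 b)
    (hp : ContDiff ℝ 2 p) (hp0 : ∀ q, 0 ≤ p q) {T C : ℝ} (hT : 0 ≤ T)
    (hgrowth : ∀ τ ∈ Set.Icc 0 T, ∀ x, ‖b (τ, x)‖ ≤ C * (1 + ‖x‖))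
    (hcont : ∀ τ ∈ Set.Icc 0 T, ∀ x, fderiv ℝ p (τ, x) (1, b (τ, x)) + p (τ, x) *
      LinearMap.trace ℝ X (fderiv ℝ (fun y => b (τ, y)) x : X →ₗ[ℝ] X) = 0) :
    ∃ Ψ : ℝ → X → X, Measurable (Function.uncurry Ψ) ∧ (∀ x, Ψ 0 x = x) ∧
      (∀ x, ∀ τ ∈ Set.Icc 0 T, HasDerivWithinAt (fun s => Ψ s x) (b (τ, Ψ τ x)) (Set.Icc 0 T) τ) ∧
      ∀ τ ∈ Set.Icc 0 T, (μ.withDensity fun x => ENNReal.ofReal (p (0, x))).map (Ψ τ) =
        μ.withDensity fun x => ENNReal.ofReal (p (τ, x)) := by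
  have h0 : (0 : ℝ) ∈ Set.Icc 0 T := ⟨le_rfl, hT⟩
  have hC : 0 ≤ C := by
    have := (norm_nonneg _).trans (hgrowth 0 h0 0)
    simpa using this
  have : ProperSpace X := FiniteDimensional.proper_real X
  choose! Φ hΦ0 hΦ using fun s (hs : s ∈ Set.Icc 0 T) x => flow_exists hb hC hgrowth hs x
  have h : FlowData b T C Φ := ⟨hb, hC, hgrowth, hΦ0, hΦ⟩
  have hΨ : ∀ τ ∈ Set.Icc 0 T, ∀ x, Φ 0 x (Set.projIcc 0 T hT τ) = Φ 0 x τ := by
    intro τ hτ x
    rw [Set.projIcc_of_mem hT hτ]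
  refine ⟨fun τ x => Φ 0 x (Set.projIcc 0 T hT τ), ?_, ?_, ?_, ?_⟩
  · refine measurable_uncurry_of_continuous_of_measurable (fun x => ?_) (fun τ => ?_)
    · exact (h.contOn h0 x).comp_continuous
        (continuous_subtype_val.comp continuous_projIcc) (fun τ => (Set.projIcc 0 T hT τ).2)
    · exact (h.cont h0 (Set.projIcc 0 T hT τ).2 (Set.projIcc 0 T hT τ).2.1).measurable
  · intro x
    simp only [hΨ 0 h0, hΦ0 0 h0]
  · intro x τ hτ
    simp only [hΨ τ hτ]
    exact (hΦ 0 h0 x τ hτ).congr_of_mem (fun s hs => hΨ s hs x) hτ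
  · intro τ hτ
    simp only [hΨ τ hτ]
    have hc := h.cont h0 hτ hτ.1
    have hpc : ∀ s, Continuous fun x => p (s, x) := fun s =>
      hp.continuous.comp (continuous_const.prodMk continuous_id)
    have i0 := flow_finite_withDensity μ (hpc 0)
    have iτ := flow_finite_withDensity μ (hpc τ)
    have i1 : IsFiniteMeasureOnCompacts
        ((μ.withDensity fun x => ENNReal.ofReal (p (0, x))).map fun x => Φ 0 x τ) := by
      refine ⟨fun K hK => ?_⟩
      rw [Measure.map_apply hc.measurable hK.measurableSet]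
      obtain ⟨r, hr⟩ := hK.isBounded.subset_closedBall 0
      refine lt_of_le_of_lt (measure_mono ?_)
        (isCompact_closedBall (0 : X) ((1 + r) * Real.exp (C * T))).measure_lt_top
      intro x hx
      have h1 := h.bound h0 x hτ h0
      rw [hΦ0 0 h0] at h1
      have h2 : ‖Φ 0 x τ‖ ≤ r := by simpa using hr hx
      rw [mem_closedBall_zero_iff]
      exact h1.trans (mul_le_mul_of_nonneg_right (by linarith) (Real.exp_pos _).le)
    refine flow_measure_ext _ _ fun φ K r hφ hφ1 hφr => ?_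
    rw [integral_map hc.measurable.aemeasurable hφ.continuous.aestronglyMeasurable,
      integral_withDensity_eq_integral_toReal_smul (hpc 0).measurable.ennreal_ofReal
        (Filter.Eventually.of_forall fun _ => ENNReal.ofReal_lt_top),
      integral_withDensity_eq_integral_toReal_smul (hpc τ).measurable.ennreal_ofReal
        (Filter.Eventually.of_forall fun _ => ENNReal.ofReal_lt_top)]
    simp only [ENNReal.toReal_ofReal (hp0 _), smul_eq_mul]
    have := h.transport μ hp hp0 hcont hτ hφ hφ1 hφr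
    simp only [mul_comm (p _)]
    exact this.symm

end Crest.Agent.R285
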