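import Crest.Agent.R285.CTcAux

/-! Row 285: the error of the circuit. -/

set_option autoImplicit false

open MeasureTheory Crest.OracleSampling

namespace Crest.Agent.R285

theorem CTc_le_cosh (x : ℝ) (hx : 0 ≤ x) : x ≤ Real.cosh x := by
  have h1 := Real.self_le_sinh_iff.2 hx
  have h2 := Real.sinh_lt_cosh x
  linarith

theorem circ_err (k : ℕ) (C : ℝ) : ∃ (c : ℝ) (N : ℕ), 1 ≤ c ∧
    ∀ (d M : ℕ) (h κ K δ : ℝ), CHyp k M C h κ K δ →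
    ∀ (Ql : Quad k C 1 h) (Qg : Quad k C M h) (W : E d → ℝ), Pot 0 δ W →
      ∃ Ψ : E d × E d → E d × E d, Measurable Ψ ∧ ((gam d).prod (gam d)).map Ψ = pp W (M * h) ∧
        ∫⁻ x, ‖x.1 + cFz Ql Qg κ (uu W) x - (Ψ x).1‖ₑ ∂((gam d).prod (gam d)) ≤
          ENNReal.ofReal (c * Real.cosh (M * h + 1) ^ N * h ^ k * MM W) ∧
        ∫⁻ x, ‖x.2 + κ • (uu W (M * h) (x.1 + cFz Ql Qg κ (uu W) x) + cFs Ql Qg κ K (uu W) x) -
            (κ • mn W 0 1 + (Ψ x).2)‖ₑ ∂((gam d).prod (gam d)) ≤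
          ENNReal.ofReal (κ * δ * (c * Real.cosh (M * h + 1) ^ N * h ^ k) * MM W) := by
  by_cases hC : 1 ≤ C
  swap
  · exact ⟨1, 0, le_rfl, fun d M h κ K δ H => absurd H.hC hC⟩
  obtain ⟨CF, N, hCF, hF⟩ := flow_interface k
  have hc4 : 1 ≤ CTc_c4 k C := (CTc_c3_ge k hC).trans (CTc_c4_ge k hC)
  refine ⟨CTc_c4 k C * CF, N + 2, one_le_mul_of_one_le_of_one_le hc4 hCF,
    fun d M h κ K δ H Ql Qg W hW => ?_⟩
  have hh := H.hh
  obtain ⟨Q0, Hg, Q2, hQ, hH, hQ2, F⟩ := hF d δ W hW H.hδ (by linarith [H.δ_le, H.h_le])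
  have hM : 0 ≤ MM W := by unfold MM; positivity
  have hcosh := Real.cosh_pos (M * h + 1)
  have hT : (0 : ℝ) ≤ M * h := by positivity
  obtain ⟨Ψ, h1, h2, h3, h4⟩ := CTc_global (B := CF * Real.cosh (M * h + 1) ^ N * MM W)
    (Λ := Real.cosh (M * h + 1)) H hW (by positivity) (F (M * h + 1)) Ql Qg hQ hH hQ2
    (Real.one_le_cosh _) (by linarith [CTc_le_cosh (M * h + 1) (by linarith)])
  exact ⟨Ψ, h1, h2, CTc_mono h3 (le_of_eq (by ring)), CTc_mono h4 (le_of_eq (by ring))⟩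

end Crest.Agent.R285
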