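import Crest.Agent.R285.CTb
import Crest.Agent.R285.CTc

/-! Row 285: existence of the circuit. -/

set_option autoImplicit false

open MeasureTheory Crest.OracleSampling

namespace Crest.Agent.R285

theorem circuit (k : ℕ) (hk : 1 ≤ k) : ∃ (C : ℝ) (N : ℕ), 1 ≤ C ∧
    ∀ (d M nx : ℕ) (h Λ P εd : ℝ), 0 < M → 0 < h → C * h ≤ 1 → Real.cosh (M * h + 1) ≤ Λ →
      C * Λ ^ N / h ^ 4 ≤ P → P ≤ nx → C * Λ ^ N * h ^ k ≤ εd → Circ d (M * h) P εd nx := by
  obtain ⟨Cq, hCq, hQ⟩ := exists_quad k hk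
  obtain ⟨cN, hcN, hNL⟩ := circ_NL k Cq
  obtain ⟨cE, N, hcE, hE⟩ := circ_err k Cq
  have hk0 : (0 : ℝ) ≤ k := by positivity
  have hA : 0 ≤ 32 * (k + 1) * Cq ^ 2 := by positivity
  set C : ℝ := 6 * Cq + 32 * (k + 1) * Cq ^ 2 + cN + cE with hC
  have hC1 : 1 ≤ C := by linarith
  refine ⟨C, N + 1, hC1, fun d M nx h Λ P εd hM hh hCh hΛ hP hnx hε => ?_⟩
  intro κ K δ hκ hκK hK hδ hsm
  have hT : (0 : ℝ) ≤ M * h := by positivity
  have hh1 : h ≤ 1 := by nlinarith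
  have hΛ1 : 1 ≤ Λ := (Real.one_le_cosh _).trans hΛ
  have hTΛ : 1 + M * h ≤ Λ := by linarith [CTc_le_cosh (M * h + 1) (by linarith)]
  have hΛN : Λ ≤ Λ ^ (N + 1) := le_self_pow₀ hΛ1 (by omega)
  have hP' : ∀ (c : ℝ) (j : ℕ), c ≤ C → j ≤ 4 → c * (1 + M * h) / h ^ j ≤ P := fun c j hc hj => by
    refine le_trans ?_ hP
    have h1 : h ^ 4 ≤ h ^ j := pow_le_pow_of_le_one hh.le hh1 hj
    calc c * (1 + M * h) / h ^ j ≤ C * (1 + M * h) / h ^ j := by gcongr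
      _ ≤ _ := by gcongr; linarith
  have H : CHyp k M Cq h κ K δ := by
    refine ⟨hCq, hh, ?_, hκ, hκK, hK, hδ, hM, ?_⟩
    · refine le_trans ?_ hCh
      gcongr
      linarith
    · have h1 := hP' (32 * (k + 1) * Cq ^ 2) 3 (by linarith) (by norm_num)
      calc Cq * (1 + M * h) * ((1 + K) * (2 * (k + 1) / h) * (16 * Cq * δ / h))
          = (1 + K) * δ * (32 * (k + 1) * Cq ^ 2 * (1 + M * h) / h ^ 3) * h := by
            field_simp
            ring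
        _ ≤ (1 + K) * δ * P * h := by gcongr
        _ ≤ 1 * h := by gcongr
        _ = h := one_mul h
  obtain ⟨Ql⟩ := hQ 1 h one_pos hh
  obtain ⟨Qg⟩ := hQ M h hM hh
  obtain ⟨h1, h2⟩ := hNL d M nx h κ K δ P H (hP' cN 2 (by linarith) (by norm_num)) hnx Ql Qg
  refine ⟨cFz Ql Qg κ, cFs Ql Qg κ K, h1, h2, fun W hW => ?_⟩
  have U := CTc_uok H hW
  have hMM : 0 ≤ MM W := by unfold MM; positivity
  refine ⟨fun x => ?_, cFz_lip H U Ql Qg, fun x y => (cFs_lip H U Ql Qg x y).trans ?_, ?_⟩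
  · have h3 := hP' (6 * Cq) 0 (by linarith) (by norm_num)
    rw [pow_zero, div_one] at h3
    have h4 : x.1 + cFz Ql Qg κ (uu W) x = (pG Ql Qg κ (uu W) (k + 1) Qg.last x).1 := by
      simp [cFz]
    rw [h4, mul_add]
    refine (norm_fst_le _).trans ((pG_growth H U Ql Qg _ _ x).trans ?_)
    have h5 : 0 ≤ Cq * (M * h) := by positivity
    gcongr <;> nlinarith
  · have h3 := hP' (32 * Cq ^ 2) 1 (by nlinarith) (by norm_num)
    rw [pow_one] at h3
    gcongr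
    refine le_trans ?_ h3
    gcongr
    linarith
  · obtain ⟨Ψ, e1, e2, e3, e4⟩ := hE d M h κ K δ H Ql Qg W hW
    have h3 : cE * Real.cosh (M * h + 1) ^ N * h ^ k ≤ εd := by
      refine le_trans ?_ hε
      have h4 : Real.cosh (M * h + 1) ^ N ≤ Λ ^ (N + 1) :=
        (pow_le_pow_left₀ (Real.cosh_pos _).le hΛ N).trans (pow_le_pow_right₀ hΛ1 (by omega))
      gcongr
      linarith
    exact ⟨Ψ, e1, e2, CTc_mono e3 (by gcongr), CTc_mono e4 (by gcongr)⟩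

end Crest.Agent.R285
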