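import Crest.Agent.R285.Tilt
import Crest.Agent.Lib.PL.PrekopaLeindler

/-! Row 285: auxiliary material for the Poincaré inequality. -/

set_option autoImplicit false

open MeasureTheory ProbabilityTheory Crest.OracleSampling Filter Topology
open scoped ENNReal NNReal RealInnerProductSpace

namespace Crest.Agent.R285.PoincareAux

section PG

variable {X Y Z : Type*} [SeminormedAddCommGroup X] [SeminormedAddCommGroup Y]
  [SeminormedAddCommGroup Z]

lemma pg_nonneg {f : X → Y} (h : PGrowth f) :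
    ∃ (C : ℝ) (n : ℕ), 0 ≤ C ∧ ∀ x, ‖f x‖ ≤ C * (1 + ‖x‖) ^ n := by
  obtain ⟨C, n, h⟩ := h
  refine ⟨|C|, n, abs_nonneg _, fun x => (h x).trans ?_⟩
  gcongr
  exact le_abs_self _

lemma pg_of_le {f : X → Y} {g : X → Z} (h : PGrowth g) (hle : ∀ x, ‖f x‖ ≤ ‖g x‖) :
    PGrowth f := by
  obtain ⟨C, n, h⟩ := h
  exact ⟨C, n, fun x => (hle x).trans (h x)⟩

lemma pg_const (c : Y) : PGrowth fun _ : X => c := ⟨‖c‖, 0, fun x => by simp⟩

lemma pg_id : PGrowth fun x : X => x := ⟨1, 1, fun x => by simp⟩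

lemma pg_add {f g : X → Y} (hf : PGrowth f) (hg : PGrowth g) : PGrowth fun x => f x + g x := by
  obtain ⟨C, n, hC, h⟩ := pg_nonneg hf
  obtain ⟨C', n', hC', h'⟩ := pg_nonneg hg
  refine ⟨C + C', n + n', fun x => (norm_add_le _ _).trans ?_⟩
  have h1 : (1 : ℝ) ≤ 1 + ‖x‖ := by simp
  have a1 : (1 + ‖x‖) ^ n ≤ (1 + ‖x‖) ^ (n + n') := pow_le_pow_right₀ h1 (by omega)
  have a2 : (1 + ‖x‖) ^ n' ≤ (1 + ‖x‖) ^ (n + n') := pow_le_pow_right₀ h1 (by omega)
  have := h x
  have := h' x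
  nlinarith [mul_le_mul_of_nonneg_left a1 hC, mul_le_mul_of_nonneg_left a2 hC']

lemma pg_smul [NormedSpace ℝ Y] {f : X → ℝ} {g : X → Y} (hf : PGrowth f) (hg : PGrowth g) :
    PGrowth fun x => f x • g x := by
  obtain ⟨C, n, hC, h⟩ := pg_nonneg hf
  obtain ⟨C', n', hC', h'⟩ := pg_nonneg hg
  refine ⟨C * C', n + n', fun x => ?_⟩
  rw [norm_smul, pow_add, mul_mul_mul_comm]
  exact mul_le_mul (h x) (h' x) (norm_nonneg _) (by positivity)

lemma pg_mul {f g : X → ℝ} (hf : PGrowth f) (hg : PGrowth g) : PGrowth fun x => f x * g x :=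
  pg_smul hf hg

lemma pg_neg {f : X → Y} (hf : PGrowth f) : PGrowth fun x => -f x :=
  pg_of_le hf fun x => by simp

lemma pg_sub {f g : X → Y} (hf : PGrowth f) (hg : PGrowth g) : PGrowth fun x => f x - g x := by
  simpa [sub_eq_add_neg] using pg_add hf (pg_neg hg)

lemma pg_norm {f : X → Y} (hf : PGrowth f) : PGrowth fun x => ‖f x‖ :=
  pg_of_le hf fun x => by simp

lemma pg_pow {f : X → ℝ} (hf : PGrowth f) (n : ℕ) : PGrowth fun x => f x ^ n := by
  induction n with
  | zero => simpa using pg_const (1 : ℝ)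
  | succ n ih => simpa [pow_succ] using pg_mul ih hf

lemma pg_sum {ι : Type*} (s : Finset ι) {f : ι → X → Y} (hf : ∀ i ∈ s, PGrowth (f i)) :
    PGrowth fun x => ∑ i ∈ s, f i x := by
  classical
  induction s using Finset.induction_on with
  | empty => simpa using pg_const (0 : Y)
  | insert a s ha ih =>
    simp only [Finset.sum_insert ha]
    exact pg_add (hf a (by simp)) (ih fun i hi => hf i (by simp [hi]))

lemma pg_lip {f : X → Y} {L : ℝ} (hf : ∀ x y, ‖f x - f y‖ ≤ L * ‖x - y‖) : PGrowth f := by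
  refine ⟨‖f 0‖ + |L|, 1, fun x => ?_⟩
  have h1 := hf x 0
  have h2 : ‖f x‖ ≤ ‖f x - f 0‖ + ‖f 0‖ := by simpa using norm_add_le (f x - f 0) (f 0)
  rw [sub_zero] at h1
  have h3 : L * ‖x‖ ≤ |L| * ‖x‖ := by gcongr; exact le_abs_self _
  nlinarith [norm_nonneg x, norm_nonneg (f 0), abs_nonneg L]

lemma cont_lip {f : X → Y} {L : ℝ} (hf : ∀ x y, ‖f x - f y‖ ≤ L * ‖x - y‖) : Continuous f := by
  refine (LipschitzWith.of_dist_le' (K := L) fun x y => ?_).continuous
  simpa [dist_eq_norm] using hf x y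

end PG

variable {d : ℕ} {α δ : ℝ} {W : E d → ℝ}

/-- Measurable real functions of polynomial growth. -/
def MP (f : E d → ℝ) : Prop := Measurable f ∧ PGrowth f

lemma MP.const (c : ℝ) : MP fun _ : E d => c := ⟨measurable_const, pg_const c⟩

lemma MP.add {f g : E d → ℝ} (hf : MP f) (hg : MP g) : MP fun x => f x + g x :=
  ⟨hf.1.add hg.1, pg_add hf.2 hg.2⟩

lemma MP.sub {f g : E d → ℝ} (hf : MP f) (hg : MP g) : MP fun x => f x - g x :=
  ⟨hf.1.sub hg.1, pg_sub hf.2 hg.2⟩

lemma MP.mul {f g : E d → ℝ} (hf : MP f) (hg : MP g) : MP fun x => f x * g x :=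
  ⟨hf.1.mul hg.1, pg_mul hf.2 hg.2⟩

lemma MP.neg {f : E d → ℝ} (hf : MP f) : MP fun x => -f x := ⟨hf.1.neg, pg_neg hf.2⟩

lemma MP.pow {f : E d → ℝ} (hf : MP f) (n : ℕ) : MP fun x => f x ^ n :=
  ⟨hf.1.pow_const n, pg_pow hf.2 n⟩

lemma MP.abs {f : E d → ℝ} (hf : MP f) : MP fun x => |f x| := ⟨hf.1.abs, pg_norm hf.2⟩

lemma MP.div_const {f : E d → ℝ} (hf : MP f) (c : ℝ) : MP fun x => f x / c := by
  simpa [div_eq_mul_inv] using hf.mul (MP.const c⁻¹)

lemma MP.of_lip {f : E d → ℝ} {L : ℝ} (hf : ∀ x y, |f x - f y| ≤ L * ‖x - y‖) : MP f :=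
  ⟨(cont_lip (L := L) hf).measurable, pg_lip (L := L) hf⟩

lemma MP.int {f : E d → ℝ} (hf : MP f) (h : Pot α δ W) (b : E d) {t : ℝ} (ht : 0 < t) :
    Integrable f (nu W b t) :=
  integrable_nu h b ht hf.1.aestronglyMeasurable hf.2

lemma exp_lower (u : ℝ) : 1 + u + u ^ 2 / 2 - 3 * |u| ^ 3 ≤ Real.exp u := by
  rcases le_total |u| 1 with hu | hu
  · have := Real.exp_bound hu (n := 3) (by norm_num)
    simp only [Finset.sum_range_succ, Finset.range_zero, Finset.sum_empty, Nat.factorial] at this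
    have h2 := (abs_le.1 this).1
    norm_num at h2
    have : 0 ≤ |u| ^ 3 := by positivity
    linarith
  · have h1 : u ≤ |u| := le_abs_self u
    have h2 : u ^ 2 = |u| ^ 2 := (sq_abs u).symm
    have h3 : |u| ^ 2 ≤ |u| ^ 3 := pow_le_pow_right₀ hu (by norm_num)
    have h4 : |u| ^ 1 ≤ |u| ^ 3 := pow_le_pow_right₀ hu (by norm_num)
    have h5 : |u| ^ 0 ≤ |u| ^ 3 := pow_le_pow_right₀ hu (by norm_num)
    have := Real.exp_pos u
    simp only [pow_one, pow_zero] at h4 h5
    linarith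

lemma exp_lower' {f k ε : ℝ} (h0 : 0 ≤ ε) (h1 : ε ≤ 1) :
    1 + ε * f + ε ^ 2 * (f ^ 2 / 2 - k) - ε ^ 3 * (|f| * |k| + 3 * (|f| + |k|) ^ 3) ≤
      Real.exp (ε * f - ε ^ 2 * k) := by
  refine le_trans ?_ (exp_lower _)
  have a1 : |ε * f - ε ^ 2 * k| ≤ ε * (|f| + |k|) := by
    refine (abs_sub _ _).trans ?_
    rw [abs_mul, abs_mul, abs_of_nonneg h0, abs_of_nonneg (sq_nonneg ε)]
    have : ε ^ 2 ≤ ε := by nlinarith
    nlinarith [abs_nonneg k]
  have a2 : |ε * f - ε ^ 2 * k| ^ 3 ≤ (ε * (|f| + |k|)) ^ 3 := by gcongr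
  have a3 : f * k ≤ |f| * |k| := by rw [← abs_mul]; exact le_abs_self _
  have a4 : ε ^ 3 * (f * k) ≤ ε ^ 3 * (|f| * |k|) := by gcongr
  have a5 : 0 ≤ ε ^ 4 * k ^ 2 := by positivity
  rw [mul_pow] at a2
  nlinarith

/-- Property `(τ)` of Maurey, from the Prékopa–Leindler inequality. -/
lemma tau (h : Pot α δ W) (b : E d) {t : ℝ} (ht : 0 < t) {f g : E d → ℝ} (hf : Measurable f)
    (hg : Measurable g) (H : ∀ x y, g x + f y ≤ (1 / t + α) * ‖x - y‖ ^ 2 / 4) :
    (∫⁻ x, ENNReal.ofReal (Real.exp (g x)) ∂(nu W b t)) *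
      (∫⁻ x, ENNReal.ofReal (Real.exp (f x)) ∂(nu W b t)) ≤ 1 := by
  have hP := isProb_nu h b ht
  set U : E d → ℝ := fun x => -‖x - b‖ ^ 2 / (2 * t) - W x with hU
  have hUm : Measurable U := by
    have := h.c2.continuous
    fun_prop
  set Z : ℝ := ∫ x, Real.exp (U x) with hZ
  have hZ0 : 0 ≤ Z := integral_nonneg fun x => (Real.exp_pos _).le
  have h1 : ∫⁻ x, ENNReal.ofReal (Real.exp (U x) / Z) = 1 := by
    have := lintegral_tilted (μ := (volume : Measure (E d))) U (fun _ => 1)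
    simp only [mul_one, lintegral_const, one_mul] at this
    rw [← this]
    exact hP.measure_univ
  have key := Lib.PL.prekopa_leindler (a := 1 / 2) (b := 1 / 2) (by norm_num) (by norm_num)
    (by norm_num) (n := d)
    (f := fun x => ENNReal.ofReal (Real.exp (U x) / Z) * ENNReal.ofReal (Real.exp (g x)))
    (g := fun x => ENNReal.ofReal (Real.exp (U x) / Z) * ENNReal.ofReal (Real.exp (f x)))
    (h := fun x => ENNReal.ofReal (Real.exp (U x) / Z)) (by fun_prop) (by fun_prop) (by fun_prop)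
    (by
      intro x y
      rw [← ENNReal.mul_rpow_of_nonneg _ _ (by norm_num), ← ENNReal.ofReal_mul (by positivity),
        ← ENNReal.ofReal_mul (by positivity), ← ENNReal.ofReal_mul (by positivity),
        ENNReal.ofReal_rpow_of_nonneg (by positivity) (by norm_num)]
      refine ENNReal.ofReal_le_ofReal ?_
      rw [← Real.sqrt_eq_rpow, Real.sqrt_le_left (by positivity)]
      have e1 : Real.exp (U x) / Z * Real.exp (g x) * (Real.exp (U y) / Z * Real.exp (f y)) =
          Real.exp (U x + g x + (U y + f y)) / Z ^ 2 := by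
        simp only [Real.exp_add]; ring
      rw [e1, div_pow, ← Real.exp_nat_mul]
      gcongr
      have hm := h.midpoint x y
      have hpar : ‖(1 / 2 : ℝ) • x + (1 / 2 : ℝ) • y - b‖ ^ 2 =
          (‖x - b‖ ^ 2 + ‖y - b‖ ^ 2) / 2 - ‖x - y‖ ^ 2 / 4 := by
        have e2 : (1 / 2 : ℝ) • x + (1 / 2 : ℝ) • y - b = (1 / 2 : ℝ) • ((x - b) + (y - b)) := by
          module
        have e3 : x - y = (x - b) - (y - b) := by abel
        have := parallelogram_law_with_norm ℝ (x - b) (y - b)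
        rw [e2, e3, norm_smul]
        simp only [one_div, norm_inv, Real.norm_ofNat]
        nlinarith
      have := H x y
      simp only [hU, hpar]
      have e4 : (1 / t + α) * ‖x - y‖ ^ 2 / 4 = ‖x - y‖ ^ 2 / (4 * t) + α * ‖x - y‖ ^ 2 / 4 := by
        field_simp
      have e5 : -((‖x - b‖ ^ 2 + ‖y - b‖ ^ 2) / 2 - ‖x - y‖ ^ 2 / 4) / (2 * t) =
          (-‖x - b‖ ^ 2 / (2 * t) + -‖y - b‖ ^ 2 / (2 * t) + ‖x - y‖ ^ 2 / (4 * t)) / 2 := by
        field_simp; ring
      rw [e5]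
      push_cast
      linarith)
  rw [h1, ← ENNReal.mul_rpow_of_nonneg _ _ (by norm_num)] at key
  rw [nu, lintegral_tilted, lintegral_tilted]
  by_contra hc
  push Not at hc
  exact absurd key (not_le.2 (ENNReal.one_lt_rpow hc (by norm_num)))

lemma tau_real (h : Pot α δ W) (b : E d) {t : ℝ} (ht : 0 < t) {f g : E d → ℝ} (hf : Measurable f)
    (hg : Measurable g) {M : ℝ} (hfM : ∀ x, f x ≤ M) (hgM : ∀ x, g x ≤ M)
    (H : ∀ x y, g x + f y ≤ (1 / t + α) * ‖x - y‖ ^ 2 / 4) :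
    (∫ x, Real.exp (g x) ∂(nu W b t)) * (∫ x, Real.exp (f x) ∂(nu W b t)) ≤ 1 := by
  have hP := isProb_nu h b ht
  have hi : ∀ u : E d → ℝ, Measurable u → (∀ x, u x ≤ M) →
      Integrable (fun x => Real.exp (u x)) (nu W b t) := fun u hu huM =>
    Integrable.of_bound (by fun_prop) (Real.exp M) (ae_of_all _ fun x => by
      rw [Real.norm_eq_abs, abs_of_pos (Real.exp_pos _)]; exact Real.exp_le_exp.2 (huM x))
  have := tau h b ht hf hg H
  rw [← ofReal_integral_eq_lintegral_ofReal (hi g hg hgM) (ae_of_all _ fun x => (Real.exp_pos _).le),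
    ← ofReal_integral_eq_lintegral_ofReal (hi f hf hfM) (ae_of_all _ fun x => (Real.exp_pos _).le),
    ← ENNReal.ofReal_mul (integral_nonneg fun x => (Real.exp_pos _).le)] at this
  exact ENNReal.ofReal_le_one.1 this

lemma int_exp_lower (h : Pot α δ W) (b : E d) {t : ℝ} (ht : 0 < t) {f k : E d → ℝ} (hf : MP f)
    (hk : MP k) (hf0 : ∫ x, f x ∂(nu W b t) = 0) {M : ℝ} (hM : ∀ x, |f x| ≤ M)
    (hk0 : ∀ x, 0 ≤ k x) :
    ∃ C : ℝ, ∀ ε : ℝ, 0 ≤ ε → ε ≤ 1 →
      1 + ε ^ 2 * (∫ x, (f x ^ 2 / 2 - k x) ∂(nu W b t) - ε * C) ≤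
        ∫ x, Real.exp (ε * f x - ε ^ 2 * k x) ∂(nu W b t) := by
  have hP := isProb_nu h b ht
  have hR : MP fun x => |f x| * |k x| + 3 * (|f x| + |k x|) ^ 3 :=
    (hf.abs.mul hk.abs).add ((MP.const 3).mul ((hf.abs.add hk.abs).pow 3))
  have hp : MP fun x => f x ^ 2 / 2 - k x := ((hf.pow 2).div_const 2).sub hk
  refine ⟨∫ x, (|f x| * |k x| + 3 * (|f x| + |k x|) ^ 3) ∂(nu W b t), fun ε h0 h1 => ?_⟩
  have hi : Integrable (fun x => Real.exp (ε * f x - ε ^ 2 * k x)) (nu W b t) := by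
    refine Integrable.of_bound ?_ (Real.exp M) (ae_of_all _ fun x => ?_)
    · have := hf.1
      have := hk.1
      fun_prop
    · rw [Real.norm_eq_abs, abs_of_pos (Real.exp_pos _)]
      refine Real.exp_le_exp.2 ?_
      have a1 := hM x
      have a2 := le_abs_self (f x)
      have a3 := abs_nonneg (f x)
      have a4 : 0 ≤ ε ^ 2 * k x := mul_nonneg (sq_nonneg _) (hk0 x)
      nlinarith
  have i1 := hf.int h b ht
  have i2 := hp.int h b ht
  have i3 := hR.int h b ht
  refine le_trans (le_of_eq ?_) (integral_mono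
    ((((integrable_const 1).add (i1.const_mul ε)).add (i2.const_mul (ε ^ 2))).sub
      (i3.const_mul (ε ^ 3))) hi fun x => exp_lower' h0 h1)
  have j1 : Integrable (fun x => 1 + ε * f x) (nu W b t) :=
    (integrable_const 1).add (i1.const_mul ε)
  have j2 : Integrable (fun x => 1 + ε * f x + ε ^ 2 * (f x ^ 2 / 2 - k x)) (nu W b t) :=
    j1.add (i2.const_mul _)
  simp only [Pi.add_apply, Pi.sub_apply]
  rw [integral_sub j2 (i3.const_mul _), integral_add j1 (i2.const_mul _),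
    integral_add (integrable_const _) (i1.const_mul _), integral_const_mul, integral_const_mul,
    integral_const_mul, hf0]
  simp only [integral_const, probReal_univ, smul_eq_mul]; ring

/-- Poincaré inequality for bounded centred functions with a local slope bound. -/
lemma core_bdd (h : Pot α δ W) (hα : 0 ≤ α) (b : E d) {t : ℝ} (ht : 0 < t) {f G : E d → ℝ}
    (hf : Measurable f) (hG : MP G) {M : ℝ} (hM : ∀ x, |f x| ≤ M)
    (hf0 : ∫ x, f x ∂(nu W b t) = 0) {ρ : ℝ} (hρ : 0 < ρ)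
    (H : ∀ x y, ‖x - y‖ ≤ ρ → |f x - f y| ≤ G x * ‖x - y‖) :
    ∫ x, f x ^ 2 ∂(nu W b t) ≤ t / (1 + t * α) * ∫ x, G x ^ 2 ∂(nu W b t) := by
  have hP := isProb_nu h b ht
  set a : ℝ := 1 / t + α with ha
  have ha0 : 0 < a := by positivity
  have hM0 : 0 ≤ M := (abs_nonneg _).trans (hM 0)
  have hfM : MP f := ⟨hf, ⟨M, 0, fun x => by simpa using hM x⟩⟩
  have hk : MP fun x => G x ^ 2 / a := (hG.pow 2).div_const a
  obtain ⟨C, hC⟩ := int_exp_lower h b ht hfM hk hf0 hM (fun x => by positivity)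
  obtain ⟨C', hC'⟩ := int_exp_lower h b ht hfM.neg (MP.const 0) (by simp [integral_neg, hf0])
    (M := M) (fun x => by simpa using hM x) (fun x => le_rfl)
  set p := ∫ x, (f x ^ 2 / 2 - G x ^ 2 / a) ∂(nu W b t) with hp
  set q := ∫ x, ((-f x) ^ 2 / 2 - 0) ∂(nu W b t) with hq
  have hpq : p + q ≤ 0 := by
    have hc : Tendsto (fun ε : ℝ => (p - ε * C) + (q - ε * C') + ε ^ 2 * ((p - ε * C) * (q - ε * C')))
        (𝓝[>] 0) (𝓝 (p + q)) := by
      refine tendsto_nhdsWithin_of_tendsto_nhds ?_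
      have : Continuous fun ε : ℝ =>
          (p - ε * C) + (q - ε * C') + ε ^ 2 * ((p - ε * C) * (q - ε * C')) := by fun_prop
      simpa using this.tendsto 0
    have pos : ∀ u v : ℝ, ∀ᶠ ε in 𝓝[>] (0 : ℝ), 0 < 1 + ε ^ 2 * (u - ε * v) := by
      intro u v
      have : Continuous fun ε : ℝ => 1 + ε ^ 2 * (u - ε * v) := by fun_prop
      exact nhdsWithin_le_nhds ((this.tendsto 0).eventually (lt_mem_nhds (by simp)))
    have small : ∀ᶠ ε in 𝓝[>] (0 : ℝ), ε * (8 * M) < a * ρ ^ 2 := by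
      have : Continuous fun ε : ℝ => ε * (8 * M) := by fun_prop
      exact nhdsWithin_le_nhds ((this.tendsto 0).eventually (gt_mem_nhds (by
        simp only [zero_mul]; positivity)))
    have le1 : ∀ᶠ ε in 𝓝[>] (0 : ℝ), ε < 1 := nhdsWithin_le_nhds (gt_mem_nhds one_pos)
    refine le_of_tendsto hc ?_
    filter_upwards [pos p C, pos q C', small, le1, self_mem_nhdsWithin] with ε p1 p2 hs h1 h0
    have h0 : 0 < ε := h0
    have key := tau_real h b ht (f := fun x => ε * -f x - ε ^ 2 * 0)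
      (g := fun x => ε * f x - ε ^ 2 * (G x ^ 2 / a)) (by fun_prop)
      (by have := hG.1; fun_prop) (M := M) (fun x => by
        have a1 := hM x
        have a2 := neg_abs_le (f x)
        have a3 := abs_nonneg (f x)
        nlinarith) (fun x => by
        have a1 := hM x
        have a2 := le_abs_self (f x)
        have a3 := abs_nonneg (f x)
        have a4 : 0 ≤ ε ^ 2 * (G x ^ 2 / a) := by positivity
        nlinarith) (fun x y => by
        rw [← ha]
        have a4 : 0 ≤ ε ^ 2 * (G x ^ 2 / a) := by positivity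
        rcases le_total ‖x - y‖ ρ with hxy | hxy
        · have a1 := (le_abs_self _).trans (H x y hxy)
          have a2 : ε * (G x * ‖x - y‖) ≤ ε ^ 2 * (G x ^ 2 / a) + a * ‖x - y‖ ^ 2 / 4 := by
            have : 0 ≤ (ε * G x - a * ‖x - y‖ / 2) ^ 2 / a := by positivity
            have e : (ε * G x - a * ‖x - y‖ / 2) ^ 2 / a =
                ε ^ 2 * (G x ^ 2 / a) + a * ‖x - y‖ ^ 2 / 4 - ε * (G x * ‖x - y‖) := by
              field_simp; ring
            linarith
          nlinarith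
        · have a1 := hM x
          have a2 := hM y
          have a3 := le_abs_self (f x)
          have a5 := neg_abs_le (f y)
          have a6 : a * ρ ^ 2 ≤ a * ‖x - y‖ ^ 2 := by gcongr
          nlinarith)
    have k2 := mul_le_mul (hC ε h0.le h1.le) (hC' ε h0.le h1.le) p2.le
      (integral_nonneg fun x => (Real.exp_pos _).le)
    have k3 := k2.trans key
    have k4 : ε ^ 2 * ((p - ε * C) + (q - ε * C') + ε ^ 2 * ((p - ε * C) * (q - ε * C'))) ≤ 0 := by
      nlinarith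
    exact nonpos_of_mul_nonpos_right k4 (by positivity)
  have i1 := (hfM.pow 2).int h b ht
  have i2 := (hG.pow 2).int h b ht
  rw [hp, hq, integral_sub (i1.div_const 2) (i2.div_const a), integral_div, integral_div] at hpq
  simp only [even_two, Even.neg_pow, sub_zero, integral_div] at hpq
  have e : t / (1 + t * α) * ∫ x, G x ^ 2 ∂(nu W b t) = (∫ x, G x ^ 2 ∂(nu W b t)) / a := by
    rw [ha]; field_simp
  rw [e]
  linarith

lemma var_eq (h : Pot α δ W) (b : E d) {t : ℝ} (ht : 0 < t) {f : E d → ℝ} (hf : MP f) :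
    ∫ x, (f x - ∫ y, f y ∂(nu W b t)) ^ 2 ∂(nu W b t) =
      ∫ x, f x ^ 2 ∂(nu W b t) - (∫ x, f x ∂(nu W b t)) ^ 2 := by
  have hP := isProb_nu h b ht
  have i1 := hf.int h b ht
  have i2 := (hf.pow 2).int h b ht
  set m := ∫ y, f y ∂(nu W b t) with hm
  have e : ∀ x, (f x - m) ^ 2 = f x ^ 2 - 2 * m * f x + m ^ 2 := fun x => by ring
  simp only [e]
  have j1 : Integrable (fun x => f x ^ 2 - 2 * m * f x) (nu W b t) := i2.sub (i1.const_mul _)
  rw [integral_add j1 (integrable_const _), integral_sub i2 (i1.const_mul _),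
    integral_const_mul, ← hm]
  simp only [integral_const, probReal_univ, smul_eq_mul]
  ring

/-- Cauchy–Schwarz inequality. -/
lemma int_cs (h : Pot α δ W) (b : E d) {t : ℝ} (ht : 0 < t) {f g : E d → ℝ} (hf : MP f)
    (hg : MP g) : (∫ x, f x * g x ∂(nu W b t)) ^ 2 ≤
      (∫ x, f x ^ 2 ∂(nu W b t)) * ∫ x, g x ^ 2 ∂(nu W b t) := by
  have i1 := (hf.pow 2).int h b ht
  have i2 := (hg.pow 2).int h b ht
  have i3 := (hf.mul hg).int h b ht
  have key := discrim_le_zero (a := ∫ x, f x ^ 2 ∂(nu W b t))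
    (b := 2 * ∫ x, f x * g x ∂(nu W b t)) (c := ∫ x, g x ^ 2 ∂(nu W b t)) fun s => by
      have j : Integrable (fun x => f x ^ 2 * (s * s) + 2 * s * (f x * g x)) (nu W b t) :=
        (i1.mul_const _).add (i3.const_mul _)
      have : 0 ≤ ∫ x, (f x ^ 2 * (s * s) + 2 * s * (f x * g x) + g x ^ 2) ∂(nu W b t) :=
        integral_nonneg fun x => by
          have := sq_nonneg (f x * s + g x)
          simp only [Pi.zero_apply]; nlinarith
      rw [integral_add j i2, integral_add (i1.mul_const _) (i3.const_mul _), integral_mul_const,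
        integral_const_mul] at this
      linarith
  rw [discrim] at key
  nlinarith

/-- Poincaré inequality for functions with a local slope bound. -/
lemma core (h : Pot α δ W) (hα : 0 ≤ α) (b : E d) {t : ℝ} (ht : 0 < t) {f G : E d → ℝ}
    (hf : MP f) (hG : MP G) {ρ : ℝ} (hρ : 0 < ρ)
    (H : ∀ x y, ‖x - y‖ ≤ ρ → |f x - f y| ≤ G x * ‖x - y‖) :
    ∫ x, (f x - ∫ y, f y ∂(nu W b t)) ^ 2 ∂(nu W b t) ≤
      t / (1 + t * α) * ∫ x, G x ^ 2 ∂(nu W b t) := by
  have hP := isProb_nu h b ht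
  let F : ℕ → E d → ℝ := fun n x => max (-(n : ℝ)) (min (f x) n)
  have Fm : ∀ n, Measurable (F n) := fun n => measurable_const.max (hf.1.min measurable_const)
  have Fb : ∀ n x, |F n x| ≤ n := fun n x => by
    have : (0 : ℝ) ≤ n := Nat.cast_nonneg n
    rw [abs_le]
    exact ⟨le_max_left _ _, max_le (by linarith) (min_le_right _ _)⟩
  have Fle : ∀ n x, |F n x| ≤ |f x| := fun n x => by
    have : (0 : ℝ) ≤ n := Nat.cast_nonneg n
    have a1 := le_abs_self (f x)
    have a2 := neg_abs_le (f x)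
    have a3 := abs_nonneg (f x)
    rw [abs_le]
    refine ⟨le_max_of_le_right (le_min a2 (by linarith)), max_le (by linarith) ?_⟩
    exact (min_le_left _ _).trans a1
  have Flip : ∀ n x y, |F n x - F n y| ≤ |f x - f y| := fun n x y => by
    refine (abs_max_sub_max_le_max _ _ _ _).trans (max_le (by simp) ?_)
    refine (abs_min_sub_min_le_max _ _ _ _).trans (max_le le_rfl (by simp))
  have FMP : ∀ n, MP (F n) := fun n => ⟨Fm n, ⟨n, 0, fun x => by simpa using Fb n x⟩⟩
  have Flim : ∀ x, Tendsto (fun n => F n x) atTop (𝓝 (f x)) := fun x => by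
    refine tendsto_const_nhds.congr' ?_
    filter_upwards [tendsto_natCast_atTop_atTop.eventually_ge_atTop |f x|] with n hn
    have a1 := le_abs_self (f x)
    have a2 := neg_abs_le (f x)
    simp only [F]
    rw [min_eq_left (by linarith), max_eq_right (by linarith)]
  have hn : ∀ n, ∫ x, F n x ^ 2 ∂(nu W b t) - (∫ x, F n x ∂(nu W b t)) ^ 2 ≤
      t / (1 + t * α) * ∫ x, G x ^ 2 ∂(nu W b t) := fun n => by
    rw [← var_eq h b ht (FMP n)]
    refine core_bdd h hα b ht (f := fun x => F n x - ∫ y, F n y ∂(nu W b t))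
      ((Fm n).sub measurable_const) hG (M := n + |∫ y, F n y ∂(nu W b t)|) (fun x => ?_) ?_ hρ ?_
    · exact (abs_sub _ _).trans (by gcongr; exact Fb n x)
    · rw [integral_sub ((FMP n).int h b ht) (integrable_const _)]; simp
    · intro x y hxy
      rw [sub_sub_sub_cancel_right]
      exact (Flip n x y).trans (H x y hxy)
  rw [var_eq h b ht hf]
  refine le_of_tendsto' (x := atTop) (Tendsto.sub ?_ (Tendsto.pow ?_ 2)) hn
  · refine tendsto_integral_of_dominated_convergence (fun x => f x ^ 2)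
      (fun n => ((Fm n).pow_const 2).aestronglyMeasurable) ((hf.pow 2).int h b ht)
      (fun n => ae_of_all _ fun x => ?_) (ae_of_all _ fun x => (Flim x).pow 2)
    rw [Real.norm_eq_abs, abs_of_nonneg (sq_nonneg _)]
    exact sq_le_sq.2 (Fle n x)
  · exact tendsto_integral_of_dominated_convergence (fun x => |f x|)
      (fun n => (Fm n).aestronglyMeasurable) (hf.abs.int h b ht)
      (fun n => ae_of_all _ fun x => Fle n x) (ae_of_all _ Flim)

end Crest.Agent.R285.PoincareAux
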