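import Crest.Agent.R285.Tilt
import Crest.Agent.Lib.PL.PrekopaLeindler
import Crest.Agent.R285.PoincareAux

/-! Row 285: the Poincaré inequality for tilted Gaussians and its consequences. -/

set_option autoImplicit false

open MeasureTheory ProbabilityTheory Crest.OracleSampling
open scoped ENNReal NNReal RealInnerProductSpace

namespace Crest.Agent.R285

open PoincareAux Filter Topology

variable {d : ℕ} {α δ : ℝ} {W : E d → ℝ}

theorem poincare (h : Pot α δ W) (hα : 0 ≤ α) (b : E d) {t : ℝ} (ht : 0 < t) {f : E d → ℝ}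
    (hf : ContDiff ℝ 1 f) (hg : PGrowth f) (hg' : PGrowth (gradient f)) :
    ∫ x, (f x - ∫ y, f y ∂(nu W b t)) ^ 2 ∂(nu W b t) ≤
      t / (1 + t * α) * ∫ x, ‖gradient f x‖ ^ 2 ∂(nu W b t) := by
  have hP := isProb_nu h b ht
  have hc : Continuous (gradient f) := by
    have : Continuous (fderiv ℝ f) := hf.continuous_fderiv (by simp)
    exact (InnerProductSpace.toDual ℝ (E d)).symm.continuous.comp this
  have hK : IsCompact (Metric.closedBall (0 : E d) 1) := isCompact_closedBall 0 1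
  let G : ℝ × E d → ℝ := fun p =>
    sSup ((fun v : E d => ‖gradient f (p.2 + p.1 • v)‖) '' Metric.closedBall 0 1)
  have Gc : Continuous G := hK.continuous_sSup (by
    change Continuous fun q : (ℝ × E d) × E d => ‖gradient f (q.1.2 + q.1.1 • q.2)‖
    fun_prop)
  have hne : (Metric.closedBall (0 : E d) 1).Nonempty := ⟨0, by simp⟩
  have Gge : ∀ (ρ : ℝ) (x v : E d), ‖v‖ ≤ 1 → ‖gradient f (x + ρ • v)‖ ≤ G (ρ, x) := by
    intro ρ x v hv
    refine le_csSup (hK.image (by fun_prop)).bddAbove ⟨v, by simpa using hv, rfl⟩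
  have G0 : ∀ x, G (0, x) = ‖gradient f x‖ := by
    intro x
    simp only [G, zero_smul, add_zero]
    rw [hne.image_const, csSup_singleton]
  obtain ⟨C, n, hC, hCn⟩ := pg_nonneg hg'
  have Gnn : ∀ ρ x, 0 ≤ G (ρ, x) := fun ρ x => (norm_nonneg _).trans (Gge ρ x 0 (by simp))
  have Gle : ∀ ρ x, 0 ≤ ρ → ρ ≤ 1 → G (ρ, x) ≤ C * 2 ^ n * (1 + ‖x‖) ^ n := by
    intro ρ x h0 h1
    refine csSup_le (hne.image _) ?_
    rintro _ ⟨v, hv, rfl⟩
    have hv : ‖v‖ ≤ 1 := by simpa using hv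
    refine (hCn _).trans ?_
    rw [mul_assoc, ← mul_pow]
    gcongr
    have a1 : ‖x + ρ • v‖ ≤ ‖x‖ + ‖ρ • v‖ := norm_add_le _ _
    rw [norm_smul, Real.norm_eq_abs, abs_of_nonneg h0] at a1
    nlinarith [norm_nonneg x, norm_nonneg v]
  have hfM : MP f := ⟨hf.continuous.measurable, hg⟩
  have hB : MP fun x : E d => C * 2 ^ n * (1 + ‖x‖) ^ n :=
    (MP.const _).mul (((MP.const 1).add ⟨measurable_norm, pg_norm pg_id⟩).pow n)
  have hGm : ∀ ρ, Measurable fun x => G (ρ, x) := fun ρ =>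
    (Gc.comp (continuous_const.prodMk continuous_id)).measurable
  have step : ∀ ρ : ℝ, 0 < ρ → ρ ≤ 1 →
      ∫ x, (f x - ∫ y, f y ∂(nu W b t)) ^ 2 ∂(nu W b t) ≤
        t / (1 + t * α) * ∫ x, G (ρ, x) ^ 2 ∂(nu W b t) := by
    intro ρ h0 h1
    refine core h hα b ht hfM ⟨hGm ρ, ⟨C * 2 ^ n, n, fun x => ?_⟩⟩ h0 fun x y hxy => ?_
    · rw [Real.norm_eq_abs, abs_of_nonneg (Gnn ρ x)]; exact Gle ρ x h0.le h1
    · have key := (convex_closedBall x ρ).norm_image_sub_le_of_norm_fderiv_le (𝕜 := ℝ) (f := f)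
        (C := G (ρ, x)) (x := y) (y := x)
        (fun z _ => hf.differentiable (by simp) z) (fun z hz => ?_)
        (by rw [Metric.mem_closedBall, dist_comm, dist_eq_norm]; exact hxy)
        (Metric.mem_closedBall_self h0.le)
      · simpa using key
      · have e1 : ‖fderiv ℝ f z‖ = ‖gradient f z‖ := by simp [gradient]
        have e2 : z = x + ρ • (ρ⁻¹ • (z - x)) := by
          rw [smul_smul, mul_inv_cancel₀ h0.ne', one_smul]; abel
        rw [e1, e2]
        refine Gge ρ x _ ?_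
        rw [Metric.mem_closedBall, dist_eq_norm] at hz
        rw [norm_smul, norm_inv, Real.norm_eq_abs, abs_of_pos h0, inv_mul_le_iff₀ h0]
        simpa using hz
  have small : ∀ᶠ ρ in 𝓝[>] (0 : ℝ), 0 < ρ ∧ ρ ≤ 1 := by
    filter_upwards [self_mem_nhdsWithin, nhdsWithin_le_nhds (gt_mem_nhds (one_pos (α := ℝ)))]
      with ρ h0 h1 using ⟨h0, le_of_lt h1⟩
  have lim : Tendsto (fun ρ : ℝ => ∫ x, G (ρ, x) ^ 2 ∂(nu W b t)) (𝓝[>] 0)
      (𝓝 (∫ x, ‖gradient f x‖ ^ 2 ∂(nu W b t))) := by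
    refine tendsto_integral_filter_of_dominated_convergence
      (fun x => (C * 2 ^ n * (1 + ‖x‖) ^ n) ^ 2)
      (Eventually.of_forall fun ρ => ((hGm ρ).pow_const 2).aestronglyMeasurable) ?_
      ((hB.pow 2).int h b ht) (ae_of_all _ fun x => ?_)
    · filter_upwards [small] with ρ hρ
      refine ae_of_all _ fun x => ?_
      rw [Real.norm_eq_abs, abs_of_nonneg (sq_nonneg _)]
      have := Gnn ρ x
      gcongr
      exact Gle ρ x hρ.1.le hρ.2
    · refine tendsto_nhdsWithin_of_tendsto_nhds ?_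
      rw [← G0]
      exact ((Gc.comp (continuous_id.prodMk continuous_const)).tendsto 0).pow 2
  refine ge_of_tendsto (lim.const_mul (t / (1 + t * α))) ?_
  filter_upwards [small] with ρ hρ using step ρ hρ.1 hρ.2

theorem poincare_lip (h : Pot α δ W) (hα : 0 ≤ α) (b : E d) {t : ℝ} (ht : 0 < t) {f : E d → ℝ}
    {L : ℝ} (hf : ∀ x y, |f x - f y| ≤ L * ‖x - y‖) :
    ∫ x, (f x - ∫ y, f y ∂(nu W b t)) ^ 2 ∂(nu W b t) ≤ t / (1 + t * α) * L ^ 2 := by
  have hP := isProb_nu h b ht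
  have := core h hα b ht (MP.of_lip hf) (MP.const L) one_pos fun x y _ => hf x y
  simpa using this

theorem lip_mean (h : Pot α δ W) (hα : 0 ≤ α) {t : ℝ} (ht : 0 < t) {f : E d → ℝ}
    {L : ℝ} (hL : 0 ≤ L) (hf : ∀ x y, |f x - f y| ≤ L * ‖x - y‖) (b b' : E d) :
    |∫ x, f x ∂(nu W b t) - ∫ x, f x ∂(nu W b' t)| ≤ L / (1 + t * α) * ‖b - b'‖ := by
  have hM := MP.of_lip hf
  have hc : 0 < 1 + t * α := by positivity
  have key := (convex_univ (𝕜 := ℝ) (E := E d)).norm_image_sub_le_of_norm_hasFDerivWithin_le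
    (f := fun b => ∫ x, f x ∂(nu W b t)) (C := L / (1 + t * α)) (x := b') (y := b)
    (fun z _ => (hasFDerivAt_mean h z ht hM.1.aestronglyMeasurable hM.2).hasFDerivWithinAt)
    (fun z _ => ?_) trivial trivial
  · simpa using key
  · have hP := isProb_nu h z ht
    rw [innerSL_apply_norm, norm_smul, norm_inv, Real.norm_eq_abs, abs_of_pos ht,
      inv_mul_le_iff₀ ht]
    set m := ∫ y, y ∂(nu W z t) with hm
    set v := ∫ x, f x • (x - m) ∂(nu W z t) with hv
    have hid : Integrable (fun x : E d => x) (nu W z t) :=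
      integrable_nu h z ht aestronglyMeasurable_id pg_id
    have hiv : Integrable (fun x => f x • (x - m)) (nu W z t) :=
      integrable_nu h z ht (by have := hM.1; fun_prop) (pg_smul hM.2 (pg_sub pg_id (pg_const m)))
    have hg : ∀ x y : E d, |⟪v, x⟫ - ⟪v, y⟫| ≤ ‖v‖ * ‖x - y‖ := fun x y => by
      rw [← inner_sub_right]; exact abs_real_inner_le_norm _ _
    have hgM := MP.of_lip hg
    have hgm : ∫ y, ⟪v, y⟫ ∂(nu W z t) = ⟪v, m⟫ := integral_inner hid v
    have p1 := poincare_lip h hα z ht hf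
    have p2 := poincare_lip h hα z ht hg
    rw [hgm] at p2
    set fm := ∫ y, f y ∂(nu W z t) with hfm
    have e1 : ‖v‖ ^ 2 = ∫ x, (f x - fm) * (⟪v, x⟫ - ⟪v, m⟫) ∂(nu W z t) := by
      have i1 : Integrable (fun x => f x * (⟪v, x⟫ - ⟪v, m⟫)) (nu W z t) :=
        (hM.mul (hgM.sub (MP.const _))).int h z ht
      have i2 : Integrable (fun x => fm * (⟪v, x⟫ - ⟪v, m⟫)) (nu W z t) :=
        ((MP.const _).mul (hgM.sub (MP.const _))).int h z ht
      simp only [sub_mul]
      rw [integral_sub i1 i2, integral_const_mul, integral_sub (hgM.int h z ht) (integrable_const _),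
        hgm, ← real_inner_self_eq_norm_sq]
      conv_lhs => rw [hv, ← integral_inner hiv, ← hv]
      simp [inner_smul_right, inner_sub_right]
    have cs := int_cs h z ht (hM.sub (MP.const fm)) (hgM.sub (MP.const ⟪v, m⟫))
    rw [← e1] at cs
    have c0 : 0 ≤ t / (1 + t * α) := by positivity
    have cs2 : (‖v‖ ^ 2) ^ 2 ≤ (t / (1 + t * α) * L * ‖v‖) ^ 2 := by
      refine cs.trans ((mul_le_mul p1 p2 (integral_nonneg fun x => sq_nonneg _)
        (by positivity)).trans (le_of_eq (by ring)))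
    have cs3 : ‖v‖ ^ 2 ≤ t / (1 + t * α) * L * ‖v‖ :=
      (pow_le_pow_iff_left₀ (by positivity) (by positivity) two_ne_zero).1 cs2
    rcases (norm_nonneg v).eq_or_lt with h0 | h0
    · rw [← h0]; positivity
    · rw [sq] at cs3
      refine (le_of_mul_le_mul_right cs3 h0).trans (le_of_eq (by ring))

theorem lipE_mean (h : Pot α δ W) (hα : 0 ≤ α) {t : ℝ} (ht : 0 < t) {f : E d → ℝ≥0∞} {L : ℝ≥0}
    (hf : LipE L f) :
    LipE (L * Real.toNNReal (1 + t * α)⁻¹) fun b => ∫⁻ x, f x ∂(nu W b t) := by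
  intro b b'
  have hP := isProb_nu h b ht
  have hP' := isProb_nu h b' ht
  have hc : 0 < 1 + t * α := by positivity
  by_cases htop : ∃ y, f y = ⊤
  · obtain ⟨y, hy⟩ := htop
    have hall : ∀ x, f x = ⊤ := fun x => by
      have := hf y x
      rw [hy, top_le_iff, ENNReal.add_eq_top] at this
      rcases this with h1 | h1
      · exact h1
      · exact absurd h1 (ENNReal.mul_ne_top ENNReal.coe_ne_top (edist_ne_top _ _))
    simp [hall]
  · push Not at htop
    have h1 : ∀ x y, (f x).toReal ≤ (f y).toReal + L * ‖x - y‖ := fun x y => by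
      have := ENNReal.toReal_mono (ENNReal.add_ne_top.2 ⟨htop y,
        ENNReal.mul_ne_top ENNReal.coe_ne_top (edist_ne_top _ _)⟩) (hf x y)
      rwa [ENNReal.toReal_add (htop y) (ENNReal.mul_ne_top ENNReal.coe_ne_top (edist_ne_top _ _)),
        ENNReal.toReal_mul, ENNReal.coe_toReal, ← dist_edist, dist_eq_norm] at this
    have h2 : ∀ x y, |(f x).toReal - (f y).toReal| ≤ L * ‖x - y‖ := fun x y => by
      have a1 := h1 x y
      have a2 := h1 y x
      rw [norm_sub_rev] at a2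
      rw [abs_le]; constructor <;> linarith
    have hM := MP.of_lip h2
    have e : ∀ z, ∫⁻ x, f x ∂(nu W z t) = ENNReal.ofReal (∫ x, (f x).toReal ∂(nu W z t)) := by
      intro z
      rw [ofReal_integral_eq_lintegral_ofReal (hM.int h z ht)
        (ae_of_all _ fun x => ENNReal.toReal_nonneg)]
      exact lintegral_congr fun x => (ENNReal.ofReal_toReal (htop x)).symm
    have key := (le_abs_self _).trans (lip_mean h hα ht L.coe_nonneg h2 b b')
    simp only [e]
    have e2 : ((L * Real.toNNReal (1 + t * α)⁻¹ : ℝ≥0) : ℝ≥0∞) * edist b b' =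
        ENNReal.ofReal (L / (1 + t * α) * ‖b - b'‖) := by
      rw [edist_dist, dist_eq_norm, ENNReal.ofReal_mul (by positivity), div_eq_mul_inv,
        ENNReal.ofReal_mul L.coe_nonneg, ENNReal.coe_mul, ENNReal.ofReal_coe_nnreal]
      rfl
    rw [e2, ← ENNReal.ofReal_add (integral_nonneg fun x => ENNReal.toReal_nonneg) (by positivity)]
    exact ENNReal.ofReal_le_ofReal (by linarith)

theorem lip_mn (h : Pot α δ W) (hα : 0 ≤ α) (hδ : 0 ≤ δ) {t : ℝ} (ht : 0 < t) (b b' : E d) :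
    ‖mn W b t - mn W b' t‖ ≤ δ * ‖b - b'‖ := by
  set v := mn W b t - mn W b' t with hv
  have hi : ∀ z, Integrable (gradient W) (nu W z t) := fun z =>
    integrable_nu h z ht h.contDiff_gradient.continuous.aestronglyMeasurable (h.pgrowth_gradient hα)
  have hg : ∀ x y : E d, |⟪v, gradient W x⟫ - ⟪v, gradient W y⟫| ≤ ‖v‖ * δ * ‖x - y‖ :=
    fun x y => by
      rw [← inner_sub_right, mul_assoc]
      refine (abs_real_inner_le_norm _ _).trans ?_
      gcongr
      exact h.lip_grad hα x y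
  have key := (le_abs_self _).trans (lip_mean h hα ht (by positivity) hg b b')
  rw [integral_inner (hi b), integral_inner (hi b'), ← inner_sub_right] at key
  change ⟪v, v⟫ ≤ _ at key
  rw [real_inner_self_eq_norm_sq] at key
  have k2 : ‖v‖ * δ / (1 + t * α) ≤ ‖v‖ * δ :=
    div_le_self (by positivity) (by nlinarith [mul_nonneg ht.le hα])
  have k3 : ‖v‖ * ‖v‖ ≤ ‖v‖ * (δ * ‖b - b'‖) := by
    rw [← sq, ← mul_assoc]
    exact key.trans (by gcongr)
  rcases (norm_nonneg v).eq_or_lt with h0 | h0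
  · rw [← h0]; positivity
  · exact le_of_mul_le_mul_left k3 h0

/-- Vector-valued variance bound for Lipschitz maps. -/
theorem Poincare_var_vec (h : Pot α δ W) (hα : 0 ≤ α) (b : E d) {t : ℝ} (ht : 0 < t)
    {F : E d → E d} {L : ℝ} (hF : ∀ x y, ‖F x - F y‖ ≤ L * ‖x - y‖) :
    ∫ x, ‖F x - ∫ y, F y ∂(nu W b t)‖ ^ 2 ∂(nu W b t) ≤ t * L ^ 2 * d := by
  have hi : Integrable F (nu W b t) :=
    integrable_nu h b ht (cont_lip hF).aestronglyMeasurable (pg_lip hF)
  have hk : ∀ (k : Fin d) (x y : E d), |F x k - F y k| ≤ L * ‖x - y‖ := fun k x y =>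
    (PiLp.norm_apply_le (F x - F y) k).trans (hF x y)
  have hm : ∀ k : Fin d, (∫ y, F y ∂(nu W b t)) k = ∫ y, F y k ∂(nu W b t) := fun k =>
    ((EuclideanSpace.proj k : E d →L[ℝ] ℝ).integral_comp_comm hi).symm
  simp only [EuclideanSpace.real_norm_sq_eq, PiLp.sub_apply, hm]
  rw [integral_finsetSum _ fun k _ =>
    (((MP.of_lip (hk k)).sub (MP.const _)).pow 2).int h b ht]
  have c1 : t / (1 + t * α) ≤ t := div_le_self ht.le (by nlinarith [mul_nonneg ht.le hα])
  refine (Finset.sum_le_sum (g := fun _ => t * L ^ 2) fun k _ =>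
    (poincare_lip h hα b ht (hk k)).trans (by gcongr)).trans (le_of_eq ?_)
  simp [mul_comm]

theorem integral_norm_sub_le (h : Pot α δ W) (hα : 0 ≤ α) (b : E d) {t : ℝ} (ht : 0 < t) :
    ∫ x, ‖x - b‖ ∂(nu W b t) ≤ t * ‖mn W b t‖ + √(t * d) := by
  have hP := isProb_nu h b ht
  have hid : Integrable (fun x : E d => x) (nu W b t) :=
    integrable_nu h b ht aestronglyMeasurable_id pg_id
  set m := ∫ y, y ∂(nu W b t) with hm
  have hst : m = b - t • mn W b t := stein h hα b ht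
  have v := Poincare_var_vec h hα b ht (F := fun x => x) (L := 1) (fun x y => by simp)
  rw [← hm] at v
  have hM : MP fun x : E d => ‖x - m‖ := ⟨by fun_prop, pg_norm (pg_sub pg_id (pg_const m))⟩
  have hM' : MP fun x : E d => ‖x - b‖ := ⟨by fun_prop, pg_norm (pg_sub pg_id (pg_const b))⟩
  have cs := int_cs h b ht hM (MP.const 1)
  simp only [mul_one, one_pow, integral_const, probReal_univ, smul_eq_mul] at cs v
  have a1 : ∫ x, ‖x - m‖ ∂(nu W b t) ≤ √(t * d) :=
    Real.le_sqrt_of_sq_le (cs.trans v)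
  have a2 : ∫ x, ‖x - b‖ ∂(nu W b t) ≤ ∫ x, (t * ‖mn W b t‖ + ‖x - m‖) ∂(nu W b t) := by
    refine integral_mono (hM'.int h b ht) (((MP.const _).add hM).int h b ht) fun x => ?_
    have e : x - b = -(t • mn W b t) + (x - m) := by rw [hst]; abel
    simp only
    rw [e]
    refine (norm_add_le _ _).trans (le_of_eq ?_)
    rw [norm_neg, norm_smul, Real.norm_eq_abs, abs_of_pos ht]
  rw [integral_add (integrable_const _) (hM.int h b ht)] at a2
  simp only [integral_const, probReal_univ, smul_eq_mul, one_mul] at a2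
  linarith

theorem mn_sub_grad (h : Pot α δ W) (hα : 0 ≤ α) (hδ : 0 ≤ δ) (b : E d) {t : ℝ} (ht : 0 < t) :
    ‖mn W b t - gradient W b‖ ≤ δ * (t * ‖mn W b t‖ + √(t * d)) := by
  have hP := isProb_nu h b ht
  have hi : Integrable (gradient W) (nu W b t) :=
    integrable_nu h b ht h.contDiff_gradient.continuous.aestronglyMeasurable (h.pgrowth_gradient hα)
  have hM' : MP fun x : E d => ‖x - b‖ := ⟨by fun_prop, pg_norm (pg_sub pg_id (pg_const b))⟩
  have e : mn W b t - gradient W b = ∫ x, (gradient W x - gradient W b) ∂(nu W b t) := by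
    rw [integral_sub hi (integrable_const _)]; simp [mn]
  rw [e]
  refine (norm_integral_le_of_norm_le ((hM'.int h b ht).const_mul δ)
    (ae_of_all _ fun x => h.lip_grad hα x b)).trans ?_
  rw [integral_const_mul]
  gcongr
  exact integral_norm_sub_le h hα b ht

theorem integral_norm_grad_sq_le (h : Pot α δ W) (hα : 0 ≤ α) (hδ : 0 ≤ δ) (b : E d) {t : ℝ}
    (ht : 0 < t) :
    ∫ x, ‖gradient W x‖ ^ 2 ∂(nu W b t) ≤ ‖mn W b t‖ ^ 2 + δ ^ 2 * t * d := by
  have hP := isProb_nu h b ht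
  have hc := h.contDiff_gradient.continuous
  have hpg := h.pgrowth_gradient hα
  have hi : Integrable (gradient W) (nu W b t) := integrable_nu h b ht hc.aestronglyMeasurable hpg
  have v := Poincare_var_vec h hα b ht (h.lip_grad hα)
  change ∫ x, ‖gradient W x - mn W b t‖ ^ 2 ∂(nu W b t) ≤ _ at v
  have i1 : Integrable (fun x => ‖gradient W x‖ ^ 2) (nu W b t) :=
    (MP.pow ⟨hc.norm.measurable, pg_norm hpg⟩ 2).int h b ht
  have i2 : Integrable (fun x => 2 * ⟪mn W b t, gradient W x⟫) (nu W b t) :=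
    (hi.const_inner _).const_mul 2
  have i3 : Integrable (fun x => ‖gradient W x‖ ^ 2 - 2 * ⟪mn W b t, gradient W x⟫) (nu W b t) :=
    i1.sub i2
  simp only [norm_sub_sq_real, real_inner_comm (mn W b t)] at v
  rw [integral_add i3 (integrable_const _), integral_sub i1 i2, integral_const_mul,
    integral_inner hi] at v
  change _ - 2 * ⟪mn W b t, mn W b t⟫ + _ ≤ _ at v
  simp only [integral_const, probReal_univ, smul_eq_mul, one_mul, real_inner_self_eq_norm_sq] at v
  linarith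

theorem Poincare_tanh_pos (r : ℝ) : 0 < 1 - Real.tanh r ^ 2 := by
  have := Real.tanh_sq_lt_one r
  linarith

theorem Poincare_abs_tanh (r : ℝ) : ‖Real.tanh r‖ ≤ 1 := (Real.abs_tanh_lt_one r).le

/-- The mean force stays close to its value at the origin. -/
theorem uu_sub_le (h : Pot 0 δ W) (hδ : 0 ≤ δ) (hδ' : δ ≤ 1 / 2) (r : ℝ) (z : E d) :
    ‖uu W r z - mn W 0 1‖ ≤ 8 * δ * (‖z‖ + MM W) := by
  have hs0 := Poincare_tanh_pos r
  have hs1 : 1 - Real.tanh r ^ 2 ≤ 1 := by nlinarith [sq_nonneg (Real.tanh r)]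
  have a1 := mn_sub_grad h le_rfl hδ (Real.tanh r • z) hs0
  have a2 := mn_sub_grad h le_rfl hδ 0 one_pos
  have a3 := h.lip_grad le_rfl (Real.tanh r • z) 0
  change ‖uu W r z - _‖ ≤ δ * (_ * ‖uu W r z‖ + _) at a1
  set u := uu W r z
  set m := mn W 0 1 with hm
  have b1 : √((1 - Real.tanh r ^ 2) * d) ≤ √(d : ℝ) :=
    Real.sqrt_le_sqrt (mul_le_of_le_one_left (Nat.cast_nonneg d) hs1)
  have b2 : (1 - Real.tanh r ^ 2) * ‖u‖ ≤ ‖u - m‖ + ‖m‖ :=
    (mul_le_of_le_one_left (norm_nonneg _) hs1).trans (by simpa using norm_add_le (u - m) m)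
  have b3 : ‖Real.tanh r • z - 0‖ ≤ ‖z‖ := by
    rw [sub_zero, norm_smul]
    exact mul_le_of_le_one_left (norm_nonneg _) (Poincare_abs_tanh r)
  have c1 : ‖u - gradient W (Real.tanh r • z)‖ ≤ δ * (‖u - m‖ + ‖m‖ + √(d : ℝ)) :=
    a1.trans (by gcongr)
  have c3 : ‖gradient W (Real.tanh r • z) - gradient W 0‖ ≤ δ * ‖z‖ := a3.trans (by gcongr)
  simp only [one_mul] at a2
  have tri : ‖u - m‖ ≤ ‖u - gradient W (Real.tanh r • z)‖ +
      ‖gradient W (Real.tanh r • z) - gradient W 0‖ + ‖m - gradient W 0‖ := by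
    have e : u - m = (u - gradient W (Real.tanh r • z)) +
        (gradient W (Real.tanh r • z) - gradient W 0) - (m - gradient W 0) := by abel
    rw [e]
    exact (norm_sub_le _ _).trans (by gcongr; exact norm_add_le _ _)
  have d1 : δ * ‖u - m‖ ≤ 1 / 2 * ‖u - m‖ := by gcongr
  have d2 : 0 ≤ δ * ‖z‖ := by positivity
  have d3 : 0 ≤ δ * ‖m‖ := by positivity
  have d4 : 0 ≤ δ * √(d : ℝ) := by positivity
  simp only [MM, ← hm]
  nlinarith

theorem uu_lip (h : Pot 0 δ W) (hδ : 0 ≤ δ) (r : ℝ) (z z' : E d) :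
    ‖uu W r z - uu W r z'‖ ≤ δ * ‖z - z'‖ := by
  refine (lip_mn h le_rfl hδ (Poincare_tanh_pos r) _ _).trans ?_
  rw [← smul_sub, norm_smul]
  gcongr
  exact mul_le_of_le_one_left (norm_nonneg _) (Poincare_abs_tanh r)

end Crest.Agent.R285
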