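import Crest.Agent.R285.Defs

/-! Row 285: piecewise polynomial quadrature, numerical differentiation and Picard iteration. -/

set_option autoImplicit false

open MeasureTheory
open scoped ENNReal NNReal

namespace Crest.Agent.R285

/-- Quadrature and differentiation rules of order `k` on `M` pieces of length `h`. -/
structure Quad (k : ℕ) (C : ℝ) (M : ℕ) (h : ℝ) where
  τ : Fin M × Fin (k + 1) → ℝ
  w : Fin M × Fin (k + 1) → Fin M × Fin (k + 1) → ℝ
  β : Fin M × Fin (k + 1) → ℝ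
  last : Fin M × Fin (k + 1)
  τ_last : τ last = M * h
  τ_ge : ∀ n, h / (k + 1) ≤ τ n
  τ_le : ∀ n, τ n ≤ M * h
  w_le : ∀ n, ∑ n', |w n n'| ≤ C * (M * h)
  β_sum : ∑ n, β n = 0
  β_le : ∑ n, |β n| ≤ C / h
  int_err : ∀ {X Y : Type} [MeasurableSpace X] [NormedAddCommGroup Y] [NormedSpace ℝ Y]
    [FiniteDimensional ℝ Y] [MeasurableSpace Y] [BorelSpace Y] {j₀ : ℕ} {p : Measure X} [SFinite p]
    {f : ℝ → X → Y} {f' : X → Y} {B : ℝ}, j₀ ≤ k + 1 → 0 ≤ B → Chain j₀ k (M * h) p f f' B →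
    ∀ n, ∫⁻ x, ‖(∫ s in (0 : ℝ)..τ n, f s x) - ∑ n', w n n' • f (τ n') x‖ₑ ∂p ≤
      ENNReal.ofReal (C * h ^ (k + 1) * (M * h) * B)
  der_err : ∀ {X Y : Type} [MeasurableSpace X] [NormedAddCommGroup Y] [NormedSpace ℝ Y]
    [FiniteDimensional ℝ Y] [MeasurableSpace Y] [BorelSpace Y] {j₀ : ℕ} {p : Measure X} [SFinite p]
    {f : ℝ → X → Y} {f' : X → Y} {B : ℝ}, j₀ ≤ k + 1 → 0 ≤ B → Chain j₀ k (M * h) p f f' B →
    ∫⁻ x, ‖f' x - ∑ n, β n • f (τ n) x‖ₑ ∂p ≤ ENNReal.ofReal (C * h ^ k * B)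

theorem quad_taylor {Y : Type} [NormedAddCommGroup Y] [NormedSpace ℝ Y] [CompleteSpace Y]
    {T a h : ℝ} (ha : 0 ≤ a) (hT : a + h ≤ T) (n : ℕ) {G : ℕ → ℝ → Y}
    (hG : ∀ j, ∀ τ ∈ Set.Icc 0 T, HasDerivWithinAt (G j) (G (j + 1) τ) (Set.Icc 0 T) τ) :
    ∀ s ∈ Set.Icc a (a + h),
      ‖G 0 s - ∑ i ∈ Finset.range (n + 1), ((s - a) ^ i / i.factorial) • G i a‖
        ≤ h ^ n * ∫ u in a..a + h, ‖G (n + 1) u‖ := by
  have hsub : Set.Icc a (a + h) ⊆ Set.Icc 0 T := Set.Icc_subset_Icc ha hT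
  induction n generalizing G with
  | zero =>
    intro s hs
    have hc : ∀ j, ContinuousOn (G j) (Set.Icc a (a + h)) := fun j τ hτ =>
      ((hG j τ (hsub hτ)).continuousWithinAt).mono hsub
    have hs' : Set.Icc a s ⊆ Set.Icc a (a + h) := Set.Icc_subset_Icc le_rfl hs.2
    have h1 : ∫ u in a..s, G 1 u = G 0 s - G 0 a := by
      refine intervalIntegral.integral_eq_sub_of_hasDeriv_right_of_le hs.1 ((hc 0).mono hs')
        (fun u hu => ?_) (((hc 1).mono hs').intervalIntegrable_of_Icc hs.1)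
      have hu' : Set.Icc 0 T ∈ nhds u :=
        Icc_mem_nhds (ha.trans_lt hu.1) (hu.2.trans_le (hs.2.trans hT))
      exact ((hG 0 u (mem_of_mem_nhds hu')).hasDerivAt hu').hasDerivWithinAt
    simp only [zero_add, Finset.range_one, Finset.sum_singleton, pow_zero, Nat.factorial_zero,
      Nat.cast_one, div_one, one_smul, one_mul]
    rw [← h1]
    refine (intervalIntegral.norm_integral_le_integral_norm hs.1).trans ?_
    exact intervalIntegral.integral_mono_interval le_rfl hs.1 hs.2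
      (Filter.Eventually.of_forall fun u => norm_nonneg _)
      ((hc 1).norm.intervalIntegrable_of_Icc (hs.1.trans hs.2))
  | succ n ih =>
    intro s hs
    have ih' := ih (G := fun j => G (j + 1)) fun j => hG (j + 1)
    have hd : ∀ u ∈ Set.Icc a (a + h), HasDerivWithinAt
        (fun s => G 0 s - ∑ i ∈ Finset.range (n + 1 + 1), ((s - a) ^ i / i.factorial) • G i a)
        (G 1 u - ∑ i ∈ Finset.range (n + 1), ((u - a) ^ i / i.factorial) • G (i + 1) a)
        (Set.Icc a (a + h)) u := by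
      intro u hu
      refine ((hG 0 u (hsub hu)).mono hsub).sub ?_
      simp only [Finset.sum_range_succ' _ (n + 1), pow_zero]
      refine HasDerivAt.hasDerivWithinAt ?_
      refine HasDerivAt.add_const _ (HasDerivAt.fun_sum (u := Finset.range (n + 1))
        (A := fun i s => ((s - a) ^ (i + 1) / ((i + 1).factorial : ℝ)) • G (i + 1) a)
        (A' := fun i => ((u - a) ^ i / (i.factorial : ℝ)) • G (i + 1) a) fun i _ => ?_)
      refine HasDerivAt.smul_const (c := fun s => (s - a) ^ (i + 1) / ((i + 1).factorial : ℝ)) ?_ _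
      have := (((hasDerivAt_id u).sub_const a).fun_pow (i + 1)).div_const ((i + 1).factorial : ℝ)
      refine HasDerivAt.congr_deriv this ?_
      rw [Nat.factorial_succ]
      have : (i.factorial : ℝ) ≠ 0 := by positivity
      simp only [id, Nat.add_sub_cancel]
      push_cast
      field_simp
    have h2 := norm_image_sub_le_of_norm_deriv_le_segment' hd
      (fun u hu => ih' u (Set.Ico_subset_Icc_self hu)) s hs
    have h3 : G 0 a - ∑ i ∈ Finset.range (n + 1 + 1), ((a - a) ^ i / i.factorial) • G i a = 0 := by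
      simp [Finset.sum_range_succ' _ (n + 1)]
    rw [h3, sub_zero] at h2
    refine h2.trans ?_
    have h4 : 0 ≤ h ^ n * ∫ u in a..a + h, ‖G (n + 1 + 1) u‖ :=
      (norm_nonneg _).trans (ih' s hs)
    calc _ ≤ (h ^ n * ∫ u in a..a + h, ‖G (n + 1 + 1) u‖) * h :=
          mul_le_mul_of_nonneg_left (by linarith [hs.2]) h4
      _ = _ := by ring

theorem quad_lincomb {Y ι κ : Type} [NormedAddCommGroup Y] [NormedSpace ℝ Y] [Fintype ι]
    (s : Finset κ) {u : ι → Y} {c : ι → κ → ℝ} {D : κ → Y} {w : ι → ℝ} {γ : κ → ℝ} {e : ℝ}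
    (hu : ∀ j, ‖u j - ∑ i ∈ s, c j i • D i‖ ≤ e) (hγ : ∀ i ∈ s, ∑ j, w j * c j i = γ i) :
    ‖∑ j, w j • u j - ∑ i ∈ s, γ i • D i‖ ≤ (∑ j, |w j|) * e := by
  have : ∑ j, w j • u j - ∑ i ∈ s, γ i • D i = ∑ j, w j • (u j - ∑ i ∈ s, c j i • D i) := by
    simp only [smul_sub, Finset.sum_sub_distrib, Finset.smul_sum, smul_smul]
    rw [Finset.sum_comm]
    congr 1
    exact Finset.sum_congr rfl fun i hi => by rw [← hγ i hi, Finset.sum_smul]
  rw [this, Finset.sum_mul]
  refine norm_sum_le_of_le _ fun j _ => ?_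
  rw [norm_smul, Real.norm_eq_abs]
  exact mul_le_mul_of_nonneg_left (hu j) (abs_nonneg _)

theorem quad_tonelli {X Y : Type} [MeasurableSpace X] [NormedAddCommGroup Y]
    [MeasurableSpace Y] [OpensMeasurableSpace Y] {p : Measure X} [SFinite p] {F : ℝ → X → Y}
    (hF : Measurable (Function.uncurry F)) {b B c : ℝ} (hb : 0 ≤ b) (hc : 0 ≤ c)
    (h : ∀ τ ∈ Set.Icc 0 b, ∫⁻ x, ‖F τ x‖ₑ ∂p ≤ ENNReal.ofReal B) {g : X → Y}
    (hg : ∀ x, ‖g x‖ ≤ c * ∫ u in (0 : ℝ)..b, ‖F u x‖) :
    ∫⁻ x, ‖g x‖ₑ ∂p ≤ ENNReal.ofReal (c * b * B) := by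
  have h1 : ∀ x, ‖g x‖ₑ ≤ ENNReal.ofReal c * ∫⁻ u in Set.Ioc 0 b, ‖F u x‖ₑ := by
    intro x
    rw [← ofReal_norm]
    refine (ENNReal.ofReal_le_ofReal (hg x)).trans ?_
    rw [ENNReal.ofReal_mul hc, intervalIntegral.integral_of_le hb]
    gcongr
    refine (Real.ofReal_le_enorm _).trans ((enorm_integral_le_lintegral_enorm _).trans ?_)
    simp
  refine (lintegral_mono h1).trans ?_
  rw [lintegral_const_mul' _ _ ENNReal.ofReal_ne_top, ← lintegral_lintegral_swap hF.enorm.aemeasurable,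
    mul_assoc, ENNReal.ofReal_mul hc, ENNReal.ofReal_mul hb]
  gcongr
  refine (setLIntegral_mono measurable_const fun u hu => h u (Set.Ioc_subset_Icc_self hu)).trans ?_
  simp [mul_comm]

theorem quad_solve (k : ℕ) (γ : ℕ → ℝ) : ∃ c : Fin (k + 1) → ℝ, ∀ i ∈ Finset.range (k + 1),
    ∑ j, c j * (((j : ℕ) + 1 : ℝ) / (k + 1)) ^ i = γ i := by
  set s : Fin (k + 1) → ℝ := fun j => ((j : ℕ) + 1 : ℝ) / (k + 1) with hs
  have hinj : Function.Injective s := fun a b hab => by
    have h0 : (k + 1 : ℝ) ≠ 0 := by positivity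
    simp only [hs, div_left_inj' h0, add_left_inj, Nat.cast_inj] at hab
    exact Fin.ext hab
  have hdet : IsUnit (Matrix.vandermonde s).det :=
    (Matrix.det_vandermonde_ne_zero_iff.2 hinj).isUnit
  refine ⟨Matrix.vecMul (fun i : Fin (k + 1) => γ i) (Matrix.vandermonde s)⁻¹, fun i hi => ?_⟩
  have h1 : Matrix.vecMul (Matrix.vecMul (fun i : Fin (k + 1) => γ i) (Matrix.vandermonde s)⁻¹)
      (Matrix.vandermonde s) = fun i : Fin (k + 1) => γ i := by
    rw [Matrix.vecMul_vecMul, Matrix.nonsing_inv_mul _ hdet, Matrix.vecMul_one]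
  exact congrFun h1 ⟨i, Finset.mem_range.1 hi⟩

theorem quad_node {k : ℕ} (j : Fin (k + 1)) :
    1 / (k + 1 : ℝ) ≤ ((j : ℕ) + 1 : ℝ) / (k + 1) ∧ ((j : ℕ) + 1 : ℝ) / (k + 1) ≤ 1 := by
  have h0 : (0 : ℝ) < k + 1 := by positivity
  refine ⟨by gcongr; simp, ?_⟩
  rw [div_le_one h0]
  exact_mod_cast j.2

theorem quad_piece {Y : Type} [NormedAddCommGroup Y] [NormedSpace ℝ Y] [CompleteSpace Y]
    {T a h : ℝ} (ha : 0 ≤ a) (hh : 0 < h) (hT : a + h ≤ T) {k : ℕ} {G : ℕ → ℝ → Y}
    (hG : ∀ j, ∀ τ ∈ Set.Icc 0 T, HasDerivWithinAt (G j) (G (j + 1) τ) (Set.Icc 0 T) τ)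
    {σ : ℝ} (hσ : σ ∈ Set.Icc (0 : ℝ) 1) {s c : Fin (k + 1) → ℝ} (hs : ∀ j, s j ∈ Set.Icc (0 : ℝ) 1)
    (hc : ∀ i ∈ Finset.range (k + 1), ∑ j, c j * s j ^ i = σ ^ (i + 1) / (i + 1)) :
    ‖(∫ u in (0 : ℝ)..a + σ * h, G 0 u) - (∫ u in (0 : ℝ)..a, G 0 u)
        - ∑ j, (h * c j) • G 0 (a + s j * h)‖
      ≤ (1 + ∑ j, |c j|) * h ^ (k + 1) * ∫ u in a..a + h, ‖G (k + 1) u‖ := by
  have hmem : ∀ t ∈ Set.Icc (0 : ℝ) 1, a + t * h ∈ Set.Icc a (a + h) := fun t ht =>
    ⟨by nlinarith [ht.1], by nlinarith [ht.2]⟩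
  have hcont : ContinuousOn (G 0) (Set.Icc 0 T) := fun τ hτ => (hG 0 τ hτ).continuousWithinAt
  have h1 := quad_taylor ha hT (k + 1)
    (G := fun j => Nat.casesOn j (fun s => ∫ u in (0 : ℝ)..s, G 0 u) G) (fun j τ hτ => by
      cases j with
      | zero =>
        have : Fact (τ ∈ Set.Icc 0 T) := ⟨hτ⟩
        exact intervalIntegral.integral_hasDerivWithinAt_right
          ((hcont.mono (Set.Icc_subset_Icc le_rfl hτ.2)).intervalIntegrable_of_Icc hτ.1)
          (hcont.stronglyMeasurableAtFilter_nhdsWithin measurableSet_Icc τ) (hcont τ hτ)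
      | succ j => exact hG j τ hτ) _ (hmem σ hσ)
  rw [Finset.sum_range_succ'] at h1
  simp only [add_sub_cancel_left, pow_zero, Nat.factorial_zero, Nat.cast_one, div_one,
    one_smul] at h1
  have h2 := quad_lincomb (Finset.range (k + 1)) (w := fun j => h * c j)
    (γ := fun i => (σ * h) ^ (i + 1) / (i + 1).factorial)
    (fun j => quad_taylor ha hT k hG _ (hmem _ (hs j))) (fun i hi => by
      have e : ∀ j, h * c j * ((a + s j * h - a) ^ i / i.factorial)
          = h ^ (i + 1) / i.factorial * (c j * s j ^ i) := fun j => by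
        rw [add_sub_cancel_left]; ring
      simp only [e, ← Finset.mul_sum, hc i hi, Nat.factorial_succ]
      have : (i.factorial : ℝ) ≠ 0 := by positivity
      push_cast
      rw [mul_pow]
      field_simp)
  simp only [abs_mul, abs_of_pos hh, ← Finset.mul_sum] at h2
  have h3 := (norm_sub_le _ _).trans (add_le_add h1 h2)
  refine le_of_eq_of_le ?_ (h3.trans (le_of_eq ?_))
  · congr 1
    change _ = (∫ u in (0 : ℝ)..a + σ * h, G 0 u) - (_ + ∫ u in (0 : ℝ)..a, G 0 u) - _
    abel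
  · ring

theorem quad_sum_split {Y : Type} [AddCommMonoid Y] {M : ℕ} (m : Fin M) (A B : ℕ → Y) :
    ∑ m' : Fin M, (if m'.val < m.val then A m' else if m'.val = m.val then B m' else 0)
      = ∑ i ∈ Finset.range m, A i + B m := by
  rw [Fin.sum_univ_eq_sum_range
    (fun i => if i < m.val then A i else if i = m.val then B i else 0) M,
    ← Finset.sum_subset (Finset.range_subset_range.2 (Nat.succ_le_of_lt m.2)),
    Finset.sum_range_succ]
  · simp only [lt_irrefl, if_false, if_true]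
    congr 1
    exact Finset.sum_congr rfl fun i hi => if_pos (Finset.mem_range.1 hi)
  · intro i _ hi
    rw [Finset.mem_range] at hi
    rw [if_neg (by omega), if_neg (by omega)]

theorem exists_quad (k : ℕ) (hk : 1 ≤ k) : ∃ C : ℝ, 1 ≤ C ∧
    ∀ (M : ℕ) (h : ℝ), 0 < M → 0 < h → Nonempty (Quad k C M h) := by
  set s : Fin (k + 1) → ℝ := fun j => ((j : ℕ) + 1 : ℝ) / (k + 1) with hs
  have hk0 : (0 : ℝ) < k + 1 := by positivity
  have hs0 : ∀ j, s j ∈ Set.Icc (0 : ℝ) 1 := fun j => ⟨by positivity, (quad_node j).2⟩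
  have hsl : s (Fin.last k) = 1 := by simp [hs, hk0.ne']
  choose a ha using fun l : Fin (k + 1) => quad_solve k fun i => s l ^ (i + 1) / (i + 1)
  obtain ⟨b, hb⟩ := quad_solve k fun i => if i = 1 then 1 else 0
  have hA0 : 0 ≤ ∑ l, ∑ j, |a l j| := by positivity
  have hB0 : 0 ≤ ∑ j, |b j| := by positivity
  have hA : ∀ l, ∑ j, |a l j| ≤ ∑ l, ∑ j, |a l j| := fun l =>
    Finset.single_le_sum (f := fun l => ∑ j, |a l j|) (fun _ _ => by positivity) (Finset.mem_univ l)
  set C : ℝ := 1 + ∑ l, ∑ j, |a l j| + ∑ j, |b j| with hC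
  refine ⟨C, by linarith, fun M h hM hh => ⟨?_⟩⟩
  have hMh : ∀ m : Fin M, (m : ℝ) * h + h ≤ M * h := fun m => by
    have : (m : ℝ) + 1 ≤ M := by exact_mod_cast m.2
    nlinarith
  have hle : ∀ n : Fin M × Fin (k + 1), n.1 * h + s n.2 * h ≤ M * h := fun n => by
    nlinarith [hMh n.1, (hs0 n.2).2]
  have hge : ∀ n : Fin M × Fin (k + 1), 0 ≤ n.1 * h + s n.2 * h := fun n => by
    have := (hs0 n.2).1
    positivity
  have hβ : ∀ {Z : Type} [AddCommMonoid Z] (φ : Fin M × Fin (k + 1) → ℝ → Z),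
      (∀ n, φ n 0 = 0) → ∑ n, φ n (if n.1.val = 0 then b n.2 / h else 0)
        = ∑ j, φ (⟨0, hM⟩, j) (b j / h) := by
    intro Z _ φ hφ
    rw [Fintype.sum_prod_type, Finset.sum_eq_single ⟨0, hM⟩ ?_ (by simp)]
    · simp
    · intro m _ hm
      have : m.val ≠ 0 := fun e => hm (Fin.ext e)
      simp [this, hφ]
  refine
    { τ := fun n => n.1 * h + s n.2 * h
      w := fun n n' => if n'.1.val < n.1.val then h * a (Fin.last k) n'.2
        else if n'.1.val = n.1.val then h * a n.2 n'.2 else 0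
      β := fun n => if n.1.val = 0 then b n.2 / h else 0
      last := (⟨M - 1, by omega⟩, Fin.last k)
      τ_last := ?_
      τ_ge := fun n => ?_
      τ_le := hle
      w_le := fun n => ?_
      β_sum := ?_
      β_le := ?_
      int_err := ?_
      der_err := ?_ }
  · simp only [hsl]
    rw [Nat.cast_sub hM]
    ring
  · have h1 := mul_le_mul_of_nonneg_right (quad_node n.2).1 hh.le
    have h2 : 0 ≤ (n.1 : ℝ) * h := by positivity
    rw [div_mul_eq_mul_div, one_mul] at h1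
    linarith
  · rw [Fintype.sum_prod_type]
    have : ∀ m : Fin M, ∑ j, |if m.val < n.1.val then h * a (Fin.last k) j
        else if m.val = n.1.val then h * a n.2 j else 0| ≤ C * h := by
      intro m
      have e : ∀ l, ∑ j, |h * a l j| ≤ C * h := fun l => by
        simp only [abs_mul, abs_of_pos hh, ← Finset.mul_sum]
        nlinarith [hA l]
      split_ifs
      · exact e _
      · exact e _
      · simp only [abs_zero, Finset.sum_const_zero]
        positivity
    refine (Finset.sum_le_sum fun m _ => this m).trans (le_of_eq ?_)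
    simp only [Finset.sum_const, Finset.card_univ, Fintype.card_fin, nsmul_eq_mul]
    ring
  · rw [hβ (fun _ t => t) fun _ => rfl, ← Finset.sum_div]
    have := hb 0 (by simp)
    simp only [pow_zero, mul_one] at this
    simp [this]
  · rw [hβ (fun _ t => |t|) fun _ => abs_zero]
    simp only [abs_div, abs_of_pos hh, ← Finset.sum_div]
    gcongr
    linarith
  · intro X Y _ _ _ _ _ _ j₀ p _ f f' B hj hB ⟨F, hF0, _, hFd, hFm, hFB⟩ n
    refine quad_tonelli (hFm (k + 1)) (by positivity) (by positivity)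
      (hFB (k + 1) hj le_rfl) fun x => ?_
    have hG := fun j => hFd j x
    have hcont : ContinuousOn (fun u => ‖F (k + 1) u x‖) (Set.Icc 0 (M * h)) :=
      ContinuousOn.norm fun τ hτ => (hG _ τ hτ).continuousWithinAt
    have hint : ∀ u v, 0 ≤ u → u ≤ v → v ≤ M * h →
        IntervalIntegrable (fun u => ‖F (k + 1) u x‖) volume u v := fun u v hu huv hv =>
      (hcont.mono (Set.Icc_subset_Icc hu hv)).intervalIntegrable_of_Icc huv
    have hpiece : ∀ (m : ℕ) (l : Fin (k + 1)), m < M →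
        ‖(∫ u in (0 : ℝ)..m * h + s l * h, F 0 u x) - (∫ u in (0 : ℝ)..m * h, F 0 u x)
          - ∑ j, (h * a l j) • F 0 (m * h + s j * h) x‖
        ≤ C * h ^ (k + 1) * ((∫ u in (0 : ℝ)..m * h + h, ‖F (k + 1) u x‖)
          - ∫ u in (0 : ℝ)..m * h, ‖F (k + 1) u x‖) := by
      intro m l hm
      have h0 : (0 : ℝ) ≤ m * h := by positivity
      have h1 := hMh ⟨m, hm⟩
      refine (quad_piece (G := fun j u => F j u x) h0 hh h1 hG (hs0 l) hs0 (ha l)).trans ?_
      rw [intervalIntegral.integral_interval_sub_left (hint _ _ le_rfl (by linarith) h1)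
        (hint _ _ le_rfl h0 (by simp only at h1; linarith))]
      have : 0 ≤ ∫ u in (m : ℝ) * h..m * h + h, ‖F (k + 1) u x‖ :=
        intervalIntegral.integral_nonneg (by linarith) fun _ _ => norm_nonneg _
      gcongr
      linarith [hA l]
    have hcum : ∀ m : ℕ, m ≤ M → ‖(∫ u in (0 : ℝ)..m * h, F 0 u x)
        - ∑ i ∈ Finset.range m, ∑ j, (h * a (Fin.last k) j) • F 0 (i * h + s j * h) x‖
        ≤ C * h ^ (k + 1) * ∫ u in (0 : ℝ)..m * h, ‖F (k + 1) u x‖ := by
      intro m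
      induction m with
      | zero => intro _; simp
      | succ m ih =>
        intro hm
        have h1 := hpiece m (Fin.last k) hm
        have h2 := (norm_add_le _ _).trans (add_le_add (ih (by omega)) h1)
        rw [hsl, one_mul] at h2
        rw [Finset.sum_range_succ, Nat.cast_succ, add_mul, one_mul]
        refine le_of_eq_of_le ?_ (h2.trans (le_of_eq ?_))
        · congr 1
          abel
        · ring
    obtain ⟨m, l⟩ := n
    have h2 := (norm_add_le _ _).trans (add_le_add (hcum m m.2.le) (hpiece m l m.2))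
    have h3 : ∫ u in (0 : ℝ)..m * h + h, ‖F (k + 1) u x‖
        ≤ ∫ u in (0 : ℝ)..M * h, ‖F (k + 1) u x‖ :=
      intervalIntegral.integral_mono_interval le_rfl (by positivity) (hMh m)
        (Filter.Eventually.of_forall fun u => norm_nonneg _) (hint _ _ le_rfl (by positivity) le_rfl)
    have h4 : ∫ u in (0 : ℝ)..m * h + s l * h, f u x = ∫ u in (0 : ℝ)..m * h + s l * h, F 0 u x := by
      refine intervalIntegral.integral_congr fun u hu => (hF0 u ?_ x).symm
      rw [Set.uIcc_of_le (hge (m, l))] at hu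
      exact ⟨hu.1, hu.2.trans (hle (m, l))⟩
    have h5 := quad_sum_split m
      (fun i => ∑ j, (h * a (Fin.last k) j) • F 0 (i * h + s j * h) x)
      (fun i => ∑ j, (h * a l j) • F 0 (i * h + s j * h) x)
    have h6 : ∑ n' : Fin M × Fin (k + 1), (if n'.1.val < m.val then h * a (Fin.last k) n'.2
        else if n'.1.val = m.val then h * a l n'.2 else 0) • f (n'.1 * h + s n'.2 * h) x
        = ∑ i ∈ Finset.range m, ∑ j, (h * a (Fin.last k) j) • F 0 (i * h + s j * h) x
          + ∑ j, (h * a l j) • F 0 (m * h + s j * h) x := by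
      rw [← h5, Fintype.sum_prod_type]
      refine Finset.sum_congr rfl fun m' _ => ?_
      have e : ∀ j, f (m' * h + s j * h) x = F 0 (m' * h + s j * h) x := fun j =>
        (hF0 _ ⟨hge (m', j), hle (m', j)⟩ x).symm
      simp only [e]
      split_ifs <;> simp
    simp only [h4, h6]
    have h7 : 0 ≤ C * h ^ (k + 1) := by positivity
    refine le_of_eq_of_le ?_ (h2.trans ?_)
    · congr 1
      abel
    · nlinarith
  · intro X Y _ _ _ _ _ _ j₀ p _ f f' B hj hB ⟨F, hF0, hF1, hFd, hFm, hFB⟩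
    have hh' : h ≤ M * h := by simpa using hMh ⟨0, hM⟩
    have := quad_tonelli (p := p) (hFm (k + 1)) hh.le (c := C * h ^ k / h) (by positivity)
      (fun τ hτ => hFB (k + 1) hj le_rfl τ ⟨hτ.1, hτ.2.trans hh'⟩)
      (g := fun x => f' x - ∑ n : Fin M × Fin (k + 1),
        (if n.1.val = 0 then b n.2 / h else 0) • f (n.1 * h + s n.2 * h) x) fun x => ?_
    · rwa [div_mul_cancel₀ _ hh.ne'] at this
    have h1 := quad_lincomb (Finset.range (k + 1)) (w := fun j => b j / h)
      (γ := fun i => if i = 1 then 1 else 0)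
      (fun j => quad_taylor (G := fun j u => F j u x) le_rfl (by simpa using hh') k
        (fun j => hFd j x) (s j * h) ⟨by have := (hs0 j).1; positivity,
          by nlinarith [(hs0 j).2]⟩) (fun i hi => by
        have e : ∀ j, b j / h * ((s j * h - 0) ^ i / i.factorial)
            = h ^ i / h / i.factorial * (b j * s j ^ i) := fun j => by
          rw [sub_zero]; ring
        simp only [e, ← Finset.mul_sum]
        rw [hb i hi]
        split_ifs with h1
        · simp [h1, hh.ne']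
        · simp)
    rw [hβ (fun n t => t • f (n.1 * h + s n.2 * h) x) fun _ => zero_smul _ _, norm_sub_rev]
    have e : ∀ j, f (s j * h) x = F 0 (s j * h) x := fun j =>
      (hF0 _ (by simpa using And.intro (hge (⟨0, hM⟩, j)) (hle (⟨0, hM⟩, j))) x).symm
    have h2 : 1 ∈ Finset.range (k + 1) := Finset.mem_range.2 (by omega)
    simp only [ite_smul, one_smul, zero_smul, Finset.sum_ite_eq', if_pos h2, hF1, zero_add,
      abs_div, abs_of_pos hh, ← Finset.sum_div] at h1
    simp only [Nat.cast_zero, zero_mul, zero_add, e]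
    refine h1.trans ?_
    have : 0 ≤ ∫ u in (0 : ℝ)..h, ‖F (k + 1) u x‖ :=
      intervalIntegral.integral_nonneg hh.le fun _ _ => norm_nonneg _
    rw [← mul_assoc, div_mul_eq_mul_div]
    gcongr
    linarith

variable {k M : ℕ} {C h : ℝ} {Y : Type} [NormedAddCommGroup Y] [NormedSpace ℝ Y]

/-- Picard iterates at the nodes. -/
noncomputable def Quad.pic (Q : Quad k C M h) (bt : Fin M × Fin (k + 1) → Y → Y) :
    ℕ → Fin M × Fin (k + 1) → Y → Y
  | 0, _, x => x
  | D + 1, n, x => x + ∑ n', Q.w n n' • bt n' (Q.pic bt D n' x)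

theorem Quad.pic_zero (Q : Quad k C M h) (bt : Fin M × Fin (k + 1) → Y → Y) (n) (x : Y) :
    Q.pic bt 0 n x = x := rfl

theorem Quad.pic_succ (Q : Quad k C M h) (bt : Fin M × Fin (k + 1) → Y → Y) (D : ℕ) (n) (x : Y) :
    Q.pic bt (D + 1) n x = x + ∑ n', Q.w n n' • bt n' (Q.pic bt D n' x) := rfl

theorem Quad.quad_W_nonneg (Q : Quad k C M h) : 0 ≤ C * (M * h) :=
  le_trans (by positivity) (Q.w_le Q.last)

theorem Quad.quad_norm_sum_le (Q : Quad k C M h) (n) {u : Fin M × Fin (k + 1) → Y} {e : ℝ}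
    (he : 0 ≤ e) (hu : ∀ n', ‖u n'‖ ≤ e) : ‖∑ n', Q.w n n' • u n'‖ ≤ C * (M * h) * e := by
  have := quad_lincomb (∅ : Finset Unit) (u := u) (c := fun _ _ => 0) (D := fun _ => 0)
    (w := Q.w n) (γ := fun _ => 0) (e := e) (by simpa using hu) (by simp)
  rw [Finset.sum_empty, sub_zero] at this
  exact this.trans (mul_le_mul_of_nonneg_right (Q.w_le n) he)

theorem Quad.pic_lip (Q : Quad k C M h) {bt : Fin M × Fin (k + 1) → Y → Y} {l : ℝ} (hl : 0 ≤ l)
    (hbt : ∀ n x y, ‖bt n x - bt n y‖ ≤ l * ‖x - y‖) (hq : C * (M * h) * l ≤ 1 / 2) (D : ℕ) (n)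
    (x y : Y) :
    ‖(Q.pic bt D n x - x) - (Q.pic bt D n y - y)‖ ≤ 2 * (C * (M * h) * l) * ‖x - y‖ := by
  have hW := Q.quad_W_nonneg
  have hq0 : 0 ≤ C * (M * h) * l := by positivity
  induction D generalizing n with
  | zero => simp only [Quad.pic_zero, sub_self, norm_zero]; positivity
  | succ D ih =>
    simp only [Quad.pic_succ, add_sub_cancel_left, ← Finset.sum_sub_distrib, ← smul_sub]
    refine (Q.quad_norm_sum_le n (e := l * (2 * ‖x - y‖)) (by positivity) fun n' => ?_).trans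
      (le_of_eq (by ring))
    refine (hbt _ _ _).trans (mul_le_mul_of_nonneg_left ?_ hl)
    have h1 : Q.pic bt D n' x - Q.pic bt D n' y
        = ((Q.pic bt D n' x - x) - (Q.pic bt D n' y - y)) + (x - y) := by abel
    rw [h1]
    refine (norm_add_le _ _).trans ?_
    nlinarith [ih n', norm_nonneg (x - y)]

theorem Quad.pic_growth (Q : Quad k C M h) {bt : Fin M × Fin (k + 1) → Y → Y} {l g : ℝ}
    (hl : 0 ≤ l) (hg : 0 ≤ g) (hbt : ∀ n x, ‖bt n x‖ ≤ l * ‖x‖ + g)
    (hq : C * (M * h) * l ≤ 1 / 2) (D : ℕ) (n) (x : Y) :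
    ‖Q.pic bt D n x‖ ≤ 2 * ‖x‖ + 2 * (C * (M * h)) * g := by
  have hW := Q.quad_W_nonneg
  have hWg : 0 ≤ C * (M * h) * g := by positivity
  induction D generalizing n with
  | zero => rw [Quad.pic_zero]; nlinarith [norm_nonneg x]
  | succ D ih =>
    rw [Quad.pic_succ]
    have := Q.quad_norm_sum_le n (u := fun n' => bt n' (Q.pic bt D n' x))
      (e := l * (2 * ‖x‖ + 2 * (C * (M * h)) * g) + g) (by positivity) fun n' =>
        (hbt _ _).trans (by gcongr; exact ih n')
    refine (norm_add_le _ _).trans ?_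
    nlinarith [norm_nonneg x, mul_le_mul_of_nonneg_right hq (norm_nonneg x),
      mul_le_mul_of_nonneg_right hq hWg]

omit [NormedSpace ℝ Y] in
theorem Quad.quad_lintegral_sum (Q : Quad k C M h) {X : Type} [MeasurableSpace X] {p : Measure X}
    [MeasurableSpace Y] [OpensMeasurableSpace Y] (n) {u : Fin M × Fin (k + 1) → X → Y}
    (hm : ∀ n', Measurable (u n')) {e : ℝ} (he : 0 ≤ e)
    (hu : ∀ n', ∫⁻ x, ‖u n' x‖ₑ ∂p ≤ ENNReal.ofReal e) :
    ∫⁻ x, ∑ n', ‖Q.w n n'‖ₑ * ‖u n' x‖ₑ ∂p ≤ ENNReal.ofReal (C * (M * h) * e) := by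
  rw [lintegral_finsetSum _ fun n' _ => (hm n').enorm.const_mul _]
  refine le_trans ?_ (ENNReal.ofReal_le_ofReal (mul_le_mul_of_nonneg_right (Q.w_le n) he))
  rw [Finset.sum_mul, ENNReal.ofReal_sum_of_nonneg fun _ _ => by positivity]
  refine Finset.sum_le_sum fun n' _ => ?_
  rw [lintegral_const_mul _ (hm n').enorm, ENNReal.ofReal_mul (abs_nonneg _),
    Real.enorm_eq_ofReal_abs]
  gcongr
  exact hu n'

theorem Quad.pic_err (Q : Quad k C M h) [FiniteDimensional ℝ Y] [MeasurableSpace Y] [BorelSpace Y]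
    {bt : Fin M × Fin (k + 1) → Y → Y} {l ε B : ℝ} (hl : 0 ≤ l) (hε : 0 ≤ ε) (hB : 0 ≤ B)
    (hh : 0 < h) (hbt : ∀ n x y, ‖bt n x - bt n y‖ ≤ l * ‖x - y‖) (hq : C * (M * h) * l ≤ 1 / 2)
    {p : Measure Y} [SFinite p] {Ψ : ℝ → Y → Y} (hΨm : Measurable (Function.uncurry Ψ))
    (hΨ0 : ∀ x, Ψ 0 x = x) {f : ℝ → Y → Y} {f' : Y → Y}
    (hΨ : ∀ x, ∀ τ ∈ Set.Icc 0 (M * h), HasDerivWithinAt (fun s => Ψ s x) (f τ x)
      (Set.Icc 0 (M * h)) τ)
    (hf : Chain 0 k (M * h) p f f' B)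
    (herr : ∀ n, ∫⁻ x, ‖bt n (Ψ (Q.τ n) x) - f (Q.τ n) x‖ₑ ∂p ≤ ENNReal.ofReal ε) (D : ℕ) (n) :
    ∫⁻ x, ‖Q.pic bt D n x - Ψ (Q.τ n) x‖ₑ ∂p ≤ ENNReal.ofReal
      ((C * (M * h) * l) ^ D * (M * h) * B +
        2 * (C * (M * h) * ε + C * h ^ (k + 1) * (M * h) * B)) := by
  have hW := Q.quad_W_nonneg
  have hT : (0 : ℝ) ≤ M * h := by positivity
  have hint := Q.int_err (Nat.zero_le _) hB hf
  obtain ⟨F, hF0, -, hFd, hFm, hFB⟩ := hf
  have hτ : ∀ n, Q.τ n ∈ Set.Icc 0 (M * h) := fun n =>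
    ⟨le_trans (by positivity) (Q.τ_ge n), Q.τ_le n⟩
  have hfc : ∀ x, ContinuousOn (fun s => f s x) (Set.Icc 0 (M * h)) := fun x =>
    ContinuousOn.congr (fun τ hτ => (hFd 0 x τ hτ).continuousWithinAt)
      fun τ hτ => (hF0 τ hτ x).symm
  have hΨeq : ∀ n x, Ψ (Q.τ n) x = x + ∫ s in (0 : ℝ)..Q.τ n, f s x := by
    intro n x
    have hs : Set.Icc 0 (Q.τ n) ⊆ Set.Icc 0 (M * h) := Set.Icc_subset_Icc le_rfl (hτ n).2
    rw [intervalIntegral.integral_eq_sub_of_hasDeriv_right_of_le (f := fun s => Ψ s x) (hτ n).1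
      (fun τ hτ => (hΨ x τ (hs hτ)).continuousWithinAt.mono hs) (fun u hu => ?_)
      (((hfc x).mono hs).intervalIntegrable_of_Icc (hτ n).1), hΨ0]
    · abel
    · have hu' : Set.Icc 0 (M * h) ∈ nhds u := Icc_mem_nhds hu.1 (hu.2.trans_le (hτ n).2)
      exact ((hΨ x u (mem_of_mem_nhds hu')).hasDerivAt hu').hasDerivWithinAt
  have hc0 : 0 ≤ C * h ^ (k + 1) * (M * h) * B := by
    have : C * h ^ (k + 1) * (M * h) * B = C * (M * h) * h ^ (k + 1) * B := by ring
    rw [this]; positivity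
  have hbc : ∀ n, Continuous (bt n) := fun n =>
    (LipschitzWith.of_dist_le_mul (K := ⟨l, hl⟩) fun x y => by
      rw [dist_eq_norm, dist_eq_norm]; exact hbt n x y).continuous
  have hpc : ∀ D n, Continuous (Q.pic bt D n) := by
    intro D
    induction D with
    | zero => exact fun n => continuous_id
    | succ D ih =>
      exact fun n => continuous_id.add (continuous_finsetSum _ fun n' _ =>
        ((hbc n').comp (ih n')).const_smul _)
  have hΨm' : ∀ n, Measurable (Ψ (Q.τ n)) := fun n => hΨm.of_uncurry_left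
  have hfm : ∀ n, Measurable (f (Q.τ n)) := fun n => by
    rw [show f (Q.τ n) = F 0 (Q.τ n) from funext fun x => (hF0 _ (hτ n) x).symm]
    exact (hFm 0).of_uncurry_left
  induction D generalizing n with
  | zero =>
    refine (quad_tonelli (hFm 0) hT zero_le_one (hFB 0 le_rfl (Nat.zero_le _)) fun x => ?_).trans
      (ENNReal.ofReal_le_ofReal ?_)
    · rw [Quad.pic_zero, hΨeq, sub_add_cancel_left, norm_neg, one_mul,
        ← intervalIntegral.integral_congr (f := fun s => ‖f s x‖) fun s hs => by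
          rw [Set.uIcc_of_le hT] at hs
          simp only [hF0 s hs x]]
      refine (intervalIntegral.norm_integral_le_integral_norm (hτ n).1).trans ?_
      exact intervalIntegral.integral_mono_interval le_rfl (hτ n).1 (hτ n).2
        (Filter.Eventually.of_forall fun u => norm_nonneg _)
        ((hfc x).norm.intervalIntegrable_of_Icc hT)
    · have : 0 ≤ C * (M * h) * ε := by positivity
      rw [pow_zero]
      linarith
  | succ D ih =>
    set e := (C * (M * h) * l) ^ D * (M * h) * B +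
      2 * (C * (M * h) * ε + C * h ^ (k + 1) * (M * h) * B) with he
    have he0 : 0 ≤ e := by positivity
    have hm1 : ∀ n', Measurable fun x => bt n' (Q.pic bt D n' x) - bt n' (Ψ (Q.τ n') x) :=
      fun n' => ((hbc n').comp (hpc D n')).measurable.sub ((hbc n').measurable.comp (hΨm' n'))
    have hm2 : ∀ n', Measurable fun x => bt n' (Ψ (Q.τ n') x) - f (Q.τ n') x :=
      fun n' => ((hbc n').measurable.comp (hΨm' n')).sub (hfm n')
    have h1 := Q.quad_lintegral_sum (p := p) n hm1 (e := l * e) (by positivity) fun n' => by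
      rw [ENNReal.ofReal_mul hl]
      refine le_trans ?_ (mul_le_mul_right (ih n') _)
      rw [← lintegral_const_mul' _ _ ENNReal.ofReal_ne_top]
      refine lintegral_mono fun x => ?_
      rw [← ofReal_norm, ← ofReal_norm, ← ENNReal.ofReal_mul hl]
      exact ENNReal.ofReal_le_ofReal (hbt _ _ _)
    have h2 := Q.quad_lintegral_sum (p := p) n hm2 hε herr
    have h3 := add_le_add (add_le_add h1 h2) (hint n)
    rw [← lintegral_add_left (Finset.measurable_fun_sum _ fun n' _ => (hm1 n').enorm.const_mul _),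
      ← lintegral_add_left ((Finset.measurable_fun_sum _ fun n' _ => (hm1 n').enorm.const_mul _).fun_add
        (Finset.measurable_fun_sum _ fun n' _ => (hm2 n').enorm.const_mul _)),
      ← ENNReal.ofReal_add (by positivity) (by positivity),
      ← ENNReal.ofReal_add (by positivity) hc0] at h3
    refine (lintegral_mono fun x => ?_).trans (h3.trans (ENNReal.ofReal_le_ofReal ?_))
    · have : Q.pic bt (D + 1) n x - Ψ (Q.τ n) x
          = (∑ n', Q.w n n' • (bt n' (Q.pic bt D n' x) - bt n' (Ψ (Q.τ n') x))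
            + ∑ n', Q.w n n' • (bt n' (Ψ (Q.τ n') x) - f (Q.τ n') x))
            - ((∫ s in (0 : ℝ)..Q.τ n, f s x) - ∑ n', Q.w n n' • f (Q.τ n') x) := by
        rw [Quad.pic_succ, hΨeq n x]
        simp only [smul_sub, Finset.sum_sub_distrib]
        abel
      rw [this]
      refine enorm_sub_le.trans (add_le_add ((enorm_add_le _ _).trans (add_le_add ?_ ?_)) le_rfl)
      · exact (enorm_sum_le _ _).trans (le_of_eq (by simp only [enorm_smul]))
      · exact (enorm_sum_le _ _).trans (le_of_eq (by simp only [enorm_smul]))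
    · have h4 : 0 ≤ C * (M * h) * ε + C * h ^ (k + 1) * (M * h) * B := by positivity
      have h5 := mul_le_mul_of_nonneg_right hq h4
      rw [he, pow_succ (C * (M * h) * l)]
      nlinarith

end Crest.Agent.R285
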