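import Crest.Agent.R285.NLDef
import Crest.Agent.R285.Quad
import Crest.Agent.R285.Poincare

/-! Row 285: the circuit; Lipschitz and growth bounds. -/

set_option autoImplicit false

open Crest.OracleSampling

namespace Crest.Agent.R285

variable {d k M : ℕ} {C h : ℝ}

/-- The field of the probability flow. -/
noncomputable def b100 (u : UF d) (r : ℝ) (y : E d × E d) : E d × E d :=
  (-((1 - Real.tanh r ^ 2) • u r y.1), 0)

/-- The Hamiltonian field. -/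
noncomputable def b010 (u : UF d) (r : ℝ) (y : E d × E d) : E d × E d :=
  (-y.2, y.1 + Real.tanh r • u r y.1)

/-- Picard iterates of the local probability flow. -/
noncomputable def p100 (Ql : Quad k C 1 h) (u : UF d) (r : ℝ) :
    ℕ → Fin 1 × Fin (k + 1) → E d × E d → E d × E d :=
  Ql.pic fun n' => b100 u (r + Ql.τ n')

/-- Picard iterates of the local Hamiltonian flow. -/
noncomputable def p010 (Ql : Quad k C 1 h) (u : UF d) (r : ℝ) :
    ℕ → Fin 1 × Fin (k + 1) → E d × E d → E d × E d :=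
  Ql.pic fun _ => b010 u r

/-- Approximation of `Q0`. -/
noncomputable def q0 (Ql : Quad k C 1 h) (u : UF d) (r : ℝ) (y : E d × E d) : E d :=
  ∑ n, Ql.β n • u (r + Ql.τ n) (p100 Ql u r (k + 1) n y).1

/-- Approximation of `-tanh r • Hg`. -/
noncomputable def q1 (Ql : Quad k C 1 h) (u : UF d) (r : ℝ) (y : E d × E d) : E d :=
  ∑ n, Ql.β n • u r (p010 Ql u r (k + 1) n y).1

/-- Approximation of the field with parameters `(0, 0, K)`. -/
noncomputable def b001 (Ql : Quad k C 1 h) (K : ℝ) (u : UF d) (r : ℝ) (y : E d × E d) :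
    E d × E d :=
  ((K * ((1 - Real.tanh r ^ 2) / Real.tanh r)) • q1 Ql u r y, K • q0 Ql u r y)

/-- Picard iterates of the local flow with parameters `(0, 0, K)`. -/
noncomputable def p001 (Ql : Quad k C 1 h) (K : ℝ) (u : UF d) (r : ℝ) :
    ℕ → Fin 1 × Fin (k + 1) → E d × E d → E d × E d :=
  Ql.pic fun _ => b001 Ql K u r

/-- Approximation of `K • Q2`. -/
noncomputable def q2 (Ql : Quad k C 1 h) (K : ℝ) (u : UF d) (r : ℝ) (y : E d × E d) : E d :=
  ∑ n, Ql.β n • u r (p001 Ql K u r (k + 1) n y).1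

/-- Approximation of the global field with parameters `(1, 0, κ)`. -/
noncomputable def bG (Ql : Quad k C 1 h) (κ : ℝ) (u : UF d) (r : ℝ) (y : E d × E d) : E d × E d :=
  b100 u r y + b001 Ql κ u r y

/-- Picard iterates of the global flow. -/
noncomputable def pG (Ql : Quad k C 1 h) (Qg : Quad k C M h) (κ : ℝ) (u : UF d) :
    ℕ → Fin M × Fin (k + 1) → E d × E d → E d × E d :=
  Qg.pic fun n' => bG Ql κ u (Qg.τ n')

/-- The displacement. -/
noncomputable def cFz (Ql : Quad k C 1 h) (Qg : Quad k C M h) (κ : ℝ) : Fn d := fun u x =>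
  (pG Ql Qg κ u (k + 1) Qg.last x).1 - x.1

/-- The side term. -/
noncomputable def cFs (Ql : Quad k C 1 h) (Qg : Quad k C M h) (κ K : ℝ) : Fn d := fun u x =>
  -((κ / K) • ∑ n, Qg.w Qg.last n • q2 Ql K u (Qg.τ n) (pG Ql Qg κ u (k + 1) n x))

/-- The smallness hypotheses. -/
structure CHyp (k M : ℕ) (C h κ K δ : ℝ) : Prop where
  hC : 1 ≤ C
  hh : 0 < h
  hCh : 4 * C * h ≤ 1
  hκ : 0 ≤ κ
  hκK : κ ≤ K
  hK : 0 < K
  hδ : 0 < δ
  hM : 0 < M
  small : C * (1 + M * h) * ((1 + K) * (2 * (k + 1) / h) * (16 * C * δ / h)) ≤ h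

/-- The properties of the force field that are used. -/
structure UOK (δ Mm : ℝ) (m : E d) (u : UF d) : Prop where
  lip : ∀ r z z', ‖u r z - u r z'‖ ≤ δ * ‖z - z'‖
  gr : ∀ r z, ‖u r z - m‖ ≤ 8 * δ * (‖z‖ + Mm)
  nm : ‖m‖ ≤ Mm

variable {κ K δ Mm : ℝ} {m : E d} {u : UF d}

theorem CHyp.cta_h_le (H : CHyp k M C h κ K δ) : h ≤ 1 / 4 := by
  nlinarith [H.hC, H.hh, H.hCh]

theorem CHyp.cta_a_ge (H : CHyp k M C h κ K δ) : 8 * δ ≤ 16 * C * δ / h := by
  rw [le_div_iff₀ H.hh]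
  nlinarith [H.hC, H.cta_h_le, H.hδ, mul_le_mul_of_nonneg_left H.cta_h_le H.hδ.le,
    mul_le_mul_of_nonneg_left H.hC H.hδ.le]

theorem CHyp.cta_a_nonneg (H : CHyp k M C h κ K δ) : 0 ≤ 16 * C * δ / h := by
  linarith [H.cta_a_ge, H.hδ]

theorem CHyp.cta_γ_ge (H : CHyp k M C h κ K δ) : (1 : ℝ) ≤ 2 * (k + 1) / h := by
  rw [le_div_iff₀ H.hh]
  have : (0 : ℝ) ≤ k := Nat.cast_nonneg k
  linarith [H.cta_h_le]

theorem CHyp.cta_γa_ge (H : CHyp k M C h κ K δ) :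
    8 * δ ≤ (2 * (k + 1) / h) * (16 * C * δ / h) :=
  H.cta_a_ge.trans (le_mul_of_one_le_left H.cta_a_nonneg H.cta_γ_ge)

theorem CHyp.cta_θ_nonneg (H : CHyp k M C h κ K δ) :
    0 ≤ (1 + K) * (2 * (k + 1) / h) * (16 * C * δ / h) :=
  mul_nonneg (mul_nonneg (by linarith [H.hK]) (by linarith [H.cta_γ_ge])) H.cta_a_nonneg

theorem CHyp.cta_θ_le (H : CHyp k M C h κ K δ) :
    (1 + K) * (2 * (k + 1) / h) * (16 * C * δ / h) ≤ h := by
  refine le_trans (le_mul_of_one_le_left H.cta_θ_nonneg ?_) H.small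
  have : 0 ≤ M * h := mul_nonneg (Nat.cast_nonneg M) H.hh.le
  nlinarith [H.hC]

theorem CHyp.cta_glob (H : CHyp k M C h κ K δ) :
    C * (M * h) * ((1 + K) * (2 * (k + 1) / h) * (16 * C * δ / h)) ≤ 1 / 2 := by
  refine le_trans (mul_le_mul_of_nonneg_right ?_ H.cta_θ_nonneg)
    (H.small.trans (by linarith [H.cta_h_le]))
  nlinarith [H.hC]

theorem CHyp.cta_loc (H : CHyp k M C h κ K δ) : C * (((1 : ℕ) : ℝ) * h) * 2 ≤ 1 / 2 := by
  rw [Nat.cast_one, one_mul]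
  linarith [H.hCh]

theorem CHyp.cta_K_le (H : CHyp k M C h κ K δ) {K' : ℝ} (hK' : K' ≤ K) :
    K' * (2 * (k + 1) / h) * (16 * C * δ / h) + 8 * δ ≤
      (1 + K) * (2 * (k + 1) / h) * (16 * C * δ / h) := by
  have h1 := H.cta_γa_ge
  have h2 := H.hδ
  rw [mul_assoc K', mul_assoc (1 + K)]
  generalize 2 * ((k : ℝ) + 1) / h * (16 * C * δ / h) = X at h1
  nlinarith

theorem CHyp.δ_le (H : CHyp k M C h κ K δ) : 8 * δ ≤ h := by
  have h1 := H.cta_K_le H.hK.le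
  have h2 := H.cta_θ_le
  linarith

theorem CHyp.h_le (H : CHyp k M C h κ K δ) : h ≤ 1 / 4 := by
  exact H.cta_h_le

theorem uok_uu {W : E d → ℝ} (hW : Pot 0 δ W) (hδ : 0 ≤ δ) (hδ' : δ ≤ 1 / 2) :
    UOK δ (MM W) (mn W 0 1) (uu W) := by
  exact ⟨uu_lip hW hδ, uu_sub_le hW hδ hδ', le_add_of_nonneg_left (Real.sqrt_nonneg _)⟩

theorem tanh_node_le (hh : 0 < h) (hh' : h ≤ 1) {r : ℝ} (hr : h / (k + 1) ≤ r) :
    |(1 - Real.tanh r ^ 2) / Real.tanh r| ≤ 2 * (k + 1) / h := by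
  have _ := hh'
  have hk : (0 : ℝ) < k + 1 := by positivity
  have hr0 : 0 < r := lt_of_lt_of_le (by positivity) hr
  have hc := Real.one_le_cosh r
  have hs : r ≤ Real.sinh r := Real.self_le_sinh_iff.2 hr0.le
  have hs0 : 0 < Real.sinh r := hr0.trans_le hs
  have e : (1 - Real.tanh r ^ 2) / Real.tanh r = 1 / (Real.sinh r * Real.cosh r) := by
    rw [Real.tanh_eq_sinh_div_cosh]
    field_simp
    exact Real.cosh_sq_sub_sinh_sq r
  rw [e, abs_of_pos (by positivity), div_le_div_iff₀ (by positivity) hh]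
  rw [div_le_iff₀ hk] at hr
  have h1 : r ≤ Real.sinh r * Real.cosh r := hs.trans (le_mul_of_one_le_right hs0.le hc)
  nlinarith [mul_le_mul_of_nonneg_right h1 hk.le, mul_pos hr0 hk]

theorem cta_beta {Y : Type} [NormedAddCommGroup Y] [NormedSpace ℝ Y] (Q : Quad k C M h)
    {v : Fin M × Fin (k + 1) → Y} {e : ℝ} (he : 0 ≤ e) (hv : ∀ n, ‖v n‖ ≤ e) :
    ‖∑ n, Q.β n • v n‖ ≤ C / h * e := by
  refine le_trans (norm_sum_le_of_le _ (n := fun n => |Q.β n| * e) fun n _ => ?_) ?_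
  · rw [norm_smul, Real.norm_eq_abs]
    exact mul_le_mul_of_nonneg_left (hv n) (abs_nonneg _)
  · rw [← Finset.sum_mul]
    exact mul_le_mul_of_nonneg_right Q.β_le he

theorem cta_pic_lip {Y : Type} [NormedAddCommGroup Y] [NormedSpace ℝ Y] (Q : Quad k C M h)
    {bt : Fin M × Fin (k + 1) → Y → Y} {l : ℝ} (hl : 0 ≤ l)
    (hbt : ∀ n x y, ‖bt n x - bt n y‖ ≤ l * ‖x - y‖) (hq : C * (M * h) * l ≤ 1 / 2) (D : ℕ) (n)
    (x y : Y) : ‖(Q.pic bt D n x - x) - (Q.pic bt D n y - y)‖ ≤ ‖x - y‖ ∧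
      ‖Q.pic bt D n x - Q.pic bt D n y‖ ≤ 2 * ‖x - y‖ := by
  have h1 : ‖(Q.pic bt D n x - x) - (Q.pic bt D n y - y)‖ ≤ ‖x - y‖ :=
    (Q.pic_lip hl hbt hq D n x y).trans (mul_le_of_le_one_left (norm_nonneg _) (by linarith))
  refine ⟨h1, ?_⟩
  have e : Q.pic bt D n x - Q.pic bt D n y =
      ((Q.pic bt D n x - x) - (Q.pic bt D n y - y)) + (x - y) := by abel
  rw [e]
  exact (norm_add_le _ _).trans (by linarith)

theorem cta_sech (r : ℝ) : |1 - Real.tanh r ^ 2| ≤ 1 := by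
  rw [abs_of_pos (Poincare_tanh_pos r)]
  nlinarith [sq_nonneg (Real.tanh r)]

theorem UOK.cta_Mm (U : UOK δ Mm m u) : 0 ≤ Mm := (norm_nonneg _).trans U.nm

section
variable (H : CHyp k M C h κ K δ) (U : UOK δ Mm m u) (Ql : Quad k C 1 h) (Qg : Quad k C M h)
include H U

theorem cta_u_le (r : ℝ) (z : E d) : ‖u r z‖ ≤ 8 * δ * ‖z‖ + 2 * Mm := by
  have h1 := U.gr r z
  have h2 := norm_le_norm_add_norm_sub' (u r z) m
  have h3 : 8 * δ * Mm ≤ Mm :=
    mul_le_of_le_one_left U.cta_Mm (by linarith [H.δ_le, H.h_le])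
  nlinarith [U.nm]

theorem cta_u_lip (r : ℝ) (x y : E d × E d) : ‖u r x.1 - u r y.1‖ ≤ δ * ‖x - y‖ :=
  (U.lip r _ _).trans (mul_le_mul_of_nonneg_left (norm_fst_le (x - y)) H.hδ.le)

theorem cta_q_lip {t : Fin 1 × Fin (k + 1) → ℝ} {p p' : Fin 1 × Fin (k + 1) → E d × E d} {e : ℝ}
    (he : 0 ≤ e) (hp : ∀ n, ‖p n - p' n‖ ≤ 2 * e) :
    ‖∑ n, Ql.β n • u (t n) (p n).1 - ∑ n, Ql.β n • u (t n) (p' n).1‖ ≤ 16 * C * δ / h * e := by
  simp only [← Finset.sum_sub_distrib, ← smul_sub]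
  have hδ := H.hδ
  have hh := H.hh
  have hC := H.hC
  refine (cta_beta Ql (e := δ * (2 * e)) (by positivity) fun n =>
    (cta_u_lip H U _ _ _).trans (mul_le_mul_of_nonneg_left (hp n) hδ.le)).trans ?_
  have : 0 ≤ C * δ / h * e := by positivity
  calc C / h * (δ * (2 * e)) = 2 * (C * δ / h * e) := by ring
    _ ≤ 16 * (C * δ / h * e) := by linarith
    _ = _ := by ring

theorem cta_q_growth {t : Fin 1 × Fin (k + 1) → ℝ} {p : Fin 1 × Fin (k + 1) → E d × E d} {e : ℝ}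
    (he : 0 ≤ e) (hp : ∀ n, ‖p n‖ ≤ 2 * e + Mm) :
    ‖∑ n, Ql.β n • u (t n) (p n).1‖ ≤ 16 * C * δ / h * (e + Mm) := by
  have e1 : ∑ n, Ql.β n • u (t n) (p n).1 = ∑ n, Ql.β n • (u (t n) (p n).1 - m) := by
    simp only [smul_sub, Finset.sum_sub_distrib, ← Finset.sum_smul, Ql.β_sum, zero_smul, sub_zero]
  have hδ := H.hδ
  have hM := U.cta_Mm
  rw [e1]
  refine (cta_beta Ql (e := 8 * δ * (2 * e + Mm + Mm)) (by positivity) fun n =>
    (U.gr _ _).trans (mul_le_mul_of_nonneg_left ?_ (by positivity))).trans (le_of_eq (by ring))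
  linarith [norm_fst_le (p n), hp n]

theorem cta_b100_growth (r : ℝ) (y : E d × E d) : ‖b100 u r y‖ ≤ 8 * δ * ‖y‖ + 2 * Mm := by
  have hδ := H.hδ
  have hM := U.cta_Mm
  rw [b100, Prod.norm_def]
  refine max_le ?_ (by simp only [norm_zero]; positivity)
  rw [norm_neg, norm_smul, Real.norm_eq_abs]
  refine (mul_le_of_le_one_left (norm_nonneg _) (cta_sech r)).trans
    ((cta_u_le H U r _).trans ?_)
  have := mul_le_mul_of_nonneg_left (norm_fst_le y) (show 0 ≤ 8 * δ by positivity)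
  linarith

theorem cta_loc_growth {bt : Fin 1 × Fin (k + 1) → E d × E d → E d × E d}
    (hbt : ∀ n x, ‖bt n x‖ ≤ 2 * ‖x‖ + 2 * Mm) (D : ℕ) (n) (y : E d × E d) :
    ‖Ql.pic bt D n y‖ ≤ 2 * ‖y‖ + Mm := by
  have hM := U.cta_Mm
  refine (Ql.pic_growth (by norm_num) (by positivity) hbt H.cta_loc D n y).trans ?_
  have h1 := mul_le_mul_of_nonneg_right H.cta_loc hM
  generalize C * (((1 : ℕ) : ℝ) * h) = X at h1
  linarith

theorem b100_lip (r : ℝ) (x y : E d × E d) : ‖b100 u r x - b100 u r y‖ ≤ δ * ‖x - y‖ := by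
  have hδ := H.hδ
  rw [b100, b100, Prod.mk_sub_mk, Prod.norm_def]
  refine max_le ?_ (by simp only [sub_self, norm_zero]; positivity)
  rw [← neg_sub', norm_neg, ← smul_sub, norm_smul, Real.norm_eq_abs]
  exact (mul_le_of_le_one_left (norm_nonneg _) (cta_sech r)).trans (cta_u_lip H U r x y)

theorem b010_lip (r : ℝ) (x y : E d × E d) : ‖b010 u r x - b010 u r y‖ ≤ 2 * ‖x - y‖ := by
  have h0 := norm_nonneg (x - y)
  rw [b010, b010, Prod.mk_sub_mk, Prod.norm_def]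
  refine max_le ?_ ?_
  · rw [← neg_sub', norm_neg]
    have : ‖x.2 - y.2‖ ≤ ‖x - y‖ := norm_snd_le (x - y)
    linarith
  · rw [add_sub_add_comm, ← smul_sub]
    refine (norm_add_le _ _).trans ?_
    rw [norm_smul]
    have h1 : ‖x.1 - y.1‖ ≤ ‖x - y‖ := norm_fst_le (x - y)
    have h2 := (mul_le_of_le_one_left (norm_nonneg _) (Poincare_abs_tanh r)).trans
      (cta_u_lip H U r x y)
    have h3 : δ * ‖x - y‖ ≤ ‖x - y‖ :=
      mul_le_of_le_one_left h0 (by linarith [H.δ_le, H.h_le])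
    linarith

theorem p100_growth (r : ℝ) (D : ℕ) (n) (y : E d × E d) :
    ‖p100 Ql u r D n y‖ ≤ 2 * ‖y‖ + Mm := by
  refine cta_loc_growth H U Ql (fun n x => (cta_b100_growth H U _ x).trans ?_) D n y
  have := mul_le_mul_of_nonneg_right (show 8 * δ ≤ 2 by linarith [H.δ_le, H.h_le]) (norm_nonneg x)
  linarith

theorem p010_growth (r : ℝ) (D : ℕ) (n) (y : E d × E d) :
    ‖p010 Ql u r D n y‖ ≤ 2 * ‖y‖ + Mm := by
  refine cta_loc_growth H U Ql (fun n x => ?_) D n y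
  have hM := U.cta_Mm
  have h0 := norm_nonneg x
  rw [b010, Prod.norm_def]
  refine max_le ?_ ?_
  · rw [norm_neg]
    linarith [norm_snd_le x]
  · refine (norm_add_le _ _).trans ?_
    rw [norm_smul]
    have h2 := (mul_le_of_le_one_left (norm_nonneg _) (Poincare_abs_tanh r)).trans
      (cta_u_le H U r x.1)
    have h3 : 8 * δ * ‖x.1‖ ≤ ‖x.1‖ :=
      mul_le_of_le_one_left (norm_nonneg _) (by linarith [H.δ_le, H.h_le])
    linarith [norm_fst_le x]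

theorem q0_lip (r : ℝ) (x y : E d × E d) :
    ‖q0 Ql u r x - q0 Ql u r y‖ ≤ 16 * C * δ / h * ‖x - y‖ := by
  refine cta_q_lip H U Ql (t := fun n => r + Ql.τ n) (p := fun n => p100 Ql u r (k + 1) n x)
    (p' := fun n => p100 Ql u r (k + 1) n y) (norm_nonneg _) fun n =>
    (cta_pic_lip Ql (l := 2) (bt := fun n' => b100 u (r + Ql.τ n')) (by norm_num)
    (fun n x y => (b100_lip H U _ x y).trans ?_) H.cta_loc _ n x y).2
  exact mul_le_mul_of_nonneg_right (by linarith [H.δ_le, H.h_le]) (norm_nonneg _)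

theorem q1_lip (r : ℝ) (x y : E d × E d) :
    ‖q1 Ql u r x - q1 Ql u r y‖ ≤ 16 * C * δ / h * ‖x - y‖ := by
  exact cta_q_lip H U Ql (t := fun _ => r) (norm_nonneg _) fun n =>
    (cta_pic_lip Ql (l := 2) (by norm_num) (fun _ x y => b010_lip H U r x y) H.cta_loc _ n x y).2

theorem q0_growth (r : ℝ) (y : E d × E d) : ‖q0 Ql u r y‖ ≤ 16 * C * δ / h * (‖y‖ + Mm) := by
  exact cta_q_growth H U Ql (norm_nonneg _) fun n => p100_growth H U Ql r _ n y

theorem q1_growth (r : ℝ) (y : E d × E d) : ‖q1 Ql u r y‖ ≤ 16 * C * δ / h * (‖y‖ + Mm) := by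
  exact cta_q_growth H U Ql (t := fun _ => r) (norm_nonneg _) fun n => p010_growth H U Ql r _ n y

omit U in
theorem cta_pair {K' r e : ℝ} (hK' : 0 ≤ K') (hr : h / (k + 1) ≤ r) {v w : E d}
    (hv : ‖v‖ ≤ e) (hw : ‖w‖ ≤ e) :
    ‖((K' * ((1 - Real.tanh r ^ 2) / Real.tanh r)) • v, K' • w)‖ ≤
      K' * (2 * (k + 1) / h) * e := by
  have he := (norm_nonneg _).trans hv
  have hγ := H.cta_γ_ge
  rw [Prod.norm_def]
  refine max_le ?_ ?_
  · rw [norm_smul, Real.norm_eq_abs, abs_mul, abs_of_nonneg hK']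
    exact mul_le_mul (mul_le_mul_of_nonneg_left
      (tanh_node_le H.hh (by linarith [H.h_le]) hr) hK') hv (norm_nonneg _) (by positivity)
  · rw [norm_smul, Real.norm_eq_abs, abs_of_nonneg hK']
    exact mul_le_mul (le_mul_of_one_le_right hK' hγ) hw (norm_nonneg _) (by positivity)

theorem cta_b001_growth {K' r : ℝ} (hK' : 0 ≤ K') (hr : h / (k + 1) ≤ r) (y : E d × E d) :
    ‖b001 Ql K' u r y‖ ≤ K' * (2 * (k + 1) / h) * (16 * C * δ / h) * (‖y‖ + Mm) := by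
  rw [mul_assoc _ (16 * C * δ / h)]
  exact cta_pair H hK' hr (q1_growth H U Ql r y) (q0_growth H U Ql r y)

theorem b001_lip {K' r : ℝ} (hK' : 0 ≤ K') (hr : h / (k + 1) ≤ r) (x y : E d × E d) :
    ‖b001 Ql K' u r x - b001 Ql K' u r y‖ ≤
      K' * (2 * (k + 1) / h) * (16 * C * δ / h) * ‖x - y‖ := by
  rw [b001, b001, Prod.mk_sub_mk, ← smul_sub, ← smul_sub, mul_assoc _ (16 * C * δ / h)]
  exact cta_pair H hK' hr (q1_lip H U Ql r x y) (q0_lip H U Ql r x y)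

theorem bG_lip {r : ℝ} (hr : h / (k + 1) ≤ r) (x y : E d × E d) :
    ‖bG Ql κ u r x - bG Ql κ u r y‖ ≤
      (1 + K) * (2 * (k + 1) / h) * (16 * C * δ / h) * ‖x - y‖ := by
  rw [bG, bG, add_sub_add_comm]
  refine (norm_add_le _ _).trans ((add_le_add (b100_lip H U r x y)
    (b001_lip H U Ql H.hκ hr x y)).trans ?_)
  rw [← add_mul]
  exact mul_le_mul_of_nonneg_right (by linarith [H.cta_K_le H.hκK, H.hδ]) (norm_nonneg _)

theorem p001_growth {r : ℝ} (hr : h / (k + 1) ≤ r) (D : ℕ) (n) (y : E d × E d) :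
    ‖p001 Ql K u r D n y‖ ≤ 2 * ‖y‖ + Mm := by
  refine cta_loc_growth H U Ql (fun n x => (cta_b001_growth H U Ql H.hK.le hr x).trans ?_) D n y
  have h1 : K * (2 * (k + 1) / h) * (16 * C * δ / h) ≤ 2 := by
    linarith [H.cta_K_le le_rfl, H.hδ, H.cta_θ_le, H.h_le]
  have := mul_le_mul_of_nonneg_right h1 (add_nonneg (norm_nonneg x) U.cta_Mm)
  linarith

theorem q2_lip {r : ℝ} (hr : h / (k + 1) ≤ r) (x y : E d × E d) :
    ‖q2 Ql K u r x - q2 Ql K u r y‖ ≤ 16 * C * δ / h * ‖x - y‖ := by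
  refine cta_q_lip H U Ql (t := fun _ => r) (norm_nonneg _) fun n =>
    (cta_pic_lip Ql (l := 2) (by norm_num)
      (fun n x y => (b001_lip H U Ql H.hK.le hr x y).trans ?_) H.cta_loc _ n x y).2
  exact mul_le_mul_of_nonneg_right (by linarith [H.cta_K_le le_rfl, H.hδ, H.cta_θ_le, H.h_le])
    (norm_nonneg _)

theorem pG_growth (D : ℕ) (n) (y : E d × E d) :
    ‖pG Ql Qg κ u D n y‖ ≤ 2 * ‖y‖ + 6 * C * (M * h) * Mm := by
  have hM := U.cta_Mm
  refine (Qg.pic_growth (g := 3 * Mm) H.cta_θ_nonneg (by positivity) (fun n x => ?_) H.cta_glob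
    D n y).trans (le_of_eq (by ring))
  refine (norm_add_le _ _).trans ((add_le_add (cta_b100_growth H U _ x)
    (cta_b001_growth H U Ql H.hκ (Qg.τ_ge n) x)).trans ?_)
  have h1 := H.cta_K_le H.hκK
  have h2 : κ * (2 * (k + 1) / h) * (16 * C * δ / h) ≤ 1 := by
    linarith [H.hδ, H.cta_θ_le, H.h_le]
  have h3 := mul_le_mul_of_nonneg_right h1 (norm_nonneg x)
  have h4 := mul_le_mul_of_nonneg_right h2 hM
  linarith

theorem pG_lip (D : ℕ) (n) (x y : E d × E d) :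
    ‖pG Ql Qg κ u D n x - pG Ql Qg κ u D n y‖ ≤ 2 * ‖x - y‖ := by
  exact (cta_pic_lip Qg H.cta_θ_nonneg (fun n x y => bG_lip H U Ql (Qg.τ_ge n) x y) H.cta_glob
    D n x y).2

theorem cFz_lip (x y : E d × E d) : ‖cFz Ql Qg κ u x - cFz Ql Qg κ u y‖ ≤ ‖x - y‖ := by
  exact (norm_fst_le _).trans (cta_pic_lip Qg H.cta_θ_nonneg
    (fun n x y => bG_lip H U Ql (Qg.τ_ge n) x y) H.cta_glob (k + 1) Qg.last x y).1

theorem cFs_lip (x y : E d × E d) :
    ‖cFs Ql Qg κ K u x - cFs Ql Qg κ K u y‖ ≤ δ * (32 * C ^ 2 * (M * h) / h) * ‖x - y‖ := by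
  simp only [cFs]
  rw [← neg_sub', norm_neg, ← smul_sub, norm_smul, Real.norm_eq_abs,
    abs_of_nonneg (div_nonneg H.hκ H.hK.le)]
  refine (mul_le_of_le_one_left (norm_nonneg _) ((div_le_one H.hK).2 H.hκK)).trans ?_
  simp only [← Finset.sum_sub_distrib, ← smul_sub]
  have ha := H.cta_a_nonneg
  refine (Qg.quad_norm_sum_le Qg.last (e := 16 * C * δ / h * (2 * ‖x - y‖)) (by positivity)
    fun n => (q2_lip H U Ql (Qg.τ_ge n) _ _).trans
      (mul_le_mul_of_nonneg_left (pG_lip H U Ql Qg _ n x y) ha)).trans (le_of_eq (by ring))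

end

end Crest.Agent.R285
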