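import Crest.Agent.R285.CTa

/-! Row 285: the circuit is built from few evaluations of the mean force. -/

set_option autoImplicit false

open Crest.OracleSampling

namespace Crest.Agent.R285

section CTb

variable {d : ℕ} {P : NP}

theorem CTb_congr {m : ℝ} {n : ℕ} {F G : Fn d} (h : NL d P m n F) (e : ∀ u x, G u x = F u x) :
    NL d P m n G := by
  have : G = F := funext fun u => funext fun x => e u x
  rw [this]
  exact h

theorem CTb_sum {ι : Type} (s : Finset ι) (c : ι → ℝ) {m : ℝ} {n : ℕ} (F : ι → Fn d)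
    (h : ∀ i ∈ s, NL d P m n (F i)) :
    NL d P ((∑ i ∈ s, |c i|) * m) (s.card * n) fun u x => ∑ i ∈ s, c i • F i u x := by
  classical
  induction s using Finset.induction_on with
  | empty => simpa using (NL.zero : NL d P 0 0 _)
  | insert a s ha ih =>
    have h1 := (NL.smul (c a) (h a (Finset.mem_insert_self _ _))).add
      (ih fun i hi => h i (Finset.mem_insert_of_mem hi))
    refine CTb_congr (h1.mono (le_of_eq ?_) (le_of_eq ?_)) fun u x => ?_
    · rw [Finset.sum_insert ha]; ring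
    · rw [Finset.card_insert_of_notMem ha]; ring
    · rw [Finset.sum_insert ha]

theorem CTb_sum' {ι : Type} [Fintype ι] [Nonempty ι] (c : ι → ℝ) {m B : ℝ} {n : ℕ} (F : ι → Fn d)
    (h : ∀ i, NL d P m n (F i)) (hc : ∑ i, |c i| ≤ B) :
    NL d P (B * m) (Fintype.card ι * n) fun u x => ∑ i, c i • F i u x :=
  (CTb_sum Finset.univ c F fun i _ => h i).mono
    (mul_le_mul_of_nonneg_right hc (h (Classical.arbitrary ι)).nonneg) le_rfl

theorem CTb_zero {m : ℝ} (hm : 0 ≤ m) (n : ℕ) : NL d P m n fun _ _ => 0 :=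
  NL.zero.mono hm (Nat.zero_le n)

/-- Maps which are affine up to a circuit and have linear growth. -/
def CTbGood (P : NP) (a m : ℝ) (n : ℕ) (g : ℝ) (Φ : UF d → E d × E d → E d × E d) : Prop :=
  (∃ (a1 b1 a2 b2 : ℝ) (F1 F2 : Fn d), |a1| + |b1| ≤ a ∧ |a2| + |b2| ≤ a ∧ NL d P m n F1 ∧
    NL d P m n F2 ∧ (∀ u x, (Φ u x).1 = a1 • x.1 + b1 • x.2 + F1 u x) ∧
    ∀ u x, (Φ u x).2 = a2 • x.1 + b2 • x.2 + F2 u x) ∧ 0 ≤ g ∧
  ∀ W : E d → ℝ, Pot 0 P.δ W → ∀ x, ‖Φ (uu W) x‖ ≤ g * (‖x‖ + MM W)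

/-- The budget left. -/
structure CTbBud (P : NP) (k : ℕ) (a m : ℝ) (n : ℕ) (g : ℝ) : Prop where
  ha : 2 * a ≤ P.A
  hm : 2 * m + 1 ≤ P.Mx
  hn : (n + 1) * (2 * k + 3) ^ (k + 1) ≤ P.nx
  hg : 2 * g + 1 ≤ P.A'

variable {a m g : ℝ} {n : ℕ} {Φ : UF d → E d × E d → E d × E d}

theorem CTbGood.a_nonneg (h : CTbGood P a m n g Φ) : 0 ≤ a := by
  obtain ⟨⟨a1, b1, -, -, -, -, h1, -⟩, -⟩ := h
  exact le_trans (by positivity) h1

theorem CTbGood.m_nonneg (h : CTbGood P a m n g Φ) : 0 ≤ m := by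
  obtain ⟨⟨-, -, -, -, F1, -, -, -, h1, -⟩, -⟩ := h
  exact h1.nonneg

theorem CTbGood.g_nonneg (h : CTbGood P a m n g Φ) : 0 ≤ g := h.2.1

theorem CTb_MM_nonneg (W : E d → ℝ) : 0 ≤ MM W := by unfold MM; positivity

theorem CTbGood.mono (h : CTbGood P a m n g Φ) {a' m' g' : ℝ} {n' : ℕ} (ha : a ≤ a') (hm : m ≤ m')
    (hn : n ≤ n') (hg : g ≤ g') : CTbGood P a' m' n' g' Φ := by
  obtain ⟨⟨a1, b1, a2, b2, F1, F2, h1, h2, h3, h4, h5, h6⟩, h7, h8⟩ := h
  refine ⟨⟨a1, b1, a2, b2, F1, F2, h1.trans ha, h2.trans ha, h3.mono hm hn, h4.mono hm hn, h5, h6⟩,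
    h7.trans hg, fun W hW x => (h8 W hW x).trans ?_⟩
  have := CTb_MM_nonneg W
  exact mul_le_mul_of_nonneg_right hg (by positivity)

theorem CTbGood.app (h : CTbGood P a m n g Φ) (ha : a ≤ P.A) (hm : m ≤ P.Mx) (hn : n ≤ P.nx)
    (hg : g ≤ P.A') {r : ℝ} (hr : 0 ≤ r) (hr' : r ≤ P.R) :
    NL d P 1 1 fun u x => u r (Φ u x).1 := by
  obtain ⟨⟨a1, b1, a2, b2, F1, F2, h1, h2, h3, h4, h5, h6⟩, h7, h8⟩ := h
  refine CTb_congr (NL.app r a1 b1 hr hr' (h1.trans ha) (h3.mono hm hn) fun W hW x => ?_)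
    fun u x => by rw [h5]
  rw [← h5]
  refine (norm_fst_le _).trans ((h8 W hW x).trans ?_)
  have := CTb_MM_nonneg W
  exact mul_le_mul_of_nonneg_right hg (by positivity)

theorem CTb_good_id (P : NP) : CTbGood (d := d) P 1 0 0 1 fun _ x => x := by
  refine ⟨⟨1, 0, 0, 1, fun _ _ => 0, fun _ _ => 0, by simp, by simp, NL.zero, NL.zero, ?_, ?_⟩,
    zero_le_one, fun W _ x => ?_⟩
  · simp
  · simp
  · have := CTb_MM_nonneg W
    linarith

/-- Picard iterates of a field with no linear part. -/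
theorem CTb_pic {k M : ℕ} {C h : ℝ} (Q : Quad k C M h)
    (bt : UF d → Fin M × Fin (k + 1) → E d × E d → E d × E d) (hΦ : CTbGood P a m n g Φ)
    {m' g' m0 : ℝ} {n' n0 : ℕ} (hm : m + C * (M * h) * m0 ≤ m') (hn : n + M * (k + 1) * n0 ≤ n')
    (hg : g ≤ g') (hm0 : 0 ≤ m0)
    (hgr : ∀ D j, ∀ W : E d → ℝ, Pot 0 P.δ W → ∀ x,
      ‖Q.pic (bt (uu W)) D j (Φ (uu W) x)‖ ≤ g' * (‖x‖ + MM W))
    (hbt : ∀ Ψ : UF d → E d × E d → E d × E d, CTbGood P a m' n' g' Ψ → ∀ j,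
      NL d P m0 n0 (fun u x => (bt u j (Ψ u x)).1) ∧ NL d P m0 n0 fun u x => (bt u j (Ψ u x)).2)
    (D : ℕ) (j) : CTbGood P a m' n' g' fun u x => Q.pic (bt u) D j (Φ u x) := by
  have hW := Q.quad_W_nonneg
  have : Nonempty (Fin M × Fin (k + 1)) := ⟨Q.last⟩
  induction D generalizing j with
  | zero =>
    refine hΦ.mono le_rfl (le_trans ?_ hm) (le_trans (Nat.le_add_right _ _) hn) hg
    have : 0 ≤ C * (M * h) * m0 := by positivity
    linarith
  | succ D ih =>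
    obtain ⟨⟨a1, b1, a2, b2, F1, F2, h1, h2, h3, h4, h5, h6⟩, h7, h8⟩ := hΦ
    have s1 := CTb_sum' (Q.w j) (fun j' u x => (bt u j' (Q.pic (bt u) D j' (Φ u x))).1)
      (fun j' => (hbt _ (ih j') j').1) (Q.w_le j)
    have s2 := CTb_sum' (Q.w j) (fun j' u x => (bt u j' (Q.pic (bt u) D j' (Φ u x))).2)
      (fun j' => (hbt _ (ih j') j').2) (Q.w_le j)
    simp only [Fintype.card_prod, Fintype.card_fin] at s1 s2
    refine ⟨⟨a1, b1, a2, b2, _, _, h1, h2, (h3.add s1).mono hm hn, (h4.add s2).mono hm hn,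
      fun u x => ?_, fun u x => ?_⟩, h7.trans hg, hgr (D + 1) j⟩
    · beta_reduce
      rw [Quad.pic_succ, Prod.fst_add, h5, Prod.fst_sum, add_assoc]
      simp only [Prod.smul_fst]
    · beta_reduce
      rw [Quad.pic_succ, Prod.snd_add, h6, Prod.snd_sum, add_assoc]
      simp only [Prod.smul_snd]

theorem CTb_tanh_le (r : ℝ) : |1 - Real.tanh r ^ 2| ≤ 1 := by
  have h1 := Real.tanh_sq_lt_one r
  have h2 := sq_nonneg (Real.tanh r)
  rw [abs_le]
  constructor <;> linarith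

theorem CTb_pow_ge (k : ℕ) : k + 2 ≤ (2 * k + 3) ^ (k + 1) := by
  have : 2 * k + 3 ≤ (2 * k + 3) ^ (k + 1) := Nat.le_self_pow (by omega) _
  omega

theorem CTbBud.n_le {k : ℕ} (B : CTbBud P k a m n g) : n + (k + 1) ≤ P.nx := by
  refine le_trans ?_ B.hn
  have := CTb_pow_ge k
  nlinarith

variable {k M : ℕ} {C h κ K : ℝ}

theorem CTb_uok (H : CHyp k M C h κ K P.δ) {W : E d → ℝ} (hW : Pot 0 P.δ W) :
    UOK P.δ (MM W) (mn W 0 1) (uu W) :=
  uok_uu hW H.hδ.le (by have := H.δ_le; have := H.h_le; linarith)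

theorem CTb_b100 (hΦ : CTbGood P a m n g Φ) (ha : a ≤ P.A) (hm : m ≤ P.Mx) (hn : n ≤ P.nx)
    (hg : g ≤ P.A') {r : ℝ} (hr : 0 ≤ r) (hr' : r ≤ P.R) :
    NL d P 1 1 (fun u x => (b100 u r (Φ u x)).1) ∧
      NL d P 1 1 (fun u x => (b100 u r (Φ u x)).2) := by
  refine ⟨CTb_congr ((NL.smul (-(1 - Real.tanh r ^ 2)) (hΦ.app ha hm hn hg hr hr')).mono ?_ le_rfl)
    fun u x => ?_, CTb_zero zero_le_one 1⟩
  · rw [abs_neg, mul_one]
    exact CTb_tanh_le r
  · simp only [b100, neg_smul]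

theorem CTb_growth {δ : ℝ} {W : E d → ℝ} {x y z : E d × E d} (hz : ‖z‖ ≤ 2 * ‖y‖ + MM W)
    (hy : ‖y‖ ≤ δ * (‖x‖ + MM W)) : ‖z‖ ≤ (2 * δ + 1) * (‖x‖ + MM W) := by
  have := norm_nonneg x
  nlinarith

theorem CTb_p100 (H : CHyp k M C h κ K P.δ) (Ql : Quad k C 1 h)
    (hΦ : CTbGood P a m n g Φ) (B : CTbBud P k a m n g) {r : ℝ} (hr : 0 ≤ r) (hr' : r + h ≤ P.R)
    (D : ℕ) (j) :
    CTbGood P a (m + 1) (n + (k + 1)) (2 * g + 1) fun u x => p100 Ql u r D j (Φ u x) := by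
  have ha := hΦ.a_nonneg
  have hm := hΦ.m_nonneg
  have hg := hΦ.g_nonneg
  refine CTb_pic Ql (fun u n' => b100 u (r + Ql.τ n')) hΦ (m0 := 1) (n0 := 1) ?_ (by omega)
    (by linarith) zero_le_one (fun D j W hW x => ?_) (fun Ψ hΨ j => ?_) D j
  · have := H.hCh
    push_cast
    linarith
  · exact CTb_growth (p100_growth H (CTb_uok H hW) Ql r D j _) (hΦ.2.2 W hW x)
  · have h1 := Ql.τ_ge j
    have h2 := Ql.τ_le j
    have h3 : 0 ≤ h / (k + 1) := by have := H.hh; positivity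
    push_cast at h2
    exact CTb_b100 hΨ (by have := B.ha; linarith) (by have := B.hm; linarith) B.n_le B.hg
      (by linarith) (by linarith)

theorem CTb_q0 (H : CHyp k M C h κ K P.δ) (Ql : Quad k C 1 h)
    (hΦ : CTbGood P a m n g Φ) (B : CTbBud P k a m n g) {r : ℝ} (hr : 0 ≤ r) (hr' : r + h ≤ P.R) :
    NL d P (C / h) (k + 1) fun u x => q0 Ql u r (Φ u x) := by
  have ha := hΦ.a_nonneg
  have hm := hΦ.m_nonneg
  have s := CTb_sum' (P := P) Ql.β
    (fun j u x => u (r + Ql.τ j) (p100 Ql u r (k + 1) j (Φ u x)).1) (m := 1) (n := 1)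
    (fun j => by
      have h1 := Ql.τ_ge j
      have h2 := Ql.τ_le j
      have h3 : 0 ≤ h / (k + 1) := by have := H.hh; positivity
      push_cast at h2
      exact (CTb_p100 H Ql hΦ B hr hr' (k + 1) j).app (by have := B.ha; linarith)
        (by have := B.hm; linarith) B.n_le B.hg (by linarith) (by linarith)) Ql.β_le
  simpa [q0] using s

theorem CTb_p010 (H : CHyp k M C h κ K P.δ) (Ql : Quad k C 1 h)
    (hΦ : CTbGood P a m n g Φ) (B : CTbBud P k a m n g) {r : ℝ} (hr : 0 ≤ r) (hr' : r ≤ P.R)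
    (D : ℕ) (hD : D ≤ k + 1) (j) :
    CTbGood P (2 * a) (2 * m + 1) ((n + 1) * (2 * k + 3) ^ D) (2 * g + 1)
      fun u x => p010 Ql u r D j (Φ u x) := by
  have ha := hΦ.a_nonneg
  have hm := hΦ.m_nonneg
  have hg := hΦ.g_nonneg
  induction D generalizing j with
  | zero => exact hΦ.mono (by linarith) (by linarith) (by simp) (by linarith)
  | succ D ih =>
    have ih' := fun j' => ih (by omega) j'
    have hcnt : (n + 1) * (2 * k + 3) ^ D ≤ P.nx :=
      le_trans (Nat.mul_le_mul_left _ (Nat.pow_le_pow_right (by omega) (by omega))) B.hn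
    have happ := fun j' => (ih' j').app B.ha B.hm hcnt B.hg hr hr'
    choose A1 B1 A2 B2 G1 G2 k1 k2 k3 k4 k5 k6 using fun j' => (ih' j').1
    obtain ⟨⟨a1, b1, a2, b2, F1, F2, h1, h2, h3, h4, h5, h6⟩, h7, h8⟩ := hΦ
    have hw : ∑ j', |Ql.w j j'| ≤ 1 / 4 := by
      have h1 := Ql.w_le j
      have h2 := H.hCh
      push_cast at h1
      linarith
    have hlin : ∀ (A B : Fin 1 × Fin (k + 1) → ℝ), (∀ j', |A j'| + |B j'| ≤ 2 * a) →
        |∑ j', Ql.w j j' * A j'| + |∑ j', Ql.w j j' * B j'| ≤ a := by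
      intro A B hAB
      calc |∑ j', Ql.w j j' * A j'| + |∑ j', Ql.w j j' * B j'|
          ≤ ∑ j', |Ql.w j j' * A j'| + ∑ j', |Ql.w j j' * B j'| :=
            add_le_add (Finset.abs_sum_le_sum_abs _ _) (Finset.abs_sum_le_sum_abs _ _)
        _ = ∑ j', |Ql.w j j'| * (|A j'| + |B j'|) := by
            rw [← Finset.sum_add_distrib]
            refine Finset.sum_congr rfl fun j' _ => ?_
            rw [abs_mul, abs_mul]; ring
        _ ≤ ∑ j', |Ql.w j j'| * (2 * a) :=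
            Finset.sum_le_sum fun j' _ => mul_le_mul_of_nonneg_left (hAB j') (abs_nonneg _)
        _ = (∑ j', |Ql.w j j'|) * (2 * a) := by rw [Finset.sum_mul]
        _ ≤ a := by nlinarith
    have s1 := CTb_sum' (fun j' => -Ql.w j j') G2 k4 (B := 1 / 4) (by simpa using hw)
    have s2 := CTb_sum' (Ql.w j)
      (fun j' u x => G1 j' u x + Real.tanh r • u r (p010 Ql u r D j' (Φ u x)).1)
      (fun j' => ((k3 j').add (NL.smul (Real.tanh r) (happ j'))).mono
        (show _ ≤ 2 * m + 2 by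
          have := Real.abs_tanh_lt_one r
          linarith) le_rfl) hw
    simp only [Fintype.card_prod, Fintype.card_fin, one_mul] at s1 s2
    have hN : 1 ≤ (n + 1) * (2 * k + 3) ^ D := Nat.one_le_iff_ne_zero.2 (by positivity)
    have hN' : n + 1 ≤ (n + 1) * (2 * k + 3) ^ D :=
      Nat.le_mul_of_pos_right _ (by positivity)
    refine ⟨⟨a1 - ∑ j', Ql.w j j' * A2 j', b1 - ∑ j', Ql.w j j' * B2 j',
      a2 + ∑ j', Ql.w j j' * A1 j', b2 + ∑ j', Ql.w j j' * B1 j', _, _, ?_, ?_,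
      (h3.add s1).mono (by linarith) ?_, (h4.add s2).mono (by linarith) ?_,
      fun u x => ?_, fun u x => ?_⟩, by linarith, fun W hW x => ?_⟩
    · have := hlin A2 B2 k2
      have := abs_sub a1 (∑ j', Ql.w j j' * A2 j')
      have := abs_sub b1 (∑ j', Ql.w j j' * B2 j')
      linarith
    · have := hlin A1 B1 k1
      have := abs_add_le a2 (∑ j', Ql.w j j' * A1 j')
      have := abs_add_le b2 (∑ j', Ql.w j j' * B1 j')
      linarith
    · rw [pow_succ, ← mul_assoc]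
      nlinarith
    · rw [pow_succ, ← mul_assoc]
      nlinarith
    · have e : (p010 Ql u r (D + 1) j (Φ u x)).1 =
          (Φ u x).1 + ∑ j', Ql.w j j' • -(p010 Ql u r D j' (Φ u x)).2 := by
        simp only [p010, Quad.pic_succ, Prod.fst_add, Prod.fst_sum, Prod.smul_fst, b010]
      rw [e, h5]
      simp only [k6, sub_smul, Finset.sum_smul, mul_smul, smul_neg, smul_add, neg_add,
        Finset.sum_add_distrib, neg_smul, Finset.sum_neg_distrib]
      abel
    · have e : (p010 Ql u r (D + 1) j (Φ u x)).2 =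
          (Φ u x).2 + ∑ j', Ql.w j j' • ((p010 Ql u r D j' (Φ u x)).1 +
            Real.tanh r • u r (p010 Ql u r D j' (Φ u x)).1) := by
        simp only [p010, Quad.pic_succ, Prod.snd_add, Prod.snd_sum, Prod.smul_snd, b010]
      rw [e, h6]
      have e2 : ∀ j', Ql.w j j' • ((p010 Ql u r D j' (Φ u x)).1 +
            Real.tanh r • u r (p010 Ql u r D j' (Φ u x)).1) =
          (Ql.w j j' * A1 j') • x.1 + (Ql.w j j' * B1 j') • x.2 +
            Ql.w j j' • (G1 j' u x + Real.tanh r • u r (p010 Ql u r D j' (Φ u x)).1) := by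
        intro j'
        have k5' : (p010 Ql u r D j' (Φ u x)).1 = A1 j' • x.1 + B1 j' • x.2 + G1 j' u x :=
          k5 j' u x
        generalize Real.tanh r • u r (p010 Ql u r D j' (Φ u x)).1 = z
        rw [k5']
        simp only [smul_add, mul_smul]
        abel
      simp only [e2, add_smul, Finset.sum_smul, Finset.sum_add_distrib]
      abel
    · exact CTb_growth (p010_growth H (CTb_uok H hW) Ql r (D + 1) j _) (h8 W hW x)

theorem CTb_q1 (H : CHyp k M C h κ K P.δ) (Ql : Quad k C 1 h)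
    (hΦ : CTbGood P a m n g Φ) (B : CTbBud P k a m n g) {r : ℝ} (hr : 0 ≤ r) (hr' : r ≤ P.R) :
    NL d P (C / h) (k + 1) fun u x => q1 Ql u r (Φ u x) := by
  have s := CTb_sum' (P := P) Ql.β
    (fun j u x => u r (p010 Ql u r (k + 1) j (Φ u x)).1) (m := 1) (n := 1)
    (fun j => (CTb_p010 H Ql hΦ B hr hr' (k + 1) le_rfl j).app B.ha B.hm B.hn B.hg hr hr')
    Ql.β_le
  simpa [q1] using s

theorem CTb_b001 (H : CHyp k M C h κ K P.δ) (Ql : Quad k C 1 h)
    (hΦ : CTbGood P a m n g Φ) (B : CTbBud P k a m n g) {r K' : ℝ} (hK' : 0 ≤ K')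
    (hr : h / (k + 1) ≤ r) (hr' : r + h ≤ P.R) :
    NL d P (K' * (2 * (k + 1) / h * (C / h))) (k + 1) (fun u x => (b001 Ql K' u r (Φ u x)).1) ∧
    NL d P (K' * (2 * (k + 1) / h * (C / h))) (k + 1) (fun u x => (b001 Ql K' u r (Φ u x)).2) := by
  have hh := H.hh
  have hh' := H.h_le
  have hC := H.hC
  have hr0 : 0 ≤ r := le_trans (by positivity) hr
  have hCh : 0 ≤ C / h := by positivity
  constructor
  · refine (NL.smul _ (CTb_q1 H Ql hΦ B hr0 (by linarith))).mono ?_ le_rfl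
    rw [abs_mul, abs_of_nonneg hK', mul_assoc]
    exact mul_le_mul_of_nonneg_left (mul_le_mul_of_nonneg_right
      (tanh_node_le hh (by linarith) hr) hCh) hK'
  · refine (NL.smul _ (CTb_q0 H Ql hΦ B hr0 hr')).mono ?_ le_rfl
    rw [abs_of_nonneg hK']
    refine mul_le_mul_of_nonneg_left (le_mul_of_one_le_left hCh ?_) hK'
    rw [le_div_iff₀ hh]
    have : (0 : ℝ) ≤ k := Nat.cast_nonneg k
    linarith

theorem CTb_p001 (H : CHyp k M C h κ K P.δ) (Ql : Quad k C 1 h)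
    (hΦ : CTbGood P a m n g Φ)
    (B : CTbBud P k a (m + K * (2 * (k + 1) / h * (C / h))) (n + (k + 1) * (k + 1)) (2 * g + 1))
    {r : ℝ} (hr : h / (k + 1) ≤ r) (hr' : r + h ≤ P.R) (D : ℕ) (j) :
    CTbGood P a (m + K * (2 * (k + 1) / h * (C / h))) (n + (k + 1) * (k + 1)) (2 * g + 1)
      fun u x => p001 Ql K u r D j (Φ u x) := by
  have hg := hΦ.g_nonneg
  have hh := H.hh
  have hC := H.hC
  have hK := H.hK
  have h0 : 0 ≤ K * (2 * (k + 1) / h * (C / h)) := by positivity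
  refine CTb_pic Ql (fun u _ => b001 Ql K u r) hΦ (m0 := K * (2 * (k + 1) / h * (C / h)))
    (n0 := k + 1) ?_ (by simp) (by linarith) h0 (fun D j W hW x => ?_) (fun Ψ hΨ j => ?_) D j
  · have h1 := H.hCh
    have h2 : C * (((1 : ℕ) : ℝ) * h) ≤ 1 := by push_cast; linarith
    nlinarith
  · exact CTb_growth (p001_growth H (CTb_uok H hW) Ql hr D j _) (hΦ.2.2 W hW x)
  · exact CTb_b001 H Ql hΨ B hK.le hr hr'

theorem CTb_q2 (H : CHyp k M C h κ K P.δ) (Ql : Quad k C 1 h)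
    (hΦ : CTbGood P a m n g Φ)
    (B : CTbBud P k a (m + K * (2 * (k + 1) / h * (C / h))) (n + (k + 1) * (k + 1)) (2 * g + 1))
    {r : ℝ} (hr : h / (k + 1) ≤ r) (hr' : r + h ≤ P.R) :
    NL d P (C / h) (k + 1) fun u x => q2 Ql K u r (Φ u x) := by
  have hh := H.hh
  have hr0 : 0 ≤ r := le_trans (by positivity) hr
  have s := CTb_sum' (P := P) Ql.β
    (fun j u x => u r (p001 Ql K u r (k + 1) j (Φ u x)).1) (m := 1) (n := 1)
    (fun j => by
      have G := CTb_p001 H Ql hΦ B hr hr' (k + 1) j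
      have h1 := G.a_nonneg
      have h2 := G.m_nonneg
      have h3 := G.g_nonneg
      exact G.app (by have := B.ha; linarith) (by have := B.hm; linarith)
        (le_trans (Nat.le_add_right _ _) B.n_le) (by have := B.hg; linarith) hr0 (by linarith))
    Ql.β_le
  simpa [q2] using s

theorem CTb_bG (H : CHyp k M C h κ K P.δ) (Ql : Quad k C 1 h)
    (hΦ : CTbGood P a m n g Φ) (B : CTbBud P k a m n g) {r : ℝ}
    (hr : h / (k + 1) ≤ r) (hr' : r + h ≤ P.R) :
    NL d P (1 + κ * (2 * (k + 1) / h * (C / h))) (1 + (k + 1))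
      (fun u x => (bG Ql κ u r (Φ u x)).1) ∧
    NL d P (1 + κ * (2 * (k + 1) / h * (C / h))) (1 + (k + 1))
      (fun u x => (bG Ql κ u r (Φ u x)).2) := by
  have hh := H.hh
  have hr0 : 0 ≤ r := le_trans (by positivity) hr
  have h1 := hΦ.a_nonneg
  have h2 := hΦ.m_nonneg
  have h3 := hΦ.g_nonneg
  have s1 := CTb_b100 hΦ (by have := B.ha; linarith) (by have := B.hm; linarith)
    (le_trans (Nat.le_add_right _ _) B.n_le) (by have := B.hg; linarith) hr0 (r := r)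
    (by linarith)
  have s2 := CTb_b001 H Ql hΦ B H.hκ hr hr'
  exact ⟨s1.1.add s2.1, s1.2.add s2.2⟩

theorem CTb_pG (H : CHyp k M C h κ K P.δ) (Ql : Quad k C 1 h) (Qg : Quad k C M h)
    (B : CTbBud P k 1 (C * (M * h) * (1 + κ * (2 * (k + 1) / h * (C / h))))
      (M * (k + 1) * (1 + (k + 1))) (2 + 6 * C * (M * h))) (hR : M * h + h ≤ P.R) (D : ℕ) (j) :
    CTbGood (d := d) P 1 (C * (M * h) * (1 + κ * (2 * (k + 1) / h * (C / h))))
      (M * (k + 1) * (1 + (k + 1))) (2 + 6 * C * (M * h)) fun u x => pG Ql Qg κ u D j x := by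
  have hh := H.hh
  have hC := H.hC
  have hκ := H.hκ
  have h0 : 0 ≤ 6 * C * (M * h) := by positivity
  refine CTb_pic Qg (fun u n' => bG Ql κ u (Qg.τ n')) (CTb_good_id P)
    (m0 := 1 + κ * (2 * (k + 1) / h * (C / h))) (n0 := 1 + (k + 1)) (by simp) (by simp)
    (by linarith) (by positivity) (fun D j W hW x => ?_) (fun Ψ hΨ j => ?_) D j
  · refine (pG_growth H (CTb_uok H hW) Ql Qg D j x).trans ?_
    have := CTb_MM_nonneg W
    have := norm_nonneg x
    nlinarith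
  · exact CTb_bG H Ql hΨ B (Qg.τ_ge j) (by have := Qg.τ_le j; linarith)

theorem CTb_main (H : CHyp k M C h κ K P.δ) (Ql : Quad k C 1 h) (Qg : Quad k C M h)
    (B : CTbBud P k 1 (C * (M * h) * (1 + κ * (2 * (k + 1) / h * (C / h))) +
        K * (2 * (k + 1) / h * (C / h)))
      (M * (k + 1) * (1 + (k + 1)) + (k + 1) * (k + 1)) (2 * (2 + 6 * C * (M * h)) + 1))
    (hR : M * h + h ≤ P.R) :
    NL d P (C * (M * h) * (1 + κ * (2 * (k + 1) / h * (C / h)))) (M * (k + 1) * (1 + (k + 1)))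
      (cFz Ql Qg κ) ∧
    NL d P (κ / K * (C * (M * h) * (C / h))) (M * (k + 1) * (k + 1)) (cFs Ql Qg κ K) := by
  have hh := H.hh
  have hC := H.hC
  have hκ := H.hκ
  have hK := H.hK
  have : Nonempty (Fin M × Fin (k + 1)) := ⟨Qg.last⟩
  have B' : CTbBud P k 1 (C * (M * h) * (1 + κ * (2 * (k + 1) / h * (C / h))))
      (M * (k + 1) * (1 + (k + 1))) (2 + 6 * C * (M * h)) := by
    refine ⟨B.ha, le_trans ?_ B.hm, le_trans (Nat.mul_le_mul_right _ (by omega)) B.hn,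
      le_trans ?_ B.hg⟩
    · have : 0 ≤ K * (2 * (k + 1) / h * (C / h)) := by positivity
      linarith
    · have : 0 ≤ 6 * C * (M * h) := by positivity
      linarith
  have G := CTb_pG (d := d) H Ql Qg B' hR
  constructor
  · have s := CTb_sum' (Qg.w Qg.last)
      (fun j u x => (bG Ql κ u (Qg.τ j) (pG Ql Qg κ u k j x)).1)
      (fun j => (CTb_bG H Ql (G k j) B' (Qg.τ_ge j) (by have := Qg.τ_le j; linarith)).1)
      (Qg.w_le _)
    simp only [Fintype.card_prod, Fintype.card_fin] at s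
    refine CTb_congr s fun u x => ?_
    simp only [cFz, pG, Quad.pic_succ, Prod.fst_add, Prod.fst_sum, Prod.smul_fst,
      add_sub_cancel_left]
  · have s := CTb_sum' (Qg.w Qg.last)
      (fun j u x => q2 Ql K u (Qg.τ j) (pG Ql Qg κ u (k + 1) j x))
      (fun j => CTb_q2 H Ql (G (k + 1) j) B (Qg.τ_ge j) (by have := Qg.τ_le j; linarith))
      (Qg.w_le _)
    simp only [Fintype.card_prod, Fintype.card_fin] at s
    refine CTb_congr ((NL.smul (-(κ / K)) s).mono (le_of_eq ?_) le_rfl) fun u x => ?_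
    · rw [abs_neg, abs_of_nonneg (by positivity)]
    · simp only [cFs, neg_smul]

end CTb

theorem circ_NL (k : ℕ) (C : ℝ) : ∃ c : ℝ, 1 ≤ c ∧ ∀ (d M nx : ℕ) (h κ K δ P : ℝ),
    CHyp k M C h κ K δ → c * (1 + M * h) / h ^ 2 ≤ P → P ≤ nx →
    ∀ (Ql : Quad k C 1 h) (Qg : Quad k C M h),
      NL d ⟨M * h + 1, P, P, (1 + K) * P, δ, nx⟩ ((1 + K) * P) nx (cFz Ql Qg κ) ∧
      NL d ⟨M * h + 1, P, P, (1 + K) * P, δ, nx⟩ (κ / K * P) nx (cFs Ql Qg κ K) := by
  set T : ℕ := (2 * k + 3) ^ (k + 1) with hT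
  have hT1 : (1 : ℝ) ≤ T := by
    have : 1 ≤ T := Nat.one_le_iff_ne_zero.2 (by positivity)
    exact_mod_cast this
  have hk : (0 : ℝ) ≤ k := Nat.cast_nonneg k
  have hk2 : (4 : ℝ) ≤ ((k : ℝ) + 2) ^ 2 := by nlinarith
  have hkT : ((k : ℝ) + 2) ^ 2 ≤ ((k : ℝ) + 2) ^ 2 * T := le_mul_of_one_le_right (by positivity) hT1
  set c : ℝ := 24 * (((k : ℝ) + 2) ^ 2 * T) * (1 + C ^ 2) with hc
  have c1 : 24 * (((k : ℝ) + 2) ^ 2 * T) ≤ c :=
    le_mul_of_one_le_right (by positivity) (by nlinarith [sq_nonneg C])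
  have c2 : 24 * ((k : ℝ) + 2) ^ 2 * C ^ 2 ≤ c := by
    have : 24 * ((k : ℝ) + 2) ^ 2 * C ^ 2 ≤ 24 * (((k : ℝ) + 2) ^ 2 * T) * C ^ 2 := by gcongr
    have : 0 ≤ 24 * (((k : ℝ) + 2) ^ 2 * T) := by positivity
    nlinarith
  refine ⟨c, by linarith, ?_⟩
  intro d M nx h κ K δ P H hP hnx Ql Qg
  have hh := H.hh
  have hh' := H.h_le
  have hC := H.hC
  have hκ := H.hκ
  have hκK := H.hκK
  have hK := H.hK
  have hM : (1 : ℝ) ≤ M := by exact_mod_cast H.hM
  have hc0 : 0 ≤ c := by positivity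
  set x : ℝ := M * h with hx
  have hx0 : 0 ≤ x := by positivity
  have hC2 : C ≤ C ^ 2 := by nlinarith
  have hh2 : h ^ 2 ≤ 1 := by nlinarith
  have P1 : c * (1 + x) ≤ P :=
    le_trans (le_div_self (by positivity) (by positivity) hh2) hP
  have P2 : c * M ≤ P := by
    refine le_trans ?_ hP
    rw [le_div_iff₀ (by positivity)]
    have : (M : ℝ) * h ^ 2 ≤ 1 + x := by
      rw [hx]
      have : (M : ℝ) * h * h ≤ M * h := mul_le_of_le_one_right (by positivity) (by linarith)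
      nlinarith
    calc c * M * h ^ 2 = c * (M * h ^ 2) := by ring
      _ ≤ c * (1 + x) := mul_le_mul_of_nonneg_left this hc0
  set L : ℝ := 2 * (k + 1) / h * (C / h) with hL
  have hL' : L = 2 * (k + 1) * C / h ^ 2 := by rw [hL]; field_simp
  have hL1 : 1 ≤ L := by
    rw [hL', le_div_iff₀ (by positivity)]
    nlinarith
  have P3 : 5 * C * (1 + x) * L ≤ P := by
    refine le_trans ?_ hP
    rw [hL', ← mul_div_assoc]
    refine div_le_div_of_nonneg_right ?_ (by positivity)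
    have : 5 * C * (2 * (k + 1) * C) ≤ c := by
      have : 10 * ((k : ℝ) + 1) * C ^ 2 ≤ 24 * ((k : ℝ) + 2) ^ 2 * C ^ 2 :=
        mul_le_mul_of_nonneg_right (by nlinarith) (by positivity)
      nlinarith
    calc 5 * C * (1 + x) * (2 * (k + 1) * C) = 5 * C * (2 * (k + 1) * C) * (1 + x) := by ring
      _ ≤ c * (1 + x) := mul_le_mul_of_nonneg_right this (by positivity)
  have hP0 : 0 ≤ P := le_trans (by positivity) P1
  have m1 : C * x * (1 + κ * L) ≤ (1 + K) * (C * x * L) := by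
    have h1 : 1 + κ * L ≤ (1 + K) * L := by nlinarith
    calc C * x * (1 + κ * L) ≤ C * x * ((1 + K) * L) :=
          mul_le_mul_of_nonneg_left h1 (by positivity)
      _ = (1 + K) * (C * x * L) := by ring
  have m2 : 2 * (C * x * (1 + κ * L) + K * L) + 1 ≤ (1 + K) * P := by
    have h1 : 2 * (C * x * L) + 3 * L ≤ P := by
      have h2 : L ≤ C * L := le_mul_of_one_le_left (by linarith) hC
      have h3 : 0 ≤ C * x * L := by positivity
      nlinarith
    have h4 : (1 + K) * (2 * (C * x * L) + 3 * L) ≤ (1 + K) * P :=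
      mul_le_mul_of_nonneg_left h1 (by linarith)
    have h5 : 0 ≤ K * L := by positivity
    nlinarith
  have n1 : (M * (k + 1) * (1 + (k + 1)) + (k + 1) * (k + 1) + 1) * T ≤ nx := by
    have : (((M * (k + 1) * (1 + (k + 1)) + (k + 1) * (k + 1) + 1) * T : ℕ) : ℝ) ≤ nx := by
      push_cast
      have h1 : (M : ℝ) * (k + 1) * (1 + (k + 1)) + (k + 1) * (k + 1) + 1 ≤
          M * (3 * ((k : ℝ) + 2) ^ 2) := by
        have : ((k : ℝ) + 1) * (k + 1) + 1 ≤ M * (((k : ℝ) + 1) * (k + 1) + 1) :=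
          le_mul_of_one_le_left (by positivity) hM
        have : (M : ℝ) * ((k + 1) * (1 + (k + 1)) + ((k + 1) * (k + 1) + 1)) ≤
            M * (3 * ((k : ℝ) + 2) ^ 2) :=
          mul_le_mul_of_nonneg_left (by nlinarith) (by positivity)
        nlinarith
      have h2 : (M : ℝ) * (3 * ((k : ℝ) + 2) ^ 2) * T ≤ c * M := by
        have : 3 * (((k : ℝ) + 2) ^ 2 * T) ≤ c := by
          have : 0 ≤ ((k : ℝ) + 2) ^ 2 * T := by positivity
          linarith
        calc (M : ℝ) * (3 * ((k : ℝ) + 2) ^ 2) * T = 3 * (((k : ℝ) + 2) ^ 2 * T) * M := by ring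
          _ ≤ c * M := mul_le_mul_of_nonneg_right this (by positivity)
      have h3 := mul_le_mul_of_nonneg_right h1 (show (0 : ℝ) ≤ T by positivity)
      linarith
    exact_mod_cast this
  have hT' : 1 ≤ T := by exact_mod_cast hT1
  have n2 : M * (k + 1) * (1 + (k + 1)) ≤ nx := by
    refine le_trans ?_ n1
    refine le_trans ?_ (Nat.le_mul_of_pos_right _ hT')
    omega
  have c3 : 24 * C ≤ c := by
    have : 24 * C ^ 2 ≤ 24 * ((k : ℝ) + 2) ^ 2 * C ^ 2 :=
      mul_le_mul_of_nonneg_right (by linarith) (by positivity)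
    linarith
  have B : CTbBud ⟨x + 1, P, P, (1 + K) * P, δ, nx⟩ k 1 (C * x * (1 + κ * L) + K * L)
      (M * (k + 1) * (1 + (k + 1)) + (k + 1) * (k + 1)) (2 * (2 + 6 * C * x) + 1) := by
    refine ⟨?_, m2, n1, ?_⟩
    · show 2 * 1 ≤ P
      nlinarith
    · show 2 * (2 * (2 + 6 * C * x) + 1) + 1 ≤ P
      have : 24 * C * (1 + x) ≤ c * (1 + x) := mul_le_mul_of_nonneg_right c3 (by positivity)
      nlinarith
  have key := CTb_main (d := d) (P := ⟨x + 1, P, P, (1 + K) * P, δ, nx⟩) H Ql Qg B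
    (by show x + h ≤ x + 1; linarith)
  refine ⟨key.1.mono ?_ n2, key.2.mono ?_ (le_trans ?_ n2)⟩
  · have h5 : 0 ≤ K * L := by positivity
    have h6 : 0 ≤ C * x * (1 + κ * L) := by positivity
    linarith
  · refine mul_le_mul_of_nonneg_left ?_ (by positivity)
    have h1 : C / h ≤ L := by
      refine le_mul_of_one_le_left (by positivity) ?_
      rw [le_div_iff₀ hh]
      linarith
    have h2 : C * x * (C / h) ≤ C * x * L := mul_le_mul_of_nonneg_left h1 (by positivity)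
    have h3 : 0 ≤ C * x * L := by positivity
    have h4 : 0 ≤ C * L := by positivity
    nlinarith
  · exact Nat.mul_le_mul_left _ (by omega)

end Crest.Agent.R285
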