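import Crest.Agent.R285.DA2c

/-! Row 285: dimension-free `L²` bounds for all derivatives along the flows. -/

set_option autoImplicit false

namespace Crest.Agent.R285

section

variable {c : ℕ → ℝ} {ι : Type*} {D : ι → DAlg}

/-- The class of tensor fields that is stable under the generators of the flows. -/
inductive VV (S : ∀ i, Setup c (D i)) : (σ : Type) → Fam D σ → Prop
  | ofU {σ : Type} {F : Fam D σ} : UU S σ F → VV S σ F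
  | u : VV S Unit fun i j => (D i).u (j ())
  | grad {σ : Type} {F : Fam D σ} : VV S σ F → VV S (Option σ) fun i => gr (D i).p (F i)
  | dv {σ : Type} {F : Fam D (Option σ)} : VV S (Option σ) F → VV S σ fun i => (D i).dv (F i)
  | add {σ : Type} {F F' : Fam D σ} : VV S σ F → VV S σ F' → VV S σ fun i j => F i j + F' i j
  | rho {σ : Type} {F : Fam D σ} : VV S σ F → VV S σ fun i j => (D i).ρ * F i j
  | smul {σ : Type} {F : Fam D σ} (a : ι → ℝ) (ha : ∀ i, |a i| ≤ 1) : VV S σ F →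
      VV S σ fun i j => a i • F i j
  | re {σ σ' : Type} {F : Fam D σ} (e : σ ≃ σ') : VV S σ F → VV S σ' fun i j => F i (j ∘ e)
  | ctr {σ₁ σ₂ T : Type} [Nonempty σ₁] [Nonempty T] {F₁ : Fam D (σ₁ ⊕ T)}
      {F₂ : Fam D (σ₂ ⊕ T)} : UU S (σ₁ ⊕ T) F₁ → VV S (σ₂ ⊕ T) F₂ →
      VV S (σ₁ ⊕ σ₂) fun i => ctr (F₁ i) (F₂ i)

variable {S : ∀ i, Setup c (D i)} {σ : Type} {F F' : Fam D σ}

lemma VV.congr (h : VV S σ F) (hF : ∀ i j, F' i j = F i j) : VV S σ F' := by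
  have : F' = F := funext fun i => funext fun j => hF i j
  rwa [this]

lemma VV.ww (hc : ∀ n, 0 ≤ c n) (h : VV S σ F) (n : ℕ) : WW S n σ F := by
  induction h generalizing n with
  | ofU h => exact h.ww hc
  | u => exact ww_u hc n
  | grad _ ih => exact (ih (n + 1)).2
  | dv _ ih => exact (ih (n + 2)).dv hc
  | add _ _ h₁ h₂ => exact (h₁ n).add (h₂ n)
  | rho _ ih => exact (ih n).rho
  | smul a ha _ ih => exact (ih n).smul a ha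
  | re e _ ih => exact (ih n).re e
  | ctr h₁ _ ih => exact (ih n).ctr hc h₁

lemma VV.chi (h : VV S σ F) : VV S σ fun i j => (D i).χ * F i j :=
  (h.add (h.rho.rho.smul (fun _ => -1) fun _ => by simp)).congr fun _ _ => DAlg.χ_mul _

lemma VV.mv {K : ∀ i, (D i).I → (D i).I → (D i).A} {F : Fam D (Option σ)}
    (hK : UU S (Unit ⊕ Unit) fun i => mat (K i)) (h : VV S (Option σ) F) :
    VV S (Option σ) fun i => mv (K i) (F i) :=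
  ((VV.ctr hK (h.re (oU σ))).re (uO σ)).congr fun _ _ => mv_eq _ _ _

lemma vv_DD_u (κ : ι → ℝ) (hκ : ∀ i, |κ i| * (S i).δ ≤ 1) :
    VV S Unit fun i j => (D i).DD (κ i • (D i).u (j ())) :=
  (VV.ofU ((UU.genH κ hκ).re (uO Unit)).chi).dv.congr fun i j => by
    rw [DAlg.DD_smul, DAlg.DD_u, DAlg.dv, Finset.smul_sum]
    refine Finset.sum_congr rfl fun a _ => ?_
    rw [← DAlg.dl_smul, ← mul_smul_comm]; rfl

lemma VV.DD (h : VV S σ F) : VV S σ fun i j => (D i).DD (F i j) := by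
  induction h with
  | ofU h =>
    obtain ⟨F', F'', h', h'', e⟩ := h.hasDD
    exact ((VV.ofU h').dv.add (VV.ofU h'')).congr e
  | u =>
    exact (vv_DD_u (fun _ => 1) fun i => by simpa using (S i).δ_le).congr fun i j => by
      rw [one_smul]
  | grad h ih => exact (ih.grad.add (h.grad.mv UU.H).rho.chi).congr fun i j => DAlg.DD_gr_p _ _
  | dv h ih => exact (ih.add (h.mv UU.H).rho.chi).dv.congr fun i j => DAlg.DD_dv _ _
  | add _ _ h₁ h₂ => exact (h₁.add h₂).congr fun i j => DAlg.DD_add _ _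
  | rho h ih => exact (h.chi.add ih.rho).congr fun i j => by rw [DAlg.DD_mul, DAlg.DD_ρ]
  | smul a ha _ ih => exact (ih.smul a ha).congr fun i j => DAlg.DD_smul _ _
  | re e _ ih => exact ih.re e
  | @ctr σ₁ σ₂ T _ _ G₁ G₂ h₁ h₂ ih =>
    obtain ⟨F', F'', h', h'', e⟩ := h₁.hasDD
    have := h₁.finite
    have := Finite.sum_right σ₁ (β := T)
    refine (((((VV.ctr (h'.re (oL σ₁ T)) h₂).re (oL σ₁ σ₂).symm).dv.add
      (VV.ctr (h'.re (oR σ₁ T)) (h₂.grad.re (oR σ₂ T)))).add (VV.ctr h'' h₂)).add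
      (VV.ctr h₁ ih)).congr fun i j => ?_
    rw [DAlg.DD_ctr]
    simp only [e]
    rw [ctr_add_left, DAlg.ctr_dv]

lemma VV.G (h : VV S σ F) (μ l κ : ι → ℝ) (hμ : ∀ i, |μ i| ≤ 1) (hl : ∀ i, |l i| ≤ 1)
    (hκ : ∀ i, |κ i| * (S i).δ ≤ 1) : VV S σ fun i j => (D i).G (μ i) (l i) (κ i) (F i j) :=
  ((h.DD.smul μ hμ).add (h.grad.mv (UU.J l κ hl hκ)).dv).congr fun _ _ => DAlg.G_eq' _ _ _ _ _

lemma VV.iter (h : VV S σ F) (μ l κ : ι → ℝ) (hμ : ∀ i, |μ i| ≤ 1) (hl : ∀ i, |l i| ≤ 1)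
    (hκ : ∀ i, |κ i| * (S i).δ ≤ 1) (n : ℕ) :
    VV S σ fun i j => ((D i).G (μ i) (l i) (κ i))^[n] (F i j) := by
  induction n with
  | zero => exact h
  | succ n ih => exact (ih.G μ l κ hμ hl hκ).congr fun i j => Function.iterate_succ_apply' _ _ _

lemma vv_vec (μ l κ : ι → ℝ) (hμ : ∀ i, |μ i| ≤ 1) (hl : ∀ i, |l i| ≤ 1)
    (hκ : ∀ i, |κ i| * (S i).δ ≤ 1) : VV S Unit fun i j => (D i).vec (μ i) (l i) (κ i) (j ()) :=
  ((VV.ofU ((UU.J l κ hl hκ).re (uO Unit))).dv.add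
    (VV.u.chi.smul (fun i => -μ i) fun i => by simpa using hμ i)).congr fun i j => by
      rw [DAlg.vec, neg_smul, sub_eq_add_neg]; rfl

lemma vv_G_u (μ l κ : ι → ℝ) (hμ : ∀ i, |μ i| ≤ 1) (hl : ∀ i, |l i| ≤ 1)
    (hκ : ∀ i, |κ i| * (S i).δ ≤ 1) :
    VV S Unit fun i j => (D i).G (μ i) (l i) (κ i) ((S i).δ⁻¹ • (D i).u (j ())) := by
  have hδ : ∀ i, |(S i).δ⁻¹| * (S i).δ ≤ 1 := fun i => by
    rw [abs_of_pos (inv_pos.2 (S i).δ_pos), inv_mul_cancel₀ (S i).δ_pos.ne']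
  have h1 : VV S (Option Unit) fun i => gr (D i).p fun j => (S i).δ⁻¹ • (D i).u (j ()) :=
    (VV.ofU ((UU.genH _ hδ).re (uO Unit)).rho).congr fun i j => by
      rw [gr, Derivation.map_smul, DAlg.p_u, ← mul_smul_comm]; rfl
  exact (((vv_DD_u _ hδ).smul μ hμ).add (h1.mv (UU.J l κ hl hκ)).dv).congr fun i j =>
    DAlg.G_eq' _ _ _ (fun j : Unit → (D i).I => (S i).δ⁻¹ • (D i).u (j ())) j

lemma VV.bound (hc : ∀ n, 0 ≤ c n) {F : ℕ → ∀ i, (D i).I → (D i).A}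
    (h : ∀ n, VV S Unit fun i j => F n i (j ())) (k : ℕ) : ∃ g, Tame S g ∧ ∀ n ≤ k, ∀ i,
      (∀ b, F n i b ∈ (S i).PG) ∧ (S i).Ex (∑ b, F n i b ^ 2) ≤ g i * (S i).M ^ 2 := by
  have h1 : ∀ n, ∃ g, Tame S g ∧ ∀ i,
      (∀ b, F n i b ∈ (S i).PG) ∧ (S i).Ex (∑ b, F n i b ^ 2) ≤ g i * (S i).M ^ 2 := fun n => by
    obtain ⟨-, hm, g, tg, hg⟩ := ((h n).ww hc 0).w0
    refine ⟨g, tg, fun i => ⟨fun b => hm i fun _ => b, ?_⟩⟩
    have := hg i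
    rwa [finsum_unit] at this
  induction k with
  | zero =>
    obtain ⟨g, tg, hg⟩ := h1 0
    exact ⟨g, tg, fun n hn => by rw [Nat.le_zero.1 hn]; exact hg⟩
  | succ k ih =>
    obtain ⟨g, tg, hg⟩ := ih
    obtain ⟨g', tg', hg'⟩ := h1 (k + 1)
    refine ⟨_, tg.add tg', fun n hn i => ?_⟩
    rcases Nat.of_le_succ hn with hn | rfl
    · exact ⟨(hg n hn i).1, (hg n hn i).2.trans (mul_le_mul_of_nonneg_right
        (le_add_of_nonneg_right (tg'.1 i)) (sq_nonneg _))⟩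
    · exact ⟨(hg' i).1, (hg' i).2.trans (mul_le_mul_of_nonneg_right
        (le_add_of_nonneg_left (tg.1 i)) (sq_nonneg _))⟩

end

/-- All instances. -/
structure Inst (c : ℕ → ℝ) where
  D : DAlg
  S : Setup c D
  μ : ℝ
  l : ℝ
  κ : ℝ
  μ' : ℝ
  l' : ℝ
  κ' : ℝ
  hμ : |μ| ≤ 1
  hl : |l| ≤ 1
  hκ : |κ| * S.δ ≤ 1
  hμ' : |μ'| ≤ 1
  hl' : |l'| ≤ 1
  hκ' : |κ'| * S.δ ≤ 1

theorem Setup.bounds (c : ℕ → ℝ) (hc : ∀ n, 0 ≤ c n) (k : ℕ) : ∃ (C : ℝ) (N : ℕ), 1 ≤ C ∧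
    ∀ (D : DAlg) (S : Setup c D) (μ l κ μ' l' κ' : ℝ), |μ| ≤ 1 → |l| ≤ 1 → |κ| * S.δ ≤ 1 →
      |μ'| ≤ 1 → |l'| ≤ 1 → |κ'| * S.δ ≤ 1 → ∀ j ≤ k,
      ((∀ b, (D.G μ l κ)^[j] (D.vec μ l κ b) ∈ S.PG) ∧
        S.Ex (∑ b, (D.G μ l κ)^[j] (D.vec μ l κ b) ^ 2) ≤ (C * S.Λ ^ N * S.M) ^ 2) ∧
      ((∀ b, (D.G μ l κ)^[j] (D.G μ' l' κ' (D.u b)) ∈ S.PG) ∧
        S.Ex (∑ b, (D.G μ l κ)^[j] (D.G μ' l' κ' (D.u b)) ^ 2) ≤
          (S.δ * (C * S.Λ ^ N * S.M)) ^ 2) := by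
  obtain ⟨g₁, t₁, h₁⟩ := VV.bound (S := fun i : Inst c => i.S) hc
    (F := fun n i b => (i.D.G i.μ i.l i.κ)^[n] (i.D.vec i.μ i.l i.κ b))
    (fun n => (vv_vec _ _ _ Inst.hμ Inst.hl Inst.hκ).iter _ _ _ Inst.hμ Inst.hl Inst.hκ n) k
  obtain ⟨g₂, t₂, h₂⟩ := VV.bound (S := fun i : Inst c => i.S) hc
    (F := fun n i b => (i.D.G i.μ i.l i.κ)^[n] (i.D.G i.μ' i.l' i.κ' (i.S.δ⁻¹ • i.D.u b)))
    (fun n => (vv_G_u _ _ _ Inst.hμ' Inst.hl' Inst.hκ').iter _ _ _ Inst.hμ Inst.hl Inst.hκ n) k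
  obtain ⟨-, C, N, hC, hg⟩ := t₁.add t₂
  refine ⟨C + 1, N, by linarith, fun D S μ l κ μ' l' κ' hμ hl hκ hμ' hl' hκ' j hj => ?_⟩
  let i : Inst c := ⟨D, S, μ, l, κ, μ', l', κ', hμ, hl, hκ, hμ', hl', hκ'⟩
  have hΛ : 1 ≤ S.Λ ^ N := one_le_pow₀ S.one_le_Λ
  have hb : g₁ i + g₂ i ≤ ((C + 1) * S.Λ ^ N) ^ 2 := by
    have h1 : g₁ i + g₂ i ≤ C * S.Λ ^ N := hg i
    have h2 : 1 ≤ (C + 1) * S.Λ ^ N := by nlinarith
    nlinarith
  have hb₁ : g₁ i * S.M ^ 2 ≤ ((C + 1) * S.Λ ^ N * S.M) ^ 2 := by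
    rw [mul_pow]; exact mul_le_mul_of_nonneg_right (by linarith [t₂.1 i]) (sq_nonneg _)
  have hb₂ : g₂ i * S.M ^ 2 ≤ ((C + 1) * S.Λ ^ N * S.M) ^ 2 := by
    rw [mul_pow]; exact mul_le_mul_of_nonneg_right (by linarith [t₁.1 i]) (sq_nonneg _)
  have e : ∀ b, (D.G μ l κ)^[j] (D.G μ' l' κ' (D.u b)) =
      S.δ • (D.G μ l κ)^[j] (D.G μ' l' κ' (S.δ⁻¹ • D.u b)) := fun b => by
    have : ∀ (n : ℕ) (F : D.A), (D.G μ l κ)^[n] (S.δ • F) = S.δ • (D.G μ l κ)^[n] F := by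
      intro n
      induction n with
      | zero => exact fun _ => rfl
      | succ n ih =>
        intro F
        rw [Function.iterate_succ_apply, Function.iterate_succ_apply, DAlg.G_smul, ih]
    rw [← this, ← DAlg.G_smul, smul_smul, mul_inv_cancel₀ S.δ_pos.ne', one_smul]
  refine ⟨⟨(h₁ j hj i).1, (h₁ j hj i).2.trans hb₁⟩, fun b => ?_, ?_⟩
  · rw [e]; exact S.PG.smul_mem ((h₂ j hj i).1 b) _
  · simp only [e, smul_pow, ← Finset.smul_sum, map_smul, smul_eq_mul]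
    rw [mul_pow]
    exact mul_le_mul_of_nonneg_left ((h₂ j hj i).2.trans hb₂) (sq_nonneg _)

end Crest.Agent.R285
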