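import Crest.Agent.R285.FI2Aux2
import Crest.Agent.R285.DA2

/-! Row 285: the flows and their time derivatives. -/

set_option autoImplicit false

open MeasureTheory ProbabilityTheory Crest.OracleSampling
open scoped ENNReal NNReal RealInnerProductSpace ContDiff

namespace Crest.Agent.R285

/-- The vector field of the flows. -/
noncomputable def fld {d : ℕ} (W : E d → ℝ) (Q0 Hg : ℝ → E d × E d → E d) (μ l κ r : ℝ)
    (x : E d × E d) : E d × E d :=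
  (-((μ * (1 - Real.tanh r ^ 2)) • uu W r x.1) - l • x.2 - (κ * (1 - Real.tanh r ^ 2)) • Hg r x,
    l • (x.1 + Real.tanh r • uu W r x.1) + κ • Q0 r x)

/-- The derivative of the mean force along the flows. -/
noncomputable def dfo {d : ℕ} (Q0 Hg Q2 : ℝ → E d × E d → E d) (μ l κ r : ℝ)
    (x : E d × E d) : E d :=
  μ • Q0 r x - (l * Real.tanh r) • Hg r x + κ • Q2 r x

section

variable {d : ℕ} {δ : ℝ} {W : E d → ℝ}

/-- The field `Hg`. -/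
noncomputable def fi2Hg (h : Pot 0 δ W) (j : Fin d) : Sm (Sp d) :=
  ∑ i : Fin d, (dalg h).H (.inl j) (.inl i) * (dalg h).x (.inr i)

lemma fi2ev_u (h : Pot 0 δ W) (r : ℝ) (x : E d × E d) (i : Fin d) :
    fi2ev (r, x.1, x.2, 0) ((dalg h).u (.inl i)) = uu W r x.1 i := dalg_u_inl h i r x.1 x.2

lemma fi2ev_χ (h : Pot 0 δ W) (r : ℝ) (x : E d × E d) :
    fi2ev (r, x.1, x.2, 0) (dalg h).χ = 1 - Real.tanh r ^ 2 := by
  rw [DAlg.χ, map_sub, map_one, map_pow]; rfl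

lemma vecE_u (h : Pot 0 δ W) (r : ℝ) (x : E d × E d) :
    vecE (fun i => (dalg h).u (.inl i)) r x = uu W r x.1 := by
  ext i
  exact fi2ev_u h r x i

lemma fld_eq (h : Pot 0 δ W) (μ l κ r : ℝ) (x : E d × E d) :
    fld W (vecE fun i => (dalg h).DD ((dalg h).u (.inl i))) (vecE (fi2Hg h)) μ l κ r x =
      pairE ((dalg h).vec μ l κ) r x := by
  have e1 : ∀ i, fi2ev (r, x.1, x.2, 0) ((dalg h).x (.inl i)) = x.1 i := fun _ => rfl
  have e2 : ∀ i, fi2ev (r, x.1, x.2, 0) ((dalg h).x (.inr i)) = x.2 i := fun _ => rfl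
  have e3 : fi2ev (r, x.1, x.2, 0) (dalg h).ρ = Real.tanh r := rfl
  refine Prod.ext ?_ ?_
  · ext i
    have := congrArg (fi2ev (r, x.1, x.2, 0)) ((fi2_split h).vec_a μ l κ i)
    rw [map_sub, map_sub, map_neg, map_smul, map_smul, map_smul, map_mul, map_mul, fi2ev_u,
      fi2ev_χ, e2] at this
    simp only [fld, pairE, vecE_apply, this, PiLp.sub_apply, PiLp.neg_apply, PiLp.smul_apply,
      smul_eq_mul, fi2Hg]
    ring
  · ext i
    have := congrArg (fi2ev (r, x.1, x.2, 0)) ((fi2_split h).vec_b μ l κ i)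
    rw [map_add, map_smul, map_smul, map_add, map_mul, fi2ev_u, e1, e3] at this
    simp only [fld, pairE, vecE_apply, this, PiLp.add_apply, PiLp.smul_apply, smul_eq_mul]

lemma dfo_eq (h : Pot 0 δ W) (μ l κ r : ℝ) (x : E d × E d) :
    dfo (vecE fun i => (dalg h).DD ((dalg h).u (.inl i))) (vecE (fi2Hg h))
      (vecE fun i => (dalg h).G 0 0 1 ((dalg h).u (.inl i))) μ l κ r x =
      vecE (fun i => (dalg h).G μ l κ ((dalg h).u (.inl i))) r x := by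
  have e3 : fi2ev (r, x.1, x.2, 0) (dalg h).ρ = Real.tanh r := rfl
  ext i
  have := congrArg (fi2ev (r, x.1, x.2, 0)) ((fi2_split h).G_u μ l κ i)
  rw [map_add, map_sub, map_smul, map_smul, map_smul, map_mul, e3] at this
  simp only [dfo, vecE_apply, this, PiLp.add_apply, PiLp.sub_apply, PiLp.smul_apply,
    smul_eq_mul, fi2Hg]
  ring

lemma fi2_meas {Ψ : ℝ → E d × E d → E d × E d} (hΨ : Measurable (Function.uncurry Ψ))
    (r₀ μ : ℝ) : Measurable fun q : ℝ × E d × E d => (r₀ + μ * q.1, Ψ q.1 q.2) :=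
  Measurable.prodMk (by fun_prop) hΨ

lemma fi2_bound {c : ℕ → ℝ} (h : Pot 0 δ W) (S : Setup c (dalg h)) {r : ℝ}
    (hS : ∀ F ∈ S.PG, Integrable (fun x : E d × E d => (F : Sp d → ℝ) (r, x.1, x.2, 0)) (pp W r) ∧
      S.Ex F = ∫ x, (F : Sp d → ℝ) (r, x.1, x.2, 0) ∂(pp W r))
    {ν : Measure (E d × E d)} {ψ : E d × E d → E d × E d} (hψ : Measurable ψ)
    (hν : ν.map ψ = pp W r) {F : Fin d ⊕ Fin d → Sm (Sp d)} (hF : ∀ b, F b ∈ S.PG) {K : ℝ}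
    (hK : 0 ≤ K) (hE : S.Ex (∑ b, F b ^ 2) ≤ K ^ 2) :
    ∫⁻ x, ‖pairE F r (ψ x)‖ₑ ∂ν ≤ ENNReal.ofReal K := by
  have := isProb_pp h r
  obtain ⟨h1, h2⟩ := hS _ (S.PG.sum_mem (t := Finset.univ) fun b _ => S.PG.pow_mem (hF b) 2)
  rw [← lintegral_map (f := fun y => ‖pairE F r y‖ₑ) (continuous_pairE F r).measurable.enorm hψ,
    hν]
  exact fi2_L1_le _ h1 (norm_pairE_sq_le F r) hK (h2 ▸ hE)

lemma fi2_bound_vec {c : ℕ → ℝ} (h : Pot 0 δ W) (S : Setup c (dalg h)) {r : ℝ}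
    (hS : ∀ F ∈ S.PG, Integrable (fun x : E d × E d => (F : Sp d → ℝ) (r, x.1, x.2, 0)) (pp W r) ∧
      S.Ex F = ∫ x, (F : Sp d → ℝ) (r, x.1, x.2, 0) ∂(pp W r))
    {ν : Measure (E d × E d)} {ψ : E d × E d → E d × E d} (hψ : Measurable ψ)
    (hν : ν.map ψ = pp W r) {F : Fin d ⊕ Fin d → Sm (Sp d)} (hF : ∀ b, F b ∈ S.PG) {K : ℝ}
    (hK : 0 ≤ K) (hE : S.Ex (∑ b, F b ^ 2) ≤ K ^ 2) :
    ∫⁻ x, ‖vecE (fun i => F (.inl i)) r (ψ x)‖ₑ ∂ν ≤ ENNReal.ofReal K := by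
  refine le_trans (lintegral_mono fun x => ?_) (fi2_bound h S hS hψ hν hF hK hE)
  rw [← ofReal_norm, ← ofReal_norm]
  exact ENNReal.ofReal_le_ofReal (norm_fst_le (pairE F r (ψ x)))

end

theorem flow_interface (k : ℕ) : ∃ (C : ℝ) (N : ℕ), 1 ≤ C ∧
    ∀ (d : ℕ) (δ : ℝ) (W : E d → ℝ), Pot 0 δ W → 0 < δ → δ ≤ 1 / 2 →
    ∃ Q0 Hg Q2 : ℝ → E d × E d → E d, (∀ r, Continuous (Q0 r)) ∧ (∀ r, Continuous (Hg r)) ∧
      (∀ r, Continuous (Q2 r)) ∧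
      ∀ R μ l κ r₀ T : ℝ, 0 ≤ μ → μ ≤ 1 → |l| ≤ 1 → |κ| * δ ≤ 1 → 0 ≤ r₀ → 0 ≤ T → r₀ + T ≤ R →
      ∃ Ψ : ℝ → E d × E d → E d × E d, Measurable (Function.uncurry Ψ) ∧ (∀ x, Ψ 0 x = x) ∧
        (∀ x, ∀ τ ∈ Set.Icc 0 T, HasDerivWithinAt (fun s => Ψ s x)
          (fld W Q0 Hg μ l κ (r₀ + μ * τ) (Ψ τ x)) (Set.Icc 0 T) τ) ∧
        (∀ τ ∈ Set.Icc 0 T, (pp W r₀).map (Ψ τ) = pp W (r₀ + μ * τ)) ∧
        (∀ x, ∀ τ ∈ Set.Icc 0 T, HasDerivWithinAt (fun s => uu W (r₀ + μ * s) (Ψ s x).1)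
          (dfo Q0 Hg Q2 μ l κ (r₀ + μ * τ) (Ψ τ x)) (Set.Icc 0 T) τ) ∧
        (∃ f', Chain 0 k T (pp W r₀) (fun τ x => fld W Q0 Hg μ l κ (r₀ + μ * τ) (Ψ τ x)) f'
          (C * Real.cosh R ^ N * MM W)) ∧
        Chain 1 k T (pp W r₀) (fun τ x => uu W (r₀ + μ * τ) (Ψ τ x).1) (dfo Q0 Hg Q2 μ l κ r₀)
          (δ * (C * Real.cosh R ^ N * MM W)) ∧
        (∃ f', Chain 0 k T (pp W r₀) (fun τ x => Q2 (r₀ + μ * τ) (Ψ τ x)) f'
          (δ ^ 2 * (C * Real.cosh R ^ N * MM W))) := by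
  obtain ⟨c, hc, hset⟩ := exists_setup
  obtain ⟨C, N, hC, hb⟩ := Setup.bounds c hc (k + 1)
  refine ⟨2 * C, N, by linarith, fun d δ W h hδ hδ' =>
    ⟨vecE fun i => (dalg h).DD ((dalg h).u (.inl i)), vecE (fi2Hg h),
      vecE fun i => (dalg h).G 0 0 1 ((dalg h).u (.inl i)), continuous_vecE _, continuous_vecE _,
      continuous_vecE _, fun R μ l κ r₀ T hμ0 hμ1 hl hκ hr₀ hT hR => ?_⟩⟩
  obtain ⟨Ψ, hm, h0, hd, hmap⟩ := fi2_flow h hδ.le hδ' μ l κ r₀ hT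
  have hμ : |μ| ≤ 1 := by rwa [abs_of_nonneg hμ0]
  have hmτ : ∀ τ, Measurable (Ψ τ) := fun τ => hm.comp measurable_prodMk_left
  have hM : 0 ≤ MM W := by unfold MM; positivity
  have hcR := Real.cosh_pos R
  have hK : 0 ≤ 2 * C * Real.cosh R ^ N * MM W := by positivity
  have hle : ∀ τ ∈ Set.Icc 0 T, C * Real.cosh (r₀ + μ * τ) ^ N * (2 * MM W) ≤
      2 * C * Real.cosh R ^ N * MM W := by
    intro τ hτ
    have h1 : 0 ≤ μ * τ := mul_nonneg hμ0 hτ.1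
    have h2 : μ * τ ≤ T := (mul_le_of_le_one_left hτ.1 hμ1).trans hτ.2
    have h3 : Real.cosh (r₀ + μ * τ) ≤ Real.cosh R := by
      rw [Real.cosh_le_cosh, abs_of_nonneg (by linarith), abs_of_nonneg (by linarith)]
      linarith
    have h4 := Real.cosh_pos (r₀ + μ * τ)
    calc C * Real.cosh (r₀ + μ * τ) ^ N * (2 * MM W)
        ≤ C * Real.cosh R ^ N * (2 * MM W) := by gcongr
      _ = _ := by ring
  have hle0 : ∀ τ, 0 ≤ C * Real.cosh (r₀ + μ * τ) ^ N * (2 * MM W) := fun τ => by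
    have := Real.cosh_pos (r₀ + μ * τ)
    positivity
  simp only [fld_eq]
  refine ⟨Ψ, hm, h0, hd, hmap, fun x τ hτ => ?_, ⟨_, fun j τ x =>
      pairE (fun b => ((dalg h).G μ l κ)^[j] ((dalg h).vec μ l κ b)) (r₀ + μ * τ) (Ψ τ x),
      fun _ _ _ => rfl, fun _ => rfl, fun j x τ hτ => ?_, fun j => ?_, fun j _ hj τ hτ => ?_⟩,
    ⟨fun j τ x => vecE (fun i => ((dalg h).G μ l κ)^[j] ((dalg h).u (.inl i))) (r₀ + μ * τ) (Ψ τ x),
      fun _ _ _ => vecE_u h _ _, fun x => ?_, fun j x τ hτ => ?_, fun j => ?_,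
      fun j hj₀ hj τ hτ => ?_⟩, ⟨_, fun j τ x =>
      vecE (fun i => ((dalg h).G μ l κ)^[j] ((dalg h).G 0 0 1 ((dalg h).u (.inl i))))
        (r₀ + μ * τ) (Ψ τ x),
      fun _ _ _ => rfl, fun _ => rfl, fun j x τ hτ => ?_, fun j => ?_, fun j _ hj τ hτ => ?_⟩⟩
  · rw [dfo_eq]
    simpa only [vecE_u] using fi2_chain_vec h (hd x τ hτ) fun i => (dalg h).u (.inl i)
  · simp only [Function.iterate_succ_apply']
    exact fi2_chain_pair h (hd x τ hτ) _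
  · exact (contDiff_pairE _).continuous.measurable.comp (fi2_meas hm r₀ μ)
  · obtain ⟨S, s1, s2, s3, s4⟩ := hset d δ W h hδ hδ' (r₀ + μ * τ)
    obtain ⟨⟨b1, b2⟩, -⟩ := hb _ S μ l κ μ l κ hμ hl (by rwa [s2]) hμ hl (by rwa [s2]) j hj
    rw [s1, s3] at b2
    exact fi2_bound h S s4 (hmτ τ) (hmap τ hτ) b1 hK
      (b2.trans (pow_le_pow_left₀ (hle0 τ) (hle τ hτ) 2))
  · simp only [mul_zero, add_zero, h0, dfo_eq]
    rfl
  · simp only [Function.iterate_succ_apply']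
    exact fi2_chain_vec h (hd x τ hτ) _
  · exact (contDiff_vecE _).continuous.measurable.comp (fi2_meas hm r₀ μ)
  · obtain ⟨S, s1, s2, s3, s4⟩ := hset d δ W h hδ hδ' (r₀ + μ * τ)
    obtain ⟨j, rfl⟩ := Nat.exists_eq_succ_of_ne_zero (show j ≠ 0 by omega)
    obtain ⟨-, b1, b2⟩ := hb _ S μ l κ μ l κ hμ hl (by rwa [s2]) hμ hl (by rwa [s2]) j (by omega)
    rw [s1, s2, s3] at b2
    exact fi2_bound_vec h S s4 (hmτ τ) (hmap τ hτ) b1 (mul_nonneg hδ.le hK)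
      (b2.trans (pow_le_pow_left₀ (mul_nonneg hδ.le (hle0 τ))
        (mul_le_mul_of_nonneg_left (hle τ hτ) hδ.le) 2))
  · simp only [Function.iterate_succ_apply']
    exact fi2_chain_vec h (hd x τ hτ) _
  · exact (contDiff_vecE _).continuous.measurable.comp (fi2_meas hm r₀ μ)
  · obtain ⟨S, s1, s2, s3, s4⟩ := hset d δ W h hδ hδ' (r₀ + μ * τ)
    obtain ⟨-, b1, b2⟩ := hb _ S μ l κ 0 0 δ⁻¹ hμ hl (by rwa [s2]) (by simp) (by simp)
      (by rw [s2, abs_of_pos (inv_pos.2 hδ), inv_mul_cancel₀ hδ.ne']) j hj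
    rw [s1, s2, s3] at b2
    have e : ∀ b, ((dalg h).G μ l κ)^[j] ((dalg h).G 0 0 1 ((dalg h).u b)) =
        δ • ((dalg h).G μ l κ)^[j] ((dalg h).G 0 0 δ⁻¹ ((dalg h).u b)) := fun b => by
      rw [DAlg.fi2_G_kappa δ⁻¹, DAlg.fi2_iter_smul, smul_smul, mul_inv_cancel₀ hδ.ne', one_smul]
    refine fi2_bound_vec h S s4 (hmτ τ) (hmap τ hτ)
      (F := fun b => ((dalg h).G μ l κ)^[j] ((dalg h).G 0 0 1 ((dalg h).u b)))
      (fun b => e b ▸ S.PG.smul_mem (b1 b) δ) (mul_nonneg (sq_nonneg δ) hK) ?_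
    simp only [e, smul_pow, ← Finset.smul_sum, map_smul, smul_eq_mul]
    refine (mul_le_mul_of_nonneg_left (b2.trans (pow_le_pow_left₀ (mul_nonneg hδ.le (hle0 τ))
      (mul_le_mul_of_nonneg_left (hle τ hτ) hδ.le) 2)) (sq_nonneg δ)).trans (le_of_eq ?_)
    ring

end Crest.Agent.R285
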