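import Crest.Agent.R285.CTa
import Crest.Agent.R285.FI2

/-! Row 285: auxiliary `L¹` estimates for the error of the circuit. -/

set_option autoImplicit false

open MeasureTheory Crest.OracleSampling

namespace Crest.Agent.R285

section L1

variable {X Y Y₁ Y₂ : Type} [MeasurableSpace X] {p : Measure X}
  [NormedAddCommGroup Y] [NormedAddCommGroup Y₁] [NormedAddCommGroup Y₂]

theorem CTc_add {F : X → Y} {f : X → Y₁} {g : X → Y₂} {a b : ℝ} (ha : 0 ≤ a) (hb : 0 ≤ b)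
    (hg : Measurable fun x => ‖g x‖ₑ) (h : ∀ x, ‖F x‖ ≤ ‖f x‖ + ‖g x‖)
    (h1 : ∫⁻ x, ‖f x‖ₑ ∂p ≤ ENNReal.ofReal a) (h2 : ∫⁻ x, ‖g x‖ₑ ∂p ≤ ENNReal.ofReal b) :
    ∫⁻ x, ‖F x‖ₑ ∂p ≤ ENNReal.ofReal (a + b) := by
  rw [ENNReal.ofReal_add ha hb]
  refine le_trans ?_ (add_le_add h1 h2)
  rw [← lintegral_add_right _ hg]
  refine lintegral_mono fun x => ?_
  rw [← ofReal_norm, ← ofReal_norm, ← ofReal_norm,
    ← ENNReal.ofReal_add (norm_nonneg _) (norm_nonneg _)]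
  exact ENNReal.ofReal_le_ofReal (h x)

theorem CTc_mul {F : X → Y} {f : X → Y₁} {a c : ℝ} (hc : 0 ≤ c) (h : ∀ x, ‖F x‖ ≤ c * ‖f x‖)
    (h1 : ∫⁻ x, ‖f x‖ₑ ∂p ≤ ENNReal.ofReal a) :
    ∫⁻ x, ‖F x‖ₑ ∂p ≤ ENNReal.ofReal (c * a) := by
  rw [ENNReal.ofReal_mul hc]
  refine le_trans ?_ (mul_le_mul_right h1 _)
  rw [← lintegral_const_mul' _ _ ENNReal.ofReal_ne_top]
  refine lintegral_mono fun x => ?_
  rw [← ofReal_norm, ← ofReal_norm, ← ENNReal.ofReal_mul hc]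
  exact ENNReal.ofReal_le_ofReal (h x)

theorem CTc_mono {f : X → Y} {a b : ℝ} (h1 : ∫⁻ x, ‖f x‖ₑ ∂p ≤ ENNReal.ofReal a) (h : a ≤ b) :
    ∫⁻ x, ‖f x‖ₑ ∂p ≤ ENNReal.ofReal b := h1.trans (ENNReal.ofReal_le_ofReal h)

theorem CTc_sum [NormedSpace ℝ Y] {ι : Type} [Fintype ι] {β : ι → ℝ} {f : ι → X → Y} {S e : ℝ}
    (he : 0 ≤ e) (hS : ∑ n, |β n| ≤ S) (hm : ∀ n, Measurable fun x => ‖f n x‖ₑ)
    (h1 : ∀ n, ∫⁻ x, ‖f n x‖ₑ ∂p ≤ ENNReal.ofReal e) :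
    ∫⁻ x, ‖∑ n, β n • f n x‖ₑ ∂p ≤ ENNReal.ofReal (S * e) := by
  refine le_trans (lintegral_mono fun x => (enorm_sum_le _ _).trans
    (le_of_eq (Finset.sum_congr rfl fun n _ => enorm_smul _ _))) ?_
  rw [lintegral_finsetSum _ fun n _ => (hm n).const_mul _]
  refine le_trans ?_ (ENNReal.ofReal_le_ofReal (mul_le_mul_of_nonneg_right hS he))
  rw [Finset.sum_mul, ENNReal.ofReal_sum_of_nonneg fun _ _ => by positivity]
  refine Finset.sum_le_sum fun n _ => ?_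
  rw [lintegral_const_mul _ (hm n), ENNReal.ofReal_mul (abs_nonneg _), Real.enorm_eq_ofReal_abs]
  gcongr
  exact h1 n

theorem CTc_map {q : Measure X} {Ψ : X → X} (hΨ : Measurable Ψ) (hq : p.map Ψ = q) {f : X → Y}
    (hf : Measurable fun x => ‖f x‖ₑ) {e : ℝ} (h1 : ∫⁻ x, ‖f x‖ₑ ∂q ≤ ENNReal.ofReal e) :
    ∫⁻ x, ‖f (Ψ x)‖ₑ ∂p ≤ ENNReal.ofReal e := by
  rw [← hq, lintegral_map hf hΨ] at h1
  exact h1

theorem CTc_cont {f : Y₁ → Y₂} {l : ℝ} (h : ∀ x y, ‖f x - f y‖ ≤ l * ‖x - y‖) : Continuous f :=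
  (LipschitzWith.of_dist_le_mul (K := l.toNNReal) fun x y => by
    rw [dist_eq_norm, dist_eq_norm]
    exact (h x y).trans (mul_le_mul_of_nonneg_right (Real.le_coe_toNNReal l)
      (norm_nonneg _))).continuous

end L1

theorem CTc_pic_cont {k M : ℕ} {C h : ℝ} {Y : Type} [NormedAddCommGroup Y] [NormedSpace ℝ Y]
    (Q : Quad k C M h) {bt : Fin M × Fin (k + 1) → Y → Y} (hbc : ∀ n, Continuous (bt n))
    (D : ℕ) (n) : Continuous (Q.pic bt D n) := by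
  induction D generalizing n with
  | zero => exact continuous_id
  | succ D ih =>
    exact continuous_id.add (continuous_finsetSum _ fun n' _ =>
      ((hbc n').comp (ih n')).const_smul _)

/-- The constant of the local estimates. -/
noncomputable def CTc_c1 (k : ℕ) (C : ℝ) : ℝ := C + C * ((2 * C) ^ (k + 1) + 2 * C)

theorem CTc_c1_nonneg (k : ℕ) {C : ℝ} (hC : 1 ≤ C) : 0 ≤ CTc_c1 k C := by
  unfold CTc_c1; positivity

/-- Numerical differentiation along an approximate local flow. -/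
theorem CTc_local {d k : ℕ} {C h δ B ε : ℝ} {u : UF d} (Ql : Quad k C 1 h) (hh : 0 < h)
    (hC : 1 ≤ C) (hCh : 4 * C * h ≤ 1) (hδ : 0 ≤ δ) (hB : 0 ≤ B) (hε : 0 ≤ ε)
    (hu : ∀ r z z', ‖u r z - u r z'‖ ≤ δ * ‖z - z'‖)
    {bt : Fin 1 × Fin (k + 1) → E d × E d → E d × E d}
    (hbt : ∀ n x y, ‖bt n x - bt n y‖ ≤ 2 * ‖x - y‖)
    {p : Measure (E d × E d)} [SFinite p] {Ψ : ℝ → E d × E d → E d × E d}
    (hΨm : Measurable (Function.uncurry Ψ)) (hΨ0 : ∀ x, Ψ 0 x = x)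
    {f : ℝ → E d × E d → E d × E d} {f' : E d × E d → E d × E d}
    (hΨ : ∀ x, ∀ τ ∈ Set.Icc 0 (((1 : ℕ) : ℝ) * h), HasDerivWithinAt (fun s => Ψ s x) (f τ x)
      (Set.Icc 0 (((1 : ℕ) : ℝ) * h)) τ)
    (hf : Chain 0 k (((1 : ℕ) : ℝ) * h) p f f' B)
    (herr : ∀ n, ∫⁻ x, ‖bt n (Ψ (Ql.τ n) x) - f (Ql.τ n) x‖ₑ ∂p ≤ ENNReal.ofReal ε)
    {ρ : ℝ → ℝ} {g' : E d × E d → E d}
    (hg : Chain 1 k (((1 : ℕ) : ℝ) * h) p (fun τ x => u (ρ τ) (Ψ τ x).1) g' (δ * B)) :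
    ∫⁻ x, ‖g' x - ∑ n, Ql.β n • u (ρ (Ql.τ n)) (Ql.pic bt (k + 1) n x).1‖ₑ ∂p ≤
      ENNReal.ofReal (CTc_c1 k C * δ * h ^ k * B + 2 * C ^ 2 * δ * ε) := by
  have hC0 : 0 < C := by linarith
  have hh1 : h ≤ 1 := by nlinarith
  have h1 := Ql.der_err (Nat.le_add_left 1 k) (by positivity) hg
  have h2 := fun n => Ql.pic_err (l := 2) (by norm_num) hε hB hh hbt (by push_cast; linarith)
    hΨm hΨ0 hΨ hf herr (k + 1) n
  have huc : ∀ r, Continuous (u r) := fun r => CTc_cont (hu r)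
  have hpc := CTc_pic_cont Ql (fun n => CTc_cont (hbt n)) (k + 1)
  have hΨm' : ∀ τ, Measurable (Ψ τ) := fun τ => hΨm.of_uncurry_left
  have hm : ∀ n, Measurable fun x => u (ρ (Ql.τ n)) (Ψ (Ql.τ n) x).1 -
      u (ρ (Ql.τ n)) (Ql.pic bt (k + 1) n x).1 := fun n =>
    ((huc _).measurable.comp (hΨm' _).fst).sub ((huc _).comp (hpc n).fst).measurable
  have h4 : ∀ n, ∫⁻ x, ‖u (ρ (Ql.τ n)) (Ψ (Ql.τ n) x).1 -
      u (ρ (Ql.τ n)) (Ql.pic bt (k + 1) n x).1‖ₑ ∂p ≤ ENNReal.ofReal (δ * _) := fun n =>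
    CTc_mul hδ (fun x => (hu _ _ _).trans (mul_le_mul_of_nonneg_left
      (by rw [norm_sub_rev]; exact norm_fst_le (Ql.pic bt (k + 1) n x - Ψ (Ql.τ n) x)) hδ)) (h2 n)
  have h3 := CTc_sum (p := p) (β := Ql.β) (f := fun n x => u (ρ (Ql.τ n)) (Ψ (Ql.τ n) x).1 -
      u (ρ (Ql.τ n)) (Ql.pic bt (k + 1) n x).1) (by positivity) Ql.β_le (fun n => (hm n).enorm) h4
  have hm' : Measurable fun x => ∑ n, Ql.β n • (u (ρ (Ql.τ n)) (Ψ (Ql.τ n) x).1 -
      u (ρ (Ql.τ n)) (Ql.pic bt (k + 1) n x).1) :=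
    Finset.measurable_fun_sum _ fun n _ => (hm n).const_smul (Ql.β n)
  refine CTc_mono (CTc_add (by positivity) (by positivity) hm'.enorm (fun x => ?_) h1 h3) ?_
  · refine le_trans (le_of_eq ?_) (norm_add_le _ _)
    congr 1
    simp only [smul_sub, Finset.sum_sub_distrib]
    abel
  · have e1 : C / h * (δ * ((C * (((1 : ℕ) : ℝ) * h) * 2) ^ (k + 1) * (((1 : ℕ) : ℝ) * h) * B +
        2 * (C * (((1 : ℕ) : ℝ) * h) * ε + C * h ^ (k + 1) * (((1 : ℕ) : ℝ) * h) * B))) =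
        C * ((2 * C) ^ (k + 1) + 2 * C) * δ * h ^ k * B * h + 2 * C ^ 2 * δ * ε := by
      push_cast
      rw [one_mul, show C * h * 2 = 2 * C * h by ring, mul_pow (2 * C) h]
      field_simp
      ring
    rw [e1, CTc_c1]
    have : C * ((2 * C) ^ (k + 1) + 2 * C) * δ * h ^ k * B * h ≤
        C * ((2 * C) ^ (k + 1) + 2 * C) * δ * h ^ k * B :=
      mul_le_of_le_one_right (by positivity) hh1
    nlinarith

/-- The conclusion of `flow_interface`. -/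
def CTcFl {d : ℕ} (k : ℕ) (δ B R : ℝ) (W : E d → ℝ) (Q0 Hg Q2 : ℝ → E d × E d → E d) : Prop :=
  ∀ μ l κ r₀ T : ℝ, 0 ≤ μ → μ ≤ 1 → |l| ≤ 1 → |κ| * δ ≤ 1 → 0 ≤ r₀ → 0 ≤ T → r₀ + T ≤ R →
    ∃ Ψ : ℝ → E d × E d → E d × E d, Measurable (Function.uncurry Ψ) ∧ (∀ x, Ψ 0 x = x) ∧
      (∀ x, ∀ τ ∈ Set.Icc 0 T, HasDerivWithinAt (fun s => Ψ s x)
        (fld W Q0 Hg μ l κ (r₀ + μ * τ) (Ψ τ x)) (Set.Icc 0 T) τ) ∧
      (∀ τ ∈ Set.Icc 0 T, (pp W r₀).map (Ψ τ) = pp W (r₀ + μ * τ)) ∧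
      (∀ x, ∀ τ ∈ Set.Icc 0 T, HasDerivWithinAt (fun s => uu W (r₀ + μ * s) (Ψ s x).1)
        (dfo Q0 Hg Q2 μ l κ (r₀ + μ * τ) (Ψ τ x)) (Set.Icc 0 T) τ) ∧
      (∃ f', Chain 0 k T (pp W r₀) (fun τ x => fld W Q0 Hg μ l κ (r₀ + μ * τ) (Ψ τ x)) f' B) ∧
      Chain 1 k T (pp W r₀) (fun τ x => uu W (r₀ + μ * τ) (Ψ τ x).1) (dfo Q0 Hg Q2 μ l κ r₀)
        (δ * B) ∧
      (∃ f', Chain 0 k T (pp W r₀) (fun τ x => Q2 (r₀ + μ * τ) (Ψ τ x)) f' (δ ^ 2 * B))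

theorem CTc_sfinite {d : ℕ} {δ : ℝ} {W : E d → ℝ} (hW : Pot 0 δ W) (r : ℝ) : SFinite (pp W r) := by
  have := isProb_pz hW r
  unfold pp
  infer_instance

theorem CTc_small {k M : ℕ} {C h κ K δ : ℝ} (H : CHyp k M C h κ K δ) :
    C * ((1 + K) * (2 * (k + 1) / h) * (16 * C * δ / h)) ≤ h := by
  have hh := H.hh
  have hC := H.hC
  have hK := H.hK
  have hδ := H.hδ
  refine le_trans ?_ H.small
  have : (0 : ℝ) ≤ M * h := by positivity
  gcongr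
  nlinarith

theorem CTc_small' {k M : ℕ} {C h κ K δ : ℝ} (H : CHyp k M C h κ K δ) :
    (1 + K) * (2 * (k + 1) / h) * (16 * C * δ / h) ≤ h := by
  have hh := H.hh
  have hC := H.hC
  have hK := H.hK
  have hδ := H.hδ
  refine le_trans ?_ (CTc_small H)
  exact le_mul_of_one_le_left (by positivity) hC

theorem CTc_small2 {k M : ℕ} {C h κ K δ : ℝ} (H : CHyp k M C h κ K δ) :
    2 * (K * (2 * (k + 1) / h)) * δ ≤ h := by
  have hh := H.hh
  have hC := H.hC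
  have hK := H.hK
  have hδ := H.hδ
  have h4 := H.h_le
  refine le_trans ?_ (CTc_small' H)
  have h1 : 2 * δ ≤ 16 * C * δ / h := by
    rw [le_div_iff₀ hh]; nlinarith
  calc 2 * (K * (2 * (k + 1) / h)) * δ = K * (2 * (k + 1) / h) * (2 * δ) := by ring
    _ ≤ _ := by gcongr; linarith

theorem CTc_γ {k M : ℕ} {C h κ K δ : ℝ} (H : CHyp k M C h κ K δ) : 1 ≤ 2 * ((k : ℝ) + 1) / h := by
  have hh := H.hh
  have h4 := H.h_le
  rw [le_div_iff₀ hh]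
  have : (0 : ℝ) ≤ k := by positivity
  linarith

theorem CTc_Kδ {k M : ℕ} {C h κ K δ : ℝ} (H : CHyp k M C h κ K δ) : K * δ ≤ 1 := by
  have h1 := CTc_small2 H
  have h2 := CTc_γ H
  have hK := H.hK
  have hδ := H.hδ
  have h4 := H.h_le
  have : K * δ * 1 ≤ K * δ * (2 * ((k : ℝ) + 1) / h) := by gcongr
  nlinarith

section Node

variable {d k M : ℕ} {C h κ K δ B R : ℝ} {W : E d → ℝ} {Q0 Hg Q2 : ℝ → E d × E d → E d}
  (H : CHyp k M C h κ K δ) (hW : Pot 0 δ W) (hB : 0 ≤ B) (F : CTcFl k δ B R W Q0 Hg Q2)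
  (Ql : Quad k C 1 h)
include H hW

theorem CTc_uok : UOK δ (MM W) (mn W 0 1) (uu W) :=
  uok_uu hW H.hδ.le (by linarith [H.δ_le, H.h_le])

include hB F

theorem CTc_q0 {r : ℝ} (hr : 0 ≤ r) (hr' : r + h ≤ R) :
    ∫⁻ x, ‖Q0 r x - q0 Ql (uu W) r x‖ₑ ∂(pp W r) ≤
      ENNReal.ofReal (CTc_c1 k C * δ * h ^ k * B) := by
  have U := CTc_uok H hW
  have := CTc_sfinite hW r
  have hh := H.hh
  have hδ := H.hδ
  obtain ⟨Ψ, hm, h0, hd, -, -, ⟨f', hf⟩, hg, -⟩ := F 1 0 0 r (((1 : ℕ) : ℝ) * h) zero_le_one le_rfl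
    (by simp) (by simp) hr (by positivity) (by simpa using hr')
  have h1 := CTc_local (ε := 0) (u := uu W) (ρ := fun τ => r + 1 * τ) Ql hh H.hC H.hCh hδ.le hB
    le_rfl U.lip (bt := fun n' => b100 (uu W) (r + Ql.τ n'))
    (fun n x y => (b100_lip H U _ x y).trans (mul_le_mul_of_nonneg_right
      (by linarith [H.δ_le, H.h_le]) (norm_nonneg _))) hm h0 hd hf
    (fun n => by simp [b100, fld]) hg
  simpa [dfo, q0, p100] using h1

theorem CTc_q1 {r : ℝ} (hr : 0 ≤ r) (hr' : r + h ≤ R) :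
    ∫⁻ x, ‖-(Real.tanh r • Hg r x) - q1 Ql (uu W) r x‖ₑ ∂(pp W r) ≤
      ENNReal.ofReal (CTc_c1 k C * δ * h ^ k * B) := by
  have U := CTc_uok H hW
  have := CTc_sfinite hW r
  have hh := H.hh
  have hδ := H.hδ
  obtain ⟨Ψ, hm, h0, hd, -, -, ⟨f', hf⟩, hg, -⟩ := F 0 1 0 r (((1 : ℕ) : ℝ) * h) le_rfl zero_le_one
    (by simp) (by simp) hr (by positivity) (by simpa using hr')
  have h1 := CTc_local (ε := 0) (u := uu W) (ρ := fun τ => r + 0 * τ) Ql hh H.hC H.hCh hδ.le hB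
    le_rfl U.lip (bt := fun _ => b010 (uu W) r)
    (fun n x y => b010_lip H U _ x y) hm h0 hd hf
    (fun n => by simp [b010, fld]) hg
  simpa [dfo, q1, p010] using h1

theorem CTc_b001 (hH : ∀ r, Continuous (Hg r)) {r K' : ℝ} (hK' : 0 ≤ K') (hKK : K' ≤ K)
    (hr : h / (k + 1) ≤ r) (hr' : r + h ≤ R) :
    ∫⁻ x, ‖b001 Ql K' (uu W) r x -
        (-((K' * (1 - Real.tanh r ^ 2)) • Hg r x), K' • Q0 r x)‖ₑ ∂(pp W r) ≤
      ENNReal.ofReal (CTc_c1 k C * h ^ (k + 1) * B) := by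
  have U := CTc_uok H hW
  have hh := H.hh
  have hδ := H.hδ
  have hr0 : 0 < r := lt_of_lt_of_le (by positivity) hr
  have ht : Real.tanh r ≠ 0 := by
    rw [Real.tanh_eq_sinh_div_cosh]
    exact div_ne_zero (Real.sinh_pos_iff.2 hr0).ne' (Real.cosh_pos r).ne'
  have hγ := CTc_γ H
  have hc1 := CTc_c1_nonneg k H.hC
  have hKγ : 0 ≤ K * (2 * (k + 1) / h) := by have := H.hK; positivity
  have hm : Measurable fun x => -(Real.tanh r • Hg r x) - q1 Ql (uu W) r x :=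
    Continuous.measurable (by
      have h1 := hH r
      have h2 := CTc_cont (q1_lip H U Ql r)
      fun_prop)
  have h1 := CTc_add (p := pp W r) (F := fun x => ‖Q0 r x - q0 Ql (uu W) r x‖ +
      ‖-(Real.tanh r • Hg r x) - q1 Ql (uu W) r x‖) (by positivity) (by positivity) hm.enorm
    (fun x => le_of_eq (Real.norm_of_nonneg (by positivity)))
    (CTc_q0 H hW hB F Ql hr0.le hr') (CTc_q1 H hW hB F Ql hr0.le hr')
  refine CTc_mono (CTc_mul hKγ (fun x => ?_) h1) ?_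
  · rw [Real.norm_of_nonneg (by positivity)]
    have e1 : b001 Ql K' (uu W) r x - (-((K' * (1 - Real.tanh r ^ 2)) • Hg r x), K' • Q0 r x) =
        (-((K' * ((1 - Real.tanh r ^ 2) / Real.tanh r)) •
          (-(Real.tanh r • Hg r x) - q1 Ql (uu W) r x)),
          -(K' • (Q0 r x - q0 Ql (uu W) r x))) := by
      refine Prod.ext ?_ ?_
      · simp only [b001, Prod.fst_sub, smul_sub, smul_neg, smul_smul]
        rw [show K' * ((1 - Real.tanh r ^ 2) / Real.tanh r) * Real.tanh r =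
          K' * (1 - Real.tanh r ^ 2) by field_simp]
        abel
      · simp only [b001, Prod.snd_sub, smul_sub]
        abel
    rw [e1, Prod.norm_mk, norm_neg, norm_neg, norm_smul, norm_smul, Real.norm_eq_abs,
      Real.norm_eq_abs, abs_mul, abs_of_nonneg hK']
    have h2 := tanh_node_le (k := k) hh (by linarith [H.h_le]) hr
    have h3 : K' * |(1 - Real.tanh r ^ 2) / Real.tanh r| ≤ K * (2 * (k + 1) / h) := by
      have := H.hK
      gcongr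
    have h4 : K' ≤ K * (2 * (k + 1) / h) := hKK.trans (le_mul_of_one_le_right H.hK.le hγ)
    refine max_le ?_ ?_
    · refine mul_le_mul h3 ?_ (norm_nonneg _) hKγ
      exact le_add_of_nonneg_left (norm_nonneg _)
    · refine mul_le_mul h4 ?_ (norm_nonneg _) hKγ
      exact le_add_of_nonneg_right (norm_nonneg _)
  · have h5 := CTc_small2 H
    calc K * (2 * (k + 1) / h) * (CTc_c1 k C * δ * h ^ k * B + CTc_c1 k C * δ * h ^ k * B)
        = 2 * (K * (2 * (k + 1) / h)) * δ * (CTc_c1 k C * h ^ k * B) := by ring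
      _ ≤ h * (CTc_c1 k C * h ^ k * B) := by gcongr
      _ = _ := by ring

omit hB F in
theorem CTc_b001_cont {r K' : ℝ} (hK' : 0 ≤ K') (hr : h / (k + 1) ≤ r) :
    Continuous (b001 Ql K' (uu W) r) :=
  CTc_cont (b001_lip H (CTc_uok H hW) Ql hK' hr)

theorem CTc_q2 (hQ : ∀ r, Continuous (Q0 r)) (hH : ∀ r, Continuous (Hg r)) {r : ℝ}
    (hr : h / (k + 1) ≤ r) (hr' : r + h ≤ R) :
    ∫⁻ x, ‖K • Q2 r x - q2 Ql K (uu W) r x‖ₑ ∂(pp W r) ≤
      ENNReal.ofReal ((1 + 2 * C ^ 2) * CTc_c1 k C * δ * h ^ k * B) := by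
  have U := CTc_uok H hW
  have := CTc_sfinite hW r
  have hh := H.hh
  have hδ := H.hδ
  have hK := H.hK
  have hc1 := CTc_c1_nonneg k H.hC
  have hr0 : 0 < r := lt_of_lt_of_le (by positivity) hr
  obtain ⟨Ψ, hm, h0, hd, hmap, -, ⟨f', hf⟩, hg, -⟩ := F 0 0 K r (((1 : ℕ) : ℝ) * h) le_rfl
    zero_le_one (by simp) (by rw [abs_of_pos hK]; exact CTc_Kδ H) hr0.le (by positivity)
    (by simpa using hr')
  have hm' : Measurable fun x => b001 Ql K (uu W) r x -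
      (-((K * (1 - Real.tanh r ^ 2)) • Hg r x), K • Q0 r x) :=
    Continuous.measurable (by
      have h1 := hH r
      have h2 := hQ r
      have h3 := CTc_b001_cont H hW Ql hK.le hr
      fun_prop)
  have h1 := CTc_local (ε := CTc_c1 k C * h ^ (k + 1) * B) (u := uu W) (ρ := fun τ => r + 0 * τ)
    Ql hh H.hC H.hCh hδ.le hB (by positivity) U.lip (bt := fun _ => b001 Ql K (uu W) r)
    (fun n x y => (b001_lip H U Ql hK.le hr x y).trans (mul_le_mul_of_nonneg_right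
      (by
        refine le_trans ?_ ((CTc_small' H).trans (by linarith [H.h_le]))
        have := H.hC
        gcongr
        linarith) (norm_nonneg _))) hm h0 hd hf
    (fun n => by
      have h2 := CTc_map hm.of_uncurry_left ((hmap (Ql.τ n)
        ⟨le_trans (by positivity) (Ql.τ_ge n), Ql.τ_le n⟩).trans (by rw [zero_mul, add_zero]))
        hm'.enorm (CTc_b001 H hW hB F Ql hH hK.le le_rfl hr hr')
      simpa [fld] using h2) hg
  refine CTc_mono (by simpa [dfo, q2, p001] using h1) ?_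
  have h3 : h ^ (k + 1) ≤ h ^ k := pow_le_pow_of_le_one hh.le (by linarith [H.h_le]) (by omega)
  calc CTc_c1 k C * δ * h ^ k * B + 2 * C ^ 2 * δ * (CTc_c1 k C * h ^ (k + 1) * B)
      ≤ CTc_c1 k C * δ * h ^ k * B + 2 * C ^ 2 * δ * (CTc_c1 k C * h ^ k * B) := by gcongr
    _ = _ := by ring

end Node

/-- The constant of the global Picard estimate. -/
noncomputable def CTc_c3 (k : ℕ) (C : ℝ) : ℝ := 1 + 2 * C * CTc_c1 k C + 2 * C

/-- The constant of the final estimate. -/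
noncomputable def CTc_c4 (k : ℕ) (C : ℝ) : ℝ :=
  CTc_c3 k C + C + C * ((1 + 2 * C ^ 2) * CTc_c1 k C) + 16 * C ^ 2 * CTc_c3 k C

theorem CTc_c3_ge (k : ℕ) {C : ℝ} (hC : 1 ≤ C) : 1 ≤ CTc_c3 k C := by
  have := CTc_c1_nonneg k hC
  unfold CTc_c3
  have : 0 ≤ 2 * C * CTc_c1 k C := by positivity
  linarith

theorem CTc_c4_ge (k : ℕ) {C : ℝ} (hC : 1 ≤ C) : CTc_c3 k C ≤ CTc_c4 k C := by
  have := CTc_c1_nonneg k hC
  have := CTc_c3_ge k hC
  unfold CTc_c4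
  have : 0 ≤ C * ((1 + 2 * C ^ 2) * CTc_c1 k C) := by positivity
  have : 0 ≤ 16 * C ^ 2 * CTc_c3 k C := by positivity
  linarith

theorem CTc_global {d k M : ℕ} {C h κ K δ B Λ : ℝ} {W : E d → ℝ} {Q0 Hg Q2 : ℝ → E d × E d → E d}
    (H : CHyp k M C h κ K δ) (hW : Pot 0 δ W) (hB : 0 ≤ B)
    (F : CTcFl k δ B (M * h + 1) W Q0 Hg Q2) (Ql : Quad k C 1 h) (Qg : Quad k C M h)
    (hQ : ∀ r, Continuous (Q0 r)) (hH : ∀ r, Continuous (Hg r)) (hQ2 : ∀ r, Continuous (Q2 r))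
    (hΛ : 1 ≤ Λ) (hΛ' : M * h ≤ Λ) :
    ∃ Ψ : E d × E d → E d × E d, Measurable Ψ ∧ ((gam d).prod (gam d)).map Ψ = pp W (M * h) ∧
      ∫⁻ x, ‖x.1 + cFz Ql Qg κ (uu W) x - (Ψ x).1‖ₑ ∂((gam d).prod (gam d)) ≤
        ENNReal.ofReal (CTc_c4 k C * Λ ^ 2 * h ^ k * B) ∧
      ∫⁻ x, ‖x.2 + κ • (uu W (M * h) (x.1 + cFz Ql Qg κ (uu W) x) + cFs Ql Qg κ K (uu W) x) -
          (κ • mn W 0 1 + (Ψ x).2)‖ₑ ∂((gam d).prod (gam d)) ≤
        ENNReal.ofReal (κ * δ * (CTc_c4 k C * Λ ^ 2 * h ^ k) * B) := by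
  have U := CTc_uok H hW
  have := CTc_sfinite hW 0
  have hh := H.hh
  have hδ := H.hδ
  have hK := H.hK
  have hκ := H.hκ
  have hC := H.hC
  have hC0 : 0 < C := by linarith
  have hh4 := H.h_le
  have hc1 := CTc_c1_nonneg k hC
  have hc3 := CTc_c3_ge k hC
  have hc4 := CTc_c4_ge k hC
  have hc40 : 0 ≤ CTc_c4 k C := by linarith
  have hT : (0 : ℝ) ≤ M * h := by positivity
  have hκδ : κ * δ ≤ 1 := le_trans (by gcongr; exact H.hκK) (CTc_Kδ H)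
  have hp0 : pp W 0 = (gam d).prod (gam d) := by rw [pp, pz_zero hW]
  obtain ⟨Ψ, hm, h0, hd, hmap, hdu, ⟨f', hf⟩, -, ⟨g', hg⟩⟩ := F 1 0 κ 0 (M * h) zero_le_one le_rfl
    (by simp) (by rwa [abs_of_nonneg hκ]) le_rfl hT (by simp)
  simp only [zero_add, one_mul] at hd hmap hdu hf hg
  have hτ : ∀ n, Qg.τ n ∈ Set.Icc 0 (M * h) := fun n =>
    ⟨le_trans (by positivity) (Qg.τ_ge n), Qg.τ_le n⟩
  have hτ' : ∀ n, Qg.τ n + h ≤ M * h + 1 := fun n => by linarith [Qg.τ_le n]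
  have hΨm : ∀ τ, Measurable (Ψ τ) := fun τ => hm.of_uncurry_left
  set θ := (1 + K) * (2 * (k + 1) / h) * (16 * C * δ / h) with hθ
  have hθ0 : 0 ≤ θ := by positivity
  have hq : C * (M * h) * θ ≤ h := le_trans (by gcongr; linarith) H.small
  have hbG : ∀ n x y, ‖bG Ql κ (uu W) (Qg.τ n) x - bG Ql κ (uu W) (Qg.τ n) y‖ ≤ θ * ‖x - y‖ :=
    fun n => bG_lip H U Ql (Qg.τ_ge n)
  -- the global Picard iteration
  have hP : ∀ n, ∫⁻ x, ‖pG Ql Qg κ (uu W) (k + 1) n x - Ψ (Qg.τ n) x‖ₑ ∂(pp W 0) ≤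
      ENNReal.ofReal (CTc_c3 k C * Λ * h ^ (k + 1) * B) := fun n => by
    refine CTc_mono (Qg.pic_err (ε := CTc_c1 k C * h ^ (k + 1) * B) hθ0 (by positivity) hB hh hbG
      (hq.trans (by linarith)) hm h0 hd hf (fun n' => ?_) (k + 1) n) ?_
    · have hm' : Measurable fun x => b001 Ql κ (uu W) (Qg.τ n') x -
          (-((κ * (1 - Real.tanh (Qg.τ n') ^ 2)) • Hg (Qg.τ n') x), κ • Q0 (Qg.τ n') x) :=
        Continuous.measurable (by
          have h1 := hH (Qg.τ n')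
          have h2 := hQ (Qg.τ n')
          have h3 := CTc_b001_cont H hW Ql hκ (Qg.τ_ge n')
          fun_prop)
      have h2 := CTc_map (hΨm _) (hmap _ (hτ n')) hm'.enorm
        (CTc_b001 H hW hB F Ql hH hκ H.hκK (Qg.τ_ge n') (hτ' n'))
      refine le_trans (le_of_eq (lintegral_congr fun x => ?_)) h2
      congr 1
      refine Prod.ext ?_ ?_
      · simp only [bG, b100, fld, Prod.fst_sub, Prod.fst_add, zero_smul, one_mul]
        abel
      · simp only [bG, b100, fld, Prod.snd_sub, Prod.snd_add, zero_smul]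
        abel
    · have h3 : (C * (M * h) * θ) ^ (k + 1) ≤ h ^ (k + 1) := by gcongr
      calc (C * (M * h) * θ) ^ (k + 1) * (M * h) * B +
            2 * (C * (M * h) * (CTc_c1 k C * h ^ (k + 1) * B) + C * h ^ (k + 1) * (M * h) * B)
          ≤ h ^ (k + 1) * Λ * B +
            2 * (C * Λ * (CTc_c1 k C * h ^ (k + 1) * B) + C * h ^ (k + 1) * Λ * B) := by gcongr
        _ = _ := by rw [CTc_c3]; ring
  have hk1 : h ^ (k + 1) ≤ h ^ k := pow_le_pow_of_le_one hh.le (by linarith) (by omega)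
  have hΛ2 : Λ ≤ Λ ^ 2 := by nlinarith
  have hz : ∀ x, x.1 + cFz Ql Qg κ (uu W) x = (pG Ql Qg κ (uu W) (k + 1) Qg.last x).1 :=
    fun x => by simp [cFz]
  have hPl := hP Qg.last
  rw [Qg.τ_last] at hPl
  refine ⟨Ψ (M * h), hΨm _, by rw [← hp0]; exact hmap _ ⟨hT, le_rfl⟩, ?_, ?_⟩
  · rw [← hp0]
    refine CTc_mono (CTc_mul zero_le_one (fun x => ?_) hPl) ?_
    · rw [hz, one_mul]
      exact norm_fst_le (pG Ql Qg κ (uu W) (k + 1) Qg.last x - Ψ (M * h) x)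
    · rw [one_mul]
      gcongr
  rw [← hp0]
  -- the identity along the flow
  have hid : ∀ x, x.2 + κ • uu W (M * h) (Ψ (M * h) x).1 -
      κ • κ • ∫ s in (0 : ℝ)..M * h, Q2 s (Ψ s x) = κ • mn W 0 1 + (Ψ (M * h) x).2 := fun x => by
    obtain ⟨G, hG0, -, hGd, -, -⟩ := hg
    have hc : ContinuousOn (fun s => Q2 s (Ψ s x)) (Set.Icc 0 (M * h)) :=
      ContinuousOn.congr (fun τ hτ => (hGd 0 x τ hτ).continuousWithinAt)
        fun τ hτ => (hG0 τ hτ x).symm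
    have hder : ∀ τ ∈ Set.Icc 0 (M * h), HasDerivWithinAt
        (fun s => κ • uu W s (Ψ s x).1 - (Ψ s x).2) (κ • κ • Q2 τ (Ψ τ x))
        (Set.Icc 0 (M * h)) τ := fun τ hτ => by
      have h1 : HasDerivWithinAt (fun s => (Ψ s x).2) (fld W Q0 Hg 1 0 κ τ (Ψ τ x)).2
          (Set.Icc 0 (M * h)) τ :=
        (ContinuousLinearMap.snd ℝ (E d) (E d)).hasFDerivAt.comp_hasDerivWithinAt τ (hd x τ hτ)
      have h2 := ((hdu x τ hτ).const_smul κ).sub h1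
      exact h2.congr_deriv (by simp [fld, dfo])
    have h3 := intervalIntegral.integral_eq_sub_of_hasDeriv_right_of_le hT
      (f := fun s => κ • uu W s (Ψ s x).1 - (Ψ s x).2) (f' := fun τ => κ • κ • Q2 τ (Ψ τ x))
      (fun τ hτ => (hder τ hτ).continuousWithinAt) (fun u hu => by
        have hu' : Set.Icc 0 (M * h) ∈ nhds u := Icc_mem_nhds hu.1 hu.2
        exact ((hder u (mem_of_mem_nhds hu')).hasDerivAt hu').hasDerivWithinAt)
      (((hc.const_smul κ).const_smul κ).intervalIntegrable_of_Icc hT)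
    rw [intervalIntegral.integral_smul, intervalIntegral.integral_smul, h0] at h3
    rw [h3]
    have h4 : uu W 0 x.1 = mn W 0 1 := by simp [uu]
    rw [h4]
    abel
  have huc : ∀ r, Continuous (uu W r) := fun r => CTc_cont (U.lip r)
  have hpc : ∀ n, Continuous (pG Ql Qg κ (uu W) (k + 1) n) :=
    CTc_pic_cont Qg (fun n => CTc_cont (hbG n)) (k + 1)
  have hq2c : ∀ n, Continuous (q2 Ql K (uu W) (Qg.τ n)) := fun n =>
    CTc_cont (q2_lip H U Ql (Qg.τ_ge n))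
  -- the four error terms
  have e1 := CTc_mul (F := fun x => uu W (M * h) (pG Ql Qg κ (uu W) (k + 1) Qg.last x).1 -
      uu W (M * h) (Ψ (M * h) x).1) hδ.le (fun x => (U.lip _ _ _).trans
    (mul_le_mul_of_nonneg_left
      (norm_fst_le (pG Ql Qg κ (uu W) (k + 1) Qg.last x - Ψ (M * h) x)) hδ.le)) hPl
  have e2 := Qg.int_err (Nat.zero_le _) (by positivity) hg Qg.last
  rw [Qg.τ_last] at e2
  have m3 : ∀ n, Measurable fun x => K • Q2 (Qg.τ n) x - q2 Ql K (uu W) (Qg.τ n) x := fun n =>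
    Continuous.measurable (by
      have h1 := hQ2 (Qg.τ n)
      have h2 := hq2c n
      fun_prop)
  have m3' : ∀ n, Measurable fun x => K • Q2 (Qg.τ n) (Ψ (Qg.τ n) x) -
      q2 Ql K (uu W) (Qg.τ n) (Ψ (Qg.τ n) x) := fun n => (m3 n).comp (hΨm _)
  have e3 := CTc_sum (p := pp W 0) (f := fun n x => K • Q2 (Qg.τ n) (Ψ (Qg.τ n) x) -
      q2 Ql K (uu W) (Qg.τ n) (Ψ (Qg.τ n) x)) (by positivity) (Qg.w_le Qg.last)
    (fun n => (m3' n).enorm) fun n => CTc_map (hΨm _) (hmap _ (hτ n)) (m3 n).enorm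
      (CTc_q2 H hW hB F Ql hQ hH (Qg.τ_ge n) (hτ' n))
  have m4 : ∀ n, Measurable fun x => q2 Ql K (uu W) (Qg.τ n) (Ψ (Qg.τ n) x) -
      q2 Ql K (uu W) (Qg.τ n) (pG Ql Qg κ (uu W) (k + 1) n x) := fun n =>
    ((hq2c n).measurable.comp (hΨm _)).sub ((hq2c n).comp (hpc n)).measurable
  have e4' : ∀ n, ∫⁻ x, ‖q2 Ql K (uu W) (Qg.τ n) (Ψ (Qg.τ n) x) -
      q2 Ql K (uu W) (Qg.τ n) (pG Ql Qg κ (uu W) (k + 1) n x)‖ₑ ∂(pp W 0) ≤
      ENNReal.ofReal (16 * C * δ / h * (CTc_c3 k C * Λ * h ^ (k + 1) * B)) := fun n =>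
    CTc_mul (by positivity) (fun x => by
      rw [norm_sub_rev]; exact q2_lip H U Ql (Qg.τ_ge n) _ _) (hP n)
  have e4 := CTc_sum (p := pp W 0) (f := fun n x => q2 Ql K (uu W) (Qg.τ n) (Ψ (Qg.τ n) x) -
      q2 Ql K (uu W) (Qg.τ n) (pG Ql Qg κ (uu W) (k + 1) n x)) (by positivity) (Qg.w_le Qg.last)
    (fun n => (m4 n).enorm) e4'
  have M3 : Measurable fun x => ∑ n, Qg.w Qg.last n • (K • Q2 (Qg.τ n) (Ψ (Qg.τ n) x) -
      q2 Ql K (uu W) (Qg.τ n) (Ψ (Qg.τ n) x)) :=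
    Finset.measurable_fun_sum _ fun n _ => (m3' n).const_smul (Qg.w Qg.last n)
  have M4 : Measurable fun x => ∑ n, Qg.w Qg.last n • (q2 Ql K (uu W) (Qg.τ n) (Ψ (Qg.τ n) x) -
      q2 Ql K (uu W) (Qg.τ n) (pG Ql Qg κ (uu W) (k + 1) n x)) :=
    Finset.measurable_fun_sum _ fun n _ => (m4 n).const_smul (Qg.w Qg.last n)
  have M1 : Measurable fun x => uu W (M * h) (pG Ql Qg κ (uu W) (k + 1) Qg.last x).1 -
      uu W (M * h) (Ψ (M * h) x).1 :=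
    ((huc _).comp (hpc _).fst).measurable.sub ((huc _).measurable.comp (hΨm _).fst)
  have hκK : κ / K ≤ 1 := (div_le_one hK).2 H.hκK
  have hκK0 : 0 ≤ κ / K := by positivity
  have e2' := CTc_mul (F := fun x => κ • ((∫ s in (0 : ℝ)..M * h, Q2 s (Ψ s x)) -
      ∑ n, Qg.w Qg.last n • Q2 (Qg.τ n) (Ψ (Qg.τ n) x))) hκ
    (fun x => by rw [norm_smul, Real.norm_of_nonneg hκ]) e2
  have e21 := CTc_add (F := fun x => κ • ((∫ s in (0 : ℝ)..M * h, Q2 s (Ψ s x)) -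
      ∑ n, Qg.w Qg.last n • Q2 (Qg.τ n) (Ψ (Qg.τ n) x)) +
      (uu W (M * h) (pG Ql Qg κ (uu W) (k + 1) Qg.last x).1 - uu W (M * h) (Ψ (M * h) x).1))
    (by positivity) (by positivity) M1.enorm (fun x => norm_add_le _ _) e2' e1
  have e213 := CTc_add (F := fun x => κ • ((∫ s in (0 : ℝ)..M * h, Q2 s (Ψ s x)) -
      ∑ n, Qg.w Qg.last n • Q2 (Qg.τ n) (Ψ (Qg.τ n) x)) +
      (uu W (M * h) (pG Ql Qg κ (uu W) (k + 1) Qg.last x).1 - uu W (M * h) (Ψ (M * h) x).1) +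
      (κ / K) • ∑ n, Qg.w Qg.last n • (K • Q2 (Qg.τ n) (Ψ (Qg.τ n) x) -
        q2 Ql K (uu W) (Qg.τ n) (Ψ (Qg.τ n) x)))
    (by positivity) (by positivity) M3.enorm (fun x => (norm_add_le _ _).trans (by
      rw [norm_smul (κ / K), Real.norm_of_nonneg hκK0]
      gcongr
      exact mul_le_of_le_one_left (norm_nonneg _) hκK)) e21 e3
  have e2134 := CTc_add (F := fun x => κ • ((∫ s in (0 : ℝ)..M * h, Q2 s (Ψ s x)) -
      ∑ n, Qg.w Qg.last n • Q2 (Qg.τ n) (Ψ (Qg.τ n) x)) +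
      (uu W (M * h) (pG Ql Qg κ (uu W) (k + 1) Qg.last x).1 - uu W (M * h) (Ψ (M * h) x).1) +
      (κ / K) • ∑ n, Qg.w Qg.last n • (K • Q2 (Qg.τ n) (Ψ (Qg.τ n) x) -
        q2 Ql K (uu W) (Qg.τ n) (Ψ (Qg.τ n) x)) +
      (κ / K) • ∑ n, Qg.w Qg.last n • (q2 Ql K (uu W) (Qg.τ n) (Ψ (Qg.τ n) x) -
        q2 Ql K (uu W) (Qg.τ n) (pG Ql Qg κ (uu W) (k + 1) n x)))
    (by positivity) (by positivity) M4.enorm (fun x => (norm_add_le _ _).trans (by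
      rw [norm_smul (κ / K), Real.norm_of_nonneg hκK0]
      gcongr
      exact mul_le_of_le_one_left (norm_nonneg _) hκK)) e213 e4
  refine CTc_mono (CTc_mul hκ (fun x => le_of_eq ?_) e2134) ?_
  · rw [← Real.norm_of_nonneg hκ, ← norm_smul, Real.norm_of_nonneg hκ, hz, ← hid x]
    congr 1
    have e5 : (κ / K) • ∑ n, Qg.w Qg.last n • K • Q2 (Qg.τ n) (Ψ (Qg.τ n) x) =
        κ • ∑ n, Qg.w Qg.last n • Q2 (Qg.τ n) (Ψ (Qg.τ n) x) := by
      simp only [Finset.smul_sum, smul_smul]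
      refine Finset.sum_congr rfl fun n _ => ?_
      congr 1
      field_simp
    simp only [cFs, smul_sub, Finset.sum_sub_distrib, smul_add, e5, smul_neg]
    abel
  · have hhk : 0 ≤ h ^ k := by positivity
    have a1 : κ * (C * h ^ (k + 1) * (M * h) * (δ ^ 2 * B)) ≤ δ * (C * Λ ^ 2 * h ^ k) * B := by
      calc κ * (C * h ^ (k + 1) * (M * h) * (δ ^ 2 * B))
          = κ * δ * (δ * (C * (M * h) * h ^ (k + 1)) * B) := by ring
        _ ≤ 1 * (δ * (C * Λ ^ 2 * h ^ k) * B) := by gcongr; linarith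
        _ = _ := one_mul _
    have a2 : δ * (CTc_c3 k C * Λ * h ^ (k + 1) * B) ≤ δ * (CTc_c3 k C * Λ ^ 2 * h ^ k) * B := by
      rw [← mul_assoc]
      gcongr
    have a3 : C * (M * h) * ((1 + 2 * C ^ 2) * CTc_c1 k C * δ * h ^ k * B) ≤
        δ * (C * ((1 + 2 * C ^ 2) * CTc_c1 k C) * Λ ^ 2 * h ^ k) * B := by
      calc C * (M * h) * ((1 + 2 * C ^ 2) * CTc_c1 k C * δ * h ^ k * B)
          = δ * (C * ((1 + 2 * C ^ 2) * CTc_c1 k C) * (M * h) * h ^ k) * B := by ring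
        _ ≤ _ := by gcongr; linarith
    have a4 : C * (M * h) * (16 * C * δ / h * (CTc_c3 k C * Λ * h ^ (k + 1) * B)) ≤
        δ * (16 * C ^ 2 * CTc_c3 k C * Λ ^ 2 * h ^ k) * B := by
      calc C * (M * h) * (16 * C * δ / h * (CTc_c3 k C * Λ * h ^ (k + 1) * B))
          = δ * (16 * C ^ 2 * CTc_c3 k C * ((M * h) * Λ) * h ^ k) * B := by
            field_simp
            ring
        _ ≤ δ * (16 * C ^ 2 * CTc_c3 k C * (Λ * Λ) * h ^ k) * B := by gcongr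
        _ = _ := by ring
    calc _ ≤ κ * (δ * (C * Λ ^ 2 * h ^ k) * B + δ * (CTc_c3 k C * Λ ^ 2 * h ^ k) * B +
          δ * (C * ((1 + 2 * C ^ 2) * CTc_c1 k C) * Λ ^ 2 * h ^ k) * B +
          δ * (16 * C ^ 2 * CTc_c3 k C * Λ ^ 2 * h ^ k) * B) := by gcongr
      _ = _ := by rw [CTc_c4]; ring

end Crest.Agent.R285
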