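import Crest.Agent.R285.Gauss

/-! Row 285: query algorithms and approximate samplers. -/

set_option autoImplicit false

open MeasureTheory ProbabilityTheory Crest.OracleSampling
open scoped ENNReal NNReal

namespace Crest.Agent.R285

/-- Maps computable with a given number of oracle queries. -/
inductive Comp (d : ℕ) (Y : Type) [MeasurableSpace Y] :
    ℕ → (X : Type) → [MeasurableSpace X] → ((E d → ℝ) → X → Y) → Prop
  | pure {X : Type} [MeasurableSpace X] (f : X → Y) (hf : Measurable f) :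
      Comp d Y 0 X fun _ x => f x
  | query {n : ℕ} {X : Type} [MeasurableSpace X] (p : X → E d) (hp : Measurable p)
      (F : (E d → ℝ) → X × Answer d → Y) (h : Comp d Y n (X × Answer d) F) :
      Comp d Y (n + 1) X fun V x => F V (x, oracle V (p x))

/-- A randomized algorithm with `q` queries whose output law is within `e` of `T` in the dual
Lipschitz sense. -/
def Sam (d q : ℕ) (X : Type) [MeasurableSpace X] (T : (E d → ℝ) → X → Measure (E d))
    (e : (E d → ℝ) → X → ℝ) : Prop :=
  ∃ (Ω : Type) (_ : MeasurableSpace Ω) (μ : Measure Ω) (_ : IsProbabilityMeasure μ)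
    (F : (E d → ℝ) → X × Ω → E d), Comp d (E d) q (X × Ω) F ∧
    ∀ V, Admissible d V → ∀ (x : X) (L : ℝ≥0) (f : E d → ℝ≥0∞), LipE L f →
      ∫⁻ ω, f (F V (x, ω)) ∂μ ≤ ∫⁻ y, f y ∂(T V x) + L * ENNReal.ofReal (e V x)

/-- Noisy access to a virtual vector. -/
def Acc (d q : ℕ) (X : Type) [MeasurableSpace X] (v : (E d → ℝ) → X → E d) (σ : ℝ)
    (e : (E d → ℝ) → X → ℝ) : Prop :=
  Sam d q X (fun V x => gauss (v V x) σ) e

variable {d q q' : ℕ} {X X' Y Z : Type} [MeasurableSpace X] [MeasurableSpace X']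
  [MeasurableSpace Y] [MeasurableSpace Z]

theorem LipE.measurable {A : Type*} [PseudoEMetricSpace A] [MeasurableSpace A]
    [OpensMeasurableSpace A] {L : ℝ≥0} {f : A → ℝ≥0∞} (hf : LipE L f) : Measurable f :=
  (continuous_of_le_add_edist L ENNReal.coe_ne_top hf).measurable

theorem lintegral_gauss (v : E d) (σ : ℝ) {f : E d → ℝ≥0∞} (hf : Measurable f) :
    ∫⁻ y, f y ∂(gauss v σ) = ∫⁻ ξ, f (v + σ • ξ) ∂(gam d) :=
  lintegral_map hf (by fun_prop)

theorem comp_measurable_gradient {V : E d → ℝ} (hV : Admissible d V) : Measurable (gradient V) :=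
  (pot_of_admissible hV).contDiff_gradient.continuous.measurable

theorem comp_measurable_oracle {V : E d → ℝ} (hV : Admissible d V) : Measurable (oracle V) :=
  hV.1.continuous.measurable.prodMk (comp_measurable_gradient hV)

theorem Comp.measurable {F : (E d → ℝ) → X → Y} (h : Comp d Y q X F) {V : E d → ℝ}
    (hV : Admissible d V) : Measurable (F V) := by
  induction h with
  | pure f hf => exact hf
  | query p hp F h ih =>
    exact ih.comp (measurable_id.prodMk ((comp_measurable_oracle hV).comp hp))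

theorem Comp.comap {F : (E d → ℝ) → X → Y} (h : Comp d Y q X F) {g : X' → X} (hg : Measurable g) :
    Comp d Y q X' fun V x => F V (g x) := by
  induction h generalizing X' with
  | pure f hf => exact Comp.pure (fun x => f (g x)) (hf.comp hg)
  | query p hp F h ih =>
    exact Comp.query (fun x => p (g x)) (hp.comp hg) _
      (ih (g := fun z : X' × Answer d => (g z.1, z.2))
        ((hg.comp measurable_fst).prodMk measurable_snd))

theorem Comp.succ {F : (E d → ℝ) → X → Y} (h : Comp d Y q X F) : Comp d Y (q + 1) X F :=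
  Comp.query (fun _ => 0) measurable_const _
    (h.comap (g := fun z : X × Answer d => z.1) measurable_fst)

theorem Comp.mono {F : (E d → ℝ) → X → Y} (h : Comp d Y q X F) (hq : q ≤ q') :
    Comp d Y q' X F := by
  induction hq with
  | refl => exact h
  | step _ ih => exact ih.succ

theorem Comp.bind {F : (E d → ℝ) → X → Y} {G : (E d → ℝ) → X × Y → Z} (h : Comp d Y q X F)
    (h' : Comp d Z q' (X × Y) G) : Comp d Z (q + q') X fun V x => G V (x, F V x) := by
  induction h with
  | pure f hf =>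
    rw [Nat.zero_add]
    exact h'.comap (g := fun x => (x, f x)) (measurable_id.prodMk hf)
  | @query n X _ p hp F h ih =>
    rw [Nat.add_right_comm]
    exact Comp.query p hp _ (ih (G := fun V (z : (X × Answer d) × Y) => G V (z.1.1, z.2))
      (h'.comap (g := fun z : (X × Answer d) × Y => (z.1.1, z.2))
        (measurable_fst.fst.prodMk measurable_snd)))

theorem Comp.map {F : (E d → ℝ) → X → Y} (h : Comp d Y q X F) {g : X × Y → Z}
    (hg : Measurable g) : Comp d Z q X fun V x => g (x, F V x) :=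
  h.bind (q' := 0) (Comp.pure g hg)

/-- Transcript of a family of query maps. -/
noncomputable def compTr {X : Type} (Q : (i : ℕ) → X → (Fin i → Answer d) → E d) (V : E d → ℝ)
    (x : X) : (i : ℕ) → (Fin i → Answer d)
  | 0 => Fin.elim0
  | i + 1 => Fin.snoc (compTr Q V x i) (oracle V (Q i x (compTr Q V x i)))

/-- Query maps after prepending one query. -/
def compCons {X : Type} (p : X → E d)
    (Q : (i : ℕ) → X × Answer d → (Fin i → Answer d) → E d) :
    (i : ℕ) → X → (Fin i → Answer d) → E d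
  | 0 => fun x _ => p x
  | i + 1 => fun x a => Q i (x, a 0) (Fin.tail a)

theorem compTr_cons {X : Type} (p : X → E d)
    (Q : (i : ℕ) → X × Answer d → (Fin i → Answer d) → E d) (V : E d → ℝ) (x : X) (i : ℕ) :
    compTr (compCons p Q) V x (i + 1) =
      Fin.cons (oracle V (p x)) (compTr Q V (x, oracle V (p x)) i) := by
  induction i with
  | zero =>
    funext j
    have : j = 0 := Fin.ext (by omega)
    subst this
    rfl
  | succ i ih =>
    rw [compTr, ih, compTr, Fin.cons_snoc_eq_snoc_cons]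
    simp [compCons]

theorem comp_measurable_tail (i : ℕ) :
    Measurable fun z : X × (Fin (i + 1) → Answer d) => ((z.1, z.2 0), Fin.tail z.2) := by
  refine (measurable_fst.prodMk ((measurable_pi_apply 0).comp measurable_snd)).prodMk ?_
  exact measurable_pi_lambda _ fun j => (measurable_pi_apply _).comp measurable_snd

theorem Comp.exists_maps {F : (E d → ℝ) → X → Y} (h : Comp d Y q X F) :
    ∃ (Q : (i : ℕ) → X → (Fin i → Answer d) → E d) (O : X → (Fin q → Answer d) → Y),
      (∀ i, Measurable (Function.uncurry (Q i))) ∧ Measurable (Function.uncurry O) ∧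
        ∀ V x, O x (compTr Q V x q) = F V x := by
  induction h with
  | pure f hf =>
    exact ⟨fun _ _ _ => 0, fun x _ => f x, fun _ => measurable_const, hf.comp measurable_fst,
      fun _ _ => rfl⟩
  | @query n X _ p hp F h ih =>
    obtain ⟨Q, O, hQ, hO, hF⟩ := ih
    refine ⟨compCons p Q, fun x a => O (x, a 0) (Fin.tail a), fun i => ?_,
      hO.comp (comp_measurable_tail n), fun V x => ?_⟩
    · cases i with
      | zero => exact hp.comp measurable_fst
      | succ i => exact (hQ i).comp (comp_measurable_tail i)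
    · simp only [compTr_cons, Fin.cons_zero, Fin.tail_cons, hF]

theorem Comp.exists_alg {F : (E d → ℝ) → X → E d} (h : Comp d (E d) q X F) (μ : Measure X)
    [IsProbabilityMeasure μ] : ∃ A : QueryAlg d q, ∀ V, outputLaw A V = μ.map (F V) := by
  obtain ⟨Q, O, hQ, hO, hF⟩ := h.exists_maps
  refine ⟨⟨X, inferInstance, μ, inferInstance, Q, O, hQ, hO⟩, fun V => ?_⟩
  have h1 : ∀ x i, transcript ⟨X, inferInstance, μ, inferInstance, Q, O, hQ, hO⟩ V x i =
      compTr Q V x i := by
    intro x i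
    induction i with
    | zero => rfl
    | succ i ih => rw [transcript, ih, compTr]
  have h2 : run ⟨X, inferInstance, μ, inferInstance, Q, O, hQ, hO⟩ V = F V := by
    funext x
    rw [run, h1]
    exact hF V x
  rw [outputLaw, h2]

theorem LipE.comp_add {L : ℝ≥0} {f : E d → ℝ≥0∞} (hf : LipE L f) (a : E d) :
    LipE L fun y => f (y + a) := fun x y => by
  simpa only [edist_add_right] using hf (x + a) (y + a)

theorem LipE.comp_add_left {L : ℝ≥0} {f : E d → ℝ≥0∞} (hf : LipE L f) (a : E d) :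
    LipE L fun y => f (a + y) := fun x y => by
  simpa only [edist_add_left] using hf (a + x) (a + y)

theorem LipE.comp_lip {A B : Type*} [PseudoEMetricSpace A] [PseudoEMetricSpace B] {L K : ℝ≥0}
    {f : B → ℝ≥0∞} (hf : LipE L f) {g : A → B} (hg : LipschitzWith K g) :
    LipE (L * K) fun y => f (g y) := fun x y => by
  refine (hf (g x) (g y)).trans ?_
  rw [ENNReal.coe_mul, mul_assoc]
  gcongr
  exact hg x y

theorem LipE.lintegral {A B : Type*} [PseudoEMetricSpace A] [MeasurableSpace B] (ν : Measure B)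
    [IsProbabilityMeasure ν] {L : ℝ≥0} {f : A → B → ℝ≥0∞} (hf : ∀ b, LipE L fun a => f a b) :
    LipE L fun a => ∫⁻ b, f a b ∂ν := fun x y => by
  refine (lintegral_mono fun b => hf b x y).trans ?_
  rw [lintegral_add_right _ measurable_const, lintegral_const, measure_univ, mul_one]

theorem comp_lintegral_gam_abs (a : ℝ) {f : E d → ℝ≥0∞} (hf : Measurable f) :
    ∫⁻ ξ, f (a • ξ) ∂(gam d) = ∫⁻ ξ, f (|a| • ξ) ∂(gam d) := by
  have := lintegral_gam_add a 0 hf
  simpa [Real.sqrt_sq_eq_abs] using this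

theorem comp_lip_gradient {V : E d → ℝ} (hV : Admissible d V) :
    LipschitzWith 2 (gradient V) :=
  LipschitzWith.of_dist_le_mul fun x y => by
    rw [dist_eq_norm, dist_eq_norm]
    exact (pot_of_admissible hV).lip_grad zero_le_one x y

variable {T T' T'' : (E d → ℝ) → X → Measure (E d)} {e e' e'' : (E d → ℝ) → X → ℝ}
  {v v' : (E d → ℝ) → X → E d} {σ σ' : ℝ}

theorem Sam.mono (h : Sam d q X T e) (hq : q ≤ q') (hT : ∀ V, Admissible d V → ∀ x, T V x = T' V x)
    (he : ∀ V, Admissible d V → ∀ x, e V x ≤ e' V x) : Sam d q' X T' e' := by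
  obtain ⟨Ω, mΩ, μ, hμ, F, hF, hb⟩ := h
  refine ⟨Ω, mΩ, μ, hμ, F, hF.mono hq, fun V hV x L f hf => (hb V hV x L f hf).trans ?_⟩
  rw [hT V hV x]
  gcongr
  exact he V hV x

theorem Sam.comap (h : Sam d q X T e) {g : X' → X} (hg : Measurable g) :
    Sam d q X' (fun V x => T V (g x)) fun V x => e V (g x) := by
  obtain ⟨Ω, mΩ, μ, hμ, F, hF, hb⟩ := h
  exact ⟨Ω, mΩ, μ, hμ, fun V z => F V (g z.1, z.2),
    hF.comap (g := fun z : X' × Ω => (g z.1, z.2)) ((hg.comp measurable_fst).prodMk measurable_snd),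
    fun V hV x L f hf => hb V hV (g x) L f hf⟩

/-- A known vector is a proxy for a virtual vector. -/
theorem Acc.crude {w : X → E d} (hw : Measurable w) (v : (E d → ℝ) → X → E d) (σ : ℝ) :
    Acc d 0 X v σ fun V x => ‖w x - v V x‖ := by
  refine ⟨E d, inferInstance, gam d, inferInstance, fun _ z => w z.1 + σ • z.2,
    Comp.pure (fun z : X × E d => w z.1 + σ • z.2) (by fun_prop), fun V _ x L f hf => ?_⟩
  beta_reduce
  rw [lintegral_gauss _ _ hf.measurable]
  have := (LipE.lintegral (gam d) (f := fun a ξ => f (a + σ • ξ))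
    fun ξ => hf.comp_add _) (w x) (v V x)
  rwa [edist_dist, dist_eq_norm] at this

theorem Acc.add_sqrt (h : Acc d q X v σ e) (h' : Acc d q' X v' σ' e')
    (he : ∀ V, Admissible d V → ∀ x, 0 ≤ e V x) (he' : ∀ V, Admissible d V → ∀ x, 0 ≤ e' V x) :
    Acc d (q + q') X (fun V x => v V x + v' V x) √(σ ^ 2 + σ' ^ 2)
      fun V x => e V x + e' V x := by
  obtain ⟨Ω, mΩ, μ, hμ, F, hF, hb⟩ := h
  obtain ⟨Ω', mΩ', μ', hμ', F', hF', hb'⟩ := h'
  have hC : Comp d (E d) (q + q') (X × Ω × Ω')
      fun V z => F V (z.1, z.2.1) + F' V (z.1, z.2.2) := by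
    have h1 := hF.comap (g := fun z : X × Ω × Ω' => (z.1, z.2.1)) (by fun_prop)
    have h2 := (hF'.comap (g := fun z : (X × Ω × Ω') × E d => (z.1.1, z.1.2.2))
      (by fun_prop)).map (g := fun z : ((X × Ω × Ω') × E d) × E d => z.1.2 + z.2) (by fun_prop)
    exact h1.bind h2
  refine ⟨Ω × Ω', inferInstance, μ.prod μ', inferInstance, _, hC, fun V hV x L f hf => ?_⟩
  beta_reduce
  have hm := hf.measurable
  have hmeas : Measurable fun ω : Ω × Ω' => f (F V (x, ω.1) + F' V (x, ω.2)) :=
    hm.comp ((hC.measurable hV).comp (measurable_const.prodMk measurable_id))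
  rw [lintegral_prod _ hmeas.aemeasurable]
  have hΨ : LipE L fun y => ∫⁻ ξ', f (y + (v' V x + σ' • ξ')) ∂(gam d) :=
    LipE.lintegral (gam d) (f := fun y ξ' => f (y + (v' V x + σ' • ξ'))) fun ξ' => hf.comp_add _
  calc ∫⁻ ω, ∫⁻ ω', f (F V (x, ω) + F' V (x, ω')) ∂μ' ∂μ
      ≤ ∫⁻ ω, (∫⁻ ξ', f (F V (x, ω) + (v' V x + σ' • ξ')) ∂(gam d) +
          L * ENNReal.ofReal (e' V x)) ∂μ := by
        refine lintegral_mono fun ω => ?_
        have := hb' V hV x L _ (hf.comp_add_left (F V (x, ω)))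
        rwa [lintegral_gauss _ _ (hf.comp_add_left _).measurable] at this
    _ = ∫⁻ ω, ∫⁻ ξ', f (F V (x, ω) + (v' V x + σ' • ξ')) ∂(gam d) ∂μ +
          L * ENNReal.ofReal (e' V x) := by
        rw [lintegral_add_right _ measurable_const, lintegral_const, measure_univ, mul_one]
    _ ≤ (∫⁻ ξ, ∫⁻ ξ', f (v V x + σ • ξ + (v' V x + σ' • ξ')) ∂(gam d) ∂(gam d) +
          L * ENNReal.ofReal (e V x)) + L * ENNReal.ofReal (e' V x) := by
        gcongr
        have := hb V hV x L _ hΨ
        rwa [lintegral_gauss _ _ hΨ.measurable] at this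
    _ = _ := by
        rw [lintegral_gauss _ _ hm, ENNReal.ofReal_add (he V hV x) (he' V hV x), mul_add,
          add_assoc, ← lintegral_gam_add σ σ' (hf.comp_add_left (v V x + v' V x)).measurable]
        simp only [add_add_add_comm (v V x) _ (v' V x)]

theorem Acc.mono (h : Acc d q X v σ e) (hq : q ≤ q') (hv : ∀ V, Admissible d V → ∀ x, v V x = v' V x)
    (hσ : 0 ≤ σ) (hσ' : σ ≤ σ') (he : ∀ V, Admissible d V → ∀ x, e V x ≤ e' V x) :
    Acc d q' X v' σ' e' := by
  have h0 : Acc d q X v σ fun V x => max (e V x) 0 :=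
    Sam.mono h le_rfl (fun _ _ _ => rfl) fun _ _ _ => le_max_left _ _
  have h1 := h0.add_sqrt (Acc.crude (w := fun _ => 0) measurable_const (fun _ _ => 0)
    √(σ' ^ 2 - σ ^ 2)) (fun _ _ _ => le_max_right _ _) fun _ _ _ => norm_nonneg _
  have h2 : √(σ ^ 2 + √(σ' ^ 2 - σ ^ 2) ^ 2) = σ' := by
    rw [Real.sq_sqrt (by nlinarith), add_sub_cancel, Real.sqrt_sq (hσ.trans hσ')]
  rw [h2] at h1
  obtain ⟨Ω, mΩ, μ, hμ, F, hF, hb⟩ := h1
  refine ⟨Ω, mΩ, μ, hμ, F, hF.mono hq, fun V hV x L f hf => (hb V hV x L f hf).trans ?_⟩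
  simp only [add_zero, sub_self, norm_zero, hv V hV x, ENNReal.ofReal_max, ENNReal.ofReal_zero,
    zero_le, max_eq_left]
  gcongr
  exact he V hV x

theorem Acc.comap (h : Acc d q X v σ e) {g : X' → X} (hg : Measurable g) :
    Acc d q X' (fun V x => v V (g x)) σ fun V x => e V (g x) :=
  Sam.comap h hg

theorem Acc.add (h : Acc d q X v σ e) (h' : Acc d q' X v' σ' e') (hσ : 0 ≤ σ) (hσ' : 0 ≤ σ')
    (he : ∀ V, Admissible d V → ∀ x, 0 ≤ e V x) (he' : ∀ V, Admissible d V → ∀ x, 0 ≤ e' V x) :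
    Acc d (q + q') X (fun V x => v V x + v' V x) (σ + σ') fun V x => e V x + e' V x := by
  refine (h.add_sqrt h' he he').mono le_rfl (fun _ _ _ => rfl) (Real.sqrt_nonneg _) ?_
    fun _ _ _ => le_rfl
  rw [Real.sqrt_le_left (add_nonneg hσ hσ')]
  nlinarith [mul_nonneg hσ hσ']

theorem Acc.smul (h : Acc d q X v σ e) (c : ℝ) :
    Acc d q X (fun V x => c • v V x) (|c| * σ) fun V x => |c| * e V x := by
  obtain ⟨Ω, mΩ, μ, hμ, F, hF, hb⟩ := h
  refine ⟨Ω, mΩ, μ, hμ, fun V z => c • F V z,
    hF.map (g := fun z : (X × Ω) × E d => c • z.2) (by fun_prop), fun V hV x L f hf => ?_⟩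
  beta_reduce
  have hl : LipE (L * ‖c‖₊) fun y => f (c • y) := hf.comp_lip (lipschitzWith_smul c)
  refine (hb V hV x _ _ hl).trans (le_of_eq ?_)
  have hm := (hf.comp_add_left (c • v V x)).measurable
  rw [lintegral_gauss _ _ hl.measurable, lintegral_gauss _ _ hf.measurable,
    comp_lintegral_gam_abs _ hm, ENNReal.ofReal_mul (abs_nonneg c), ENNReal.coe_mul, mul_assoc]
  simp only [smul_add, smul_smul]
  rw [comp_lintegral_gam_abs _ hm, abs_mul, abs_mul, abs_abs, ← Real.norm_eq_abs c,
    ofReal_norm]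
  rfl

/-- The one-sample estimator of a mean gradient. -/
theorem Acc.grad (h : Acc d q X v σ e) (he : ∀ V, Admissible d V → ∀ x, 0 ≤ e V x)
    (he' : ∀ V, Admissible d V → ∀ x, 0 ≤ e' V x)
    (hv' : ∀ V, Admissible d V → ∀ x,
      ∫⁻ ξ, ‖gradient V (v V x + σ • ξ) - v' V x‖ₑ ∂(gam d) ≤ ENNReal.ofReal (e' V x)) (σ' : ℝ) :
    Acc d (q + 1) X v' σ' fun V x => 2 * e V x + e' V x := by
  obtain ⟨Ω, mΩ, μ, hμ, F, hF, hb⟩ := h
  have hC : Comp d (E d) (q + 1) (X × E d × Ω)
      fun V z => gradient V (F V (z.1, z.2.2)) + σ' • z.2.1 := by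
    have h1 := hF.comap (g := fun z : X × E d × Ω => (z.1, z.2.2)) (by fun_prop)
    have h2 : Comp d (E d) (0 + 1) ((X × E d × Ω) × E d)
        fun V z => gradient V z.2 + σ' • z.1.2.1 :=
      Comp.query (fun z : (X × E d × Ω) × E d => z.2) measurable_snd _
        (Comp.pure (fun z : ((X × E d × Ω) × E d) × Answer d => z.2.2 + σ' • z.1.1.2.1)
          (by fun_prop))
    exact h1.bind h2
  refine ⟨E d × Ω, inferInstance, (gam d).prod μ, inferInstance, _, hC, fun V hV x L f hf => ?_⟩
  beta_reduce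
  have hm := hf.measurable
  have hmeas : Measurable fun ω : E d × Ω => f (gradient V (F V (x, ω.2)) + σ' • ω.1) :=
    hm.comp ((hC.measurable hV).comp (measurable_const.prodMk measurable_id))
  rw [lintegral_prod _ hmeas.aemeasurable, lintegral_gauss _ _ hm]
  have hg := comp_measurable_gradient hV
  calc ∫⁻ ξ', ∫⁻ ω, f (gradient V (F V (x, ω)) + σ' • ξ') ∂μ ∂(gam d)
      ≤ ∫⁻ ξ', (f (v' V x + σ' • ξ') + L * ENNReal.ofReal (2 * e V x + e' V x)) ∂(gam d) := by
        refine lintegral_mono fun ξ' => ?_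
        have hl : LipE (L * 2) fun y => f (gradient V y + σ' • ξ') :=
          (hf.comp_add (σ' • ξ')).comp_lip (comp_lip_gradient hV)
        refine (hb V hV x _ _ hl).trans ?_
        rw [lintegral_gauss _ _ hl.measurable]
        have h1 : ∫⁻ ξ, f (gradient V (v V x + σ • ξ) + σ' • ξ') ∂(gam d) ≤
            f (v' V x + σ' • ξ') + L * ENNReal.ofReal (e' V x) := by
          refine (lintegral_mono fun ξ => (hf.comp_add (σ' • ξ')) _ (v' V x)).trans ?_
          rw [lintegral_add_left measurable_const, lintegral_const, measure_univ, mul_one,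
            lintegral_const_mul' _ _ ENNReal.coe_ne_top]
          simp only [edist_eq_enorm_sub]
          gcongr
          exact hv' V hV x
        refine (add_le_add h1 le_rfl).trans (le_of_eq ?_)
        rw [ENNReal.ofReal_add (by linarith [he V hV x]) (he' V hV x),
          ENNReal.ofReal_mul zero_le_two]
        simp only [ENNReal.coe_mul, ENNReal.coe_ofNat, ENNReal.ofReal_ofNat]
        ring
    _ = _ := by
        rw [lintegral_add_right _ measurable_const, lintegral_const, measure_univ, mul_one]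

/-- Sample `y`, then an independent standard Gaussian `g`, then run a second sampler. -/
theorem Sam.bind2 (h : Sam d q X T e) {S : (E d → ℝ) → X × E d × E d → Measure (E d)}
    {s : (E d → ℝ) → X × E d × E d → ℝ} (h' : Sam d q' (X × E d × E d) S s) (Λ : ℝ≥0)
    (he : ∀ V, Admissible d V → ∀ x, 0 ≤ e V x) (he' : ∀ V, Admissible d V → ∀ x, 0 ≤ e' V x)
    (hlip : ∀ V, Admissible d V → ∀ (x : X) (L : ℝ≥0) (f : E d → ℝ≥0∞), LipE L f → ∀ g,
      LipE (L * Λ) fun y => ∫⁻ w, f w ∂(S V (x, y, g)) + L * ENNReal.ofReal (s V (x, y, g)))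
    (hT : ∀ V, Admissible d V → ∀ (x : X) (L : ℝ≥0) (f : E d → ℝ≥0∞), LipE L f →
      ∫⁻ y, ∫⁻ g, (∫⁻ w, f w ∂(S V (x, y, g)) + L * ENNReal.ofReal (s V (x, y, g))) ∂(gam d)
        ∂(T V x) ≤ ∫⁻ w, f w ∂(T' V x) + L * ENNReal.ofReal (e' V x)) :
    Sam d (q + q') X T' fun V x => e' V x + Λ * e V x := by
  obtain ⟨Ω, mΩ, μ, hμ, F, hF, hb⟩ := h
  obtain ⟨Ω', mΩ', μ', hμ', F', hF', hb'⟩ := h'
  have hC : Comp d (E d) (q + q') (X × Ω × E d × Ω')
      fun V z => F' V ((z.1, F V (z.1, z.2.1), z.2.2.1), z.2.2.2) := by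
    have h1 := hF.comap (g := fun z : X × Ω × E d × Ω' => (z.1, z.2.1)) (by fun_prop)
    have h2 := hF'.comap (g := fun z : (X × Ω × E d × Ω') × E d =>
      ((z.1.1, z.2, z.1.2.2.1), z.1.2.2.2)) (by fun_prop)
    exact h1.bind h2
  refine ⟨Ω × E d × Ω', inferInstance, μ.prod ((gam d).prod μ'), inferInstance, _, hC,
    fun V hV x L f hf => ?_⟩
  beta_reduce
  have hm := hf.measurable
  have hmeas : Measurable fun ω : Ω × E d × Ω' =>
      f (F' V ((x, F V (x, ω.1), ω.2.1), ω.2.2)) :=
    hm.comp ((hC.measurable hV).comp (measurable_const.prodMk measurable_id))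
  rw [lintegral_prod _ hmeas.aemeasurable]
  have hΨ := LipE.lintegral (gam d) (f := fun y g => ∫⁻ w, f w ∂(S V (x, y, g)) +
    L * ENNReal.ofReal (s V (x, y, g))) (hlip V hV x L f hf)
  refine le_trans ?_ ((hb V hV x _ _ hΨ).trans ?_)
  · refine lintegral_mono fun ω => ?_
    have hm2 : Measurable fun y : E d × Ω' => f (F' V ((x, F V (x, ω), y.1), y.2)) :=
      hmeas.comp (measurable_const.prodMk measurable_id)
    dsimp only
    rw [lintegral_prod _ hm2.aemeasurable]
    exact lintegral_mono fun g => hb' V hV _ L f hf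
  · refine (add_le_add (hT V hV x L f hf) le_rfl).trans (le_of_eq ?_)
    rw [ENNReal.ofReal_add (he' V hV x) (mul_nonneg Λ.coe_nonneg (he V hV x)),
      ENNReal.ofReal_mul Λ.coe_nonneg, ENNReal.ofReal_coe_nnreal, ENNReal.coe_mul]
    ring

end Crest.Agent.R285
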