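import Crest.Agent.R285.CumulAux1

/-! Row 285: the algebraic part of the cumulant bound. -/

set_option autoImplicit false

namespace Crest.Agent.R285.CumulAux

open Hur

/-- An abstract probability space with a Poincaré inequality. -/
structure Ctx (I R : Type) [Fintype I] [DecidableEq I] [CommRing R] [Algebra ℝ R] where
  /-- expectation -/
  E : R →ₗ[ℝ] ℝ
  /-- coordinates -/
  x : I → R
  /-- the vector field -/
  Y : I → R
  /-- its Jacobian -/
  H : I → I → R
  /-- `f` has partial derivatives `f'` -/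
  HD : R → (I → R) → Prop
  /-- squared bound on the Jacobian -/
  δ2 : ℝ
  /-- inverse of the moment generating function -/
  a : Hur I ℝ
  /-- the tilted mean of the vector field -/
  κ : I → Hur I ℝ
  δ2_nonneg : 0 ≤ δ2
  E_one : E 1 = 1
  E_sq : ∀ f, 0 ≤ E (f * f)
  hd_const : ∀ c : ℝ, HD (algebraMap ℝ R c) fun _ => 0
  hd_add : ∀ f f' g g', HD f f' → HD g g' → HD (f + g) fun l => f' l + g' l
  hd_mul : ∀ f f' g g', HD f f' → HD g g' → HD (f * g) fun l => f' l * g + f * g' l
  hd_x : ∀ k, HD (x k) fun l => if k = l then 1 else 0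
  hd_Y : ∀ k, HD (Y k) (H k)
  poinc : ∀ f f', HD f f' → E f = 0 → E (f * f) ≤ ∑ l, E (f' l * f' l)
  hess : ∀ u : I → R, ∑ l, E ((∑ k, H k l * u k) * ∑ k, H k l * u k) ≤ δ2 * ∑ k, E (u k * u k)
  ha : a * mapE E.toAddMonoidHom (ex x) = 1
  hκ : ∀ k, κ k * mapE E.toAddMonoidHom (ex x) = mapE E.toAddMonoidHom (C (Y k) * ex x)

namespace Ctx

variable {I R : Type} [Fintype I] [DecidableEq I] [CommRing R] [Algebra ℝ R] (c : Ctx I R)

/-- Scalar series as series of random variables. -/
noncomputable def io (I R : Type) [CommRing R] [Algebra ℝ R] : Hur I ℝ →+* Hur I R :=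
  Hur.map (algebraMap ℝ R)

/-- Coefficientwise expectation. -/
noncomputable def EE : Hur I R →+ Hur I ℝ := mapE c.E.toAddMonoidHom

/-- Appell polynomials. -/
noncomputable def P : Hur I R := io I R c.a * ex c.x

/-- Wick-ordered products of the vector field with monomials. -/
noncomputable def Q (k : I) : Hur I R := (C (c.Y k) - io I R (c.κ k)) * c.P

lemma E_mul (r : ℝ) (f : R) : c.E (algebraMap ℝ R r * f) = r * c.E f := by
  rw [← Algebra.smul_def, map_smul, smul_eq_mul]

lemma EE_mul (r : Hur I ℝ) (F : Hur I R) : c.EE (io I R r * F) = r * c.EE F :=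
  mapE_mul _ _ c.E_mul r F

lemma EE_apply (F : Hur I R) (s : Multiset I) : c.EE F s = c.E (F s) := rfl

lemma ha' : c.a * c.EE (ex c.x) = 1 := c.ha

lemma hκ' (k : I) : c.κ k * c.EE (ex c.x) = c.EE (C (c.Y k) * ex c.x) := c.hκ k

lemma EE_P : c.EE c.P = 1 := by rw [P, EE_mul, ha']

lemma EE_Q (k : I) : c.EE (c.Q k) = 0 := by
  have : c.Q k = io I R c.a * (C (c.Y k) * ex c.x) - io I R (c.κ k) * c.P := by
    rw [Q, sub_mul]; congr 1; rw [P]; ring
  rw [this, map_sub, EE_mul, EE_mul, EE_P, ← hκ', mul_left_comm, ha', sub_self]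

lemma P_zero : c.P 0 = 1 := by
  have h := congrFun c.ha' 0
  rw [mul_apply_zero, EE_apply, ex_zero, c.E_one, mul_one, one_apply_zero] at h
  rw [P, mul_apply_zero, ex_zero, mul_one, io, map_apply, h, map_one]

/-- Coefficientwise derivatives. -/
def HDH (F : Hur I R) (F' : I → Hur I R) : Prop := ∀ s, c.HD (F s) fun l => F' l s

variable {c}

lemma HDH.add {F G : Hur I R} {F' G' : I → Hur I R} (hF : c.HDH F F') (hG : c.HDH G G') :
    c.HDH (F + G) fun l => F' l + G' l := fun s => c.hd_add _ _ _ _ (hF s) (hG s)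

lemma HDH.mul {F G : Hur I R} {F' G' : I → Hur I R} (hF : c.HDH F F') (hG : c.HDH G G') :
    c.HDH (F * G) fun l => F' l * G + F * G' l := by
  intro s
  induction s using Multiset.induction_on generalizing F G F' G' with
  | empty => simpa using c.hd_mul _ _ _ _ (hF 0) (hG 0)
  | cons a s ih =>
    have h1 := ih (F := D a F) (F' := fun l => D a (F' l)) (fun s => hF (a ::ₘ s)) hG
    have h2 := ih (G := D a G) (G' := fun l => D a (G' l)) hF (fun s => hG (a ::ₘ s))
    have := c.hd_add _ _ _ _ h1 h2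
    rw [mul_cons]
    convert this using 2
    simp only [Hur.add_apply, mul_cons]
    ring

variable (c)

lemma hdh_io (r : Hur I ℝ) : c.HDH (io I R r) fun _ => 0 := fun s => c.hd_const (r s)

lemma hd_zero : c.HD 0 fun _ => 0 := by simpa using c.hd_const 0

lemma hdh_Y (k : I) : c.HDH (C (c.Y k)) fun l => C (c.H k l) := fun s => by
  by_cases hs : s = 0
  · subst hs; simpa only [C_apply_zero] using c.hd_Y k
  · simpa only [C_apply_ne _ hs] using c.hd_zero

lemma hdh_ex : c.HDH (ex c.x) fun l => lam l * ex c.x := fun s => by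
  induction s using Multiset.induction_on with
  | empty => simpa only [lam_mul_zero, ex_zero, map_one] using c.hd_const 1
  | cons a s ih =>
    have := c.hd_mul _ _ _ _ (c.hd_x a) ih
    rw [ex_cons]
    convert this using 2 with l
    beta_reduce
    rw [lam_mul_cons, D_ex, mul_left_comm, C_mul_apply]
    split_ifs <;> simp

lemma hdh_P : c.HDH c.P fun l => lam l * c.P := by
  have := (c.hdh_io c.a).mul c.hdh_ex
  have e : (fun l => lam l * c.P) = fun l => 0 * ex c.x + io I R c.a * (lam l * ex c.x) :=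
    funext fun l => by rw [P]; ring
  rw [e]; exact this

lemma hdh_Q (k : I) : c.HDH (c.Q k) fun l => C (c.H k l) * c.P + lam l * c.Q k := by
  have := ((c.hdh_Y k).add (c.hdh_io (-c.κ k))).mul c.hdh_P
  rw [map_neg, ← sub_eq_add_neg] at this
  have e : (fun l => C (c.H k l) * c.P + lam l * c.Q k) = fun l =>
      (C (c.H k l) + 0) * c.P + (C (c.Y k) - io I R (c.κ k)) * (lam l * c.P) :=
    funext fun l => by rw [Q]; ring
  rw [e]; exact this

lemma hd_sum {X : Type} (T : Finset X) (A : X → ℝ) (F : X → R) (F' : X → I → R)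
    (h : ∀ p, c.HD (F p) (F' p)) : c.HD (∑ p ∈ T, A p • F p) fun l => ∑ p ∈ T, A p • F' p l := by
  classical
  induction T using Finset.induction_on with
  | empty => simpa using c.hd_zero
  | insert p T hp ih =>
    simp only [Finset.sum_insert hp]
    refine c.hd_add _ _ _ _ ?_ ih
    simpa [Algebra.smul_def] using c.hd_mul _ _ _ _ (c.hd_const (A p)) (h p)

/-- The second moment. -/
def q (f : R) : ℝ := c.E (f * f)

lemma q_nonneg (f : R) : 0 ≤ c.q f := c.E_sq f

lemma two_mul_le (f g : R) : 2 * c.E (f * g) ≤ c.q f + c.q g := by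
  have := c.E_sq (f - g)
  rw [show (f - g) * (f - g) = f * f + g * g - f * g - f * g by ring] at this
  simp only [map_sub, map_add] at this
  simp only [q]; linarith

lemma q_add (f g : R) : c.q (f + g) ≤ 2 * c.q f + 2 * c.q g := by
  have := c.two_mul_le f g
  simp only [q] at this ⊢
  rw [show (f + g) * (f + g) = f * f + g * g + f * g + f * g by ring]
  simp only [map_add]; linarith

lemma q_sum {X : Type} (T : Finset X) (f : X → R) :
    c.q (∑ p ∈ T, f p) ≤ T.card * ∑ p ∈ T, c.q (f p) := by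
  have : 2 * c.q (∑ p ∈ T, f p) ≤ ∑ p ∈ T, ∑ p' ∈ T, (c.q (f p) + c.q (f p')) := by
    rw [q, Finset.sum_mul_sum]
    simp only [map_sum, Finset.mul_sum]
    exact Finset.sum_le_sum fun p _ => Finset.sum_le_sum fun p' _ => c.two_mul_le _ _
  simp only [Finset.sum_add_distrib, Finset.sum_const, nsmul_eq_mul, ← Finset.mul_sum] at this
  linarith

lemma cs (f g : R) : c.E (f * g) ^ 2 ≤ c.q f * c.q g := by
  have key := discrim_le_zero (a := c.q f) (b := 2 * c.E (f * g)) (c := c.q g) fun s => by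
    have := c.E_sq (s • f + g)
    rw [show (s • f + g) * (s • f + g) = (s * s) • (f * f) + s • (f * g) + s • (f * g) + g * g by
      simp only [Algebra.smul_def, map_mul]; ring] at this
    simp only [map_add, map_smul, smul_eq_mul] at this
    simp only [q]; linarith
  rw [discrim] at key
  nlinarith

/-- `L²` bound for linear combinations of a family. -/
def L2 {X : Type} [Fintype X] (B : ℝ) (F : X → R) : Prop :=
  ∀ A : X → ℝ, c.q (∑ p, A p • F p) ≤ B * ∑ p, A p ^ 2

variable {c} in
lemma L2.mono {X : Type} [Fintype X] {B B' : ℝ} {F : X → R} (h : c.L2 B F) (hB : B ≤ B') :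
    c.L2 B' F := fun A =>
  (h A).trans (mul_le_mul_of_nonneg_right hB (Finset.sum_nonneg fun _ _ => sq_nonneg _))

variable {c} in
lemma L2.op {X Y : Type} [Fintype X] [Fintype Y] {B B' : ℝ} {F : X → R} {G : Y → R}
    (h : c.L2 B F) (h' : c.L2 B' G) (hB : 0 ≤ B) (hB' : 0 ≤ B') :
    Op (B * B') fun x y => c.E (F x * G y) := by
  refine Op.of_bilin (mul_nonneg hB hB') fun f g => ?_
  have e : ∑ y, (∑ x, c.E (F x * G y) * f x) * g y = c.E ((∑ x, f x • F x) * ∑ y, g y • G y) := by
    rw [Finset.sum_mul_sum, Finset.sum_comm]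
    simp only [map_sum, Finset.sum_mul, smul_mul_smul_comm, map_smul, smul_eq_mul]
    exact Finset.sum_congr rfl fun y _ => Finset.sum_congr rfl fun x _ => by ring
  rw [e]
  refine (c.cs _ _).trans ((mul_le_mul (h f) (h' g) (c.q_nonneg _)
    (mul_nonneg hB (Finset.sum_nonneg fun _ _ => sq_nonneg _))).trans (le_of_eq (by ring)))

lemma step {X : Type} [Fintype X] (F : X → Hur I R) (G : X → I → Hur I R)
    (hD : ∀ k, c.HDH (F k) fun l => G k l + lam l * F k) {σ : Type} [Fintype σ] [DecidableEq σ]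
    (hE : ∀ k (i : σ → I), c.E (F k (ms i)) = 0) {g B : ℝ}
    (hG : ∀ A : X × (σ → I) → ℝ, ∑ l, c.q (∑ p, A p • G p.1 l (ms p.2)) ≤ g * ∑ p, A p ^ 2)
    (hc : ∀ a : σ, c.L2 B fun p : X × ({b // b ≠ a} → I) => F p.1 (ms p.2)) :
    c.L2 (2 * g + 2 * (Fintype.card σ : ℝ) ^ 2 * B) fun p : X × (σ → I) => F p.1 (ms p.2) := by
  intro A
  have h1 := c.poinc _ _ (c.hd_sum Finset.univ A (fun p : X × (σ → I) => F p.1 (ms p.2)) _
    fun p => hD p.1 (ms p.2)) (by simp [hE])
  let Z : σ → I → R := fun a l => ∑ p : X × ({b // b ≠ a} → I),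
    A (p.1, (Equiv.funSplitAt a I).symm (l, p.2)) • F p.1 (ms p.2)
  have e1 : ∀ l, ∑ p : X × (σ → I), A p • (G p.1 l + lam l * F p.1 : Hur I R) (ms p.2) =
      ∑ p : X × (σ → I), A p • G p.1 l (ms p.2) + ∑ a, Z a l := by
    intro l
    simp only [Hur.add_apply, smul_add, Finset.sum_add_distrib]
    congr 1
    simp only [ms_eq (σ := σ), lam_slots, Finset.smul_sum]
    rw [Finset.sum_comm]
    refine Finset.sum_congr rfl fun a _ => ?_
    simp only [Z, Fintype.sum_prod_type]
    refine Finset.sum_congr rfl fun k _ => ?_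
    rw [← (Equiv.funSplitAt a I).symm.sum_comp, Fintype.sum_prod_type, Finset.sum_comm]
    refine Finset.sum_congr rfl fun i' _ => ?_
    rw [Finset.sum_eq_single l]
    · rw [if_pos (by simp), ← Finset.filter_ne', ← ms_subtype]
      congr 3
      funext b
      simp [b.2]
    · intro l' _ hl'
      rw [if_neg (by simpa using hl'), smul_zero]
    · simp
  have e2 : ∀ a, ∑ l, c.q (Z a l) ≤ B * ∑ p, A p ^ 2 := by
    intro a
    refine (Finset.sum_le_sum fun l _ => hc a _).trans (le_of_eq ?_)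
    rw [← Finset.mul_sum]
    congr 1
    simp only [Fintype.sum_prod_type]
    rw [Finset.sum_comm]
    refine Finset.sum_congr rfl fun k _ => ?_
    rw [← (Equiv.funSplitAt a I).symm.sum_comp, Fintype.sum_prod_type]
  refine h1.trans ?_
  simp only [e1]
  calc _ ≤ ∑ l, (2 * c.q (∑ p : X × (σ → I), A p • G p.1 l (ms p.2)) +
        2 * (Fintype.card σ * ∑ a, c.q (Z a l))) :=
        Finset.sum_le_sum fun l _ => (c.q_add _ _).trans (by
          have := c.q_sum Finset.univ fun a => Z a l
          rw [Finset.card_univ] at this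
          linarith)
    _ = 2 * ∑ l, c.q (∑ p : X × (σ → I), A p • G p.1 l (ms p.2)) +
        2 * (Fintype.card σ * ∑ a, ∑ l, c.q (Z a l)) := by
        rw [Finset.sum_add_distrib, ← Finset.mul_sum, ← Finset.mul_sum, ← Finset.mul_sum,
          Finset.sum_comm]
    _ ≤ 2 * (g * ∑ p, A p ^ 2) + 2 * (Fintype.card σ * ∑ _a : σ, B * ∑ p, A p ^ 2) := by
        gcongr with a
        · exact hG A
        · exact e2 a
    _ = _ := by rw [Finset.sum_const, Finset.card_univ, nsmul_eq_mul]; ring

end Ctx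

/-- Constants for the Appell polynomials. -/
noncomputable def cP : ℕ → ℝ
  | 0 => 1
  | n + 1 => 1 + 2 * ((n : ℝ) + 1) ^ 2 * cP n

lemma one_le_cP : ∀ n, 1 ≤ cP n
  | 0 => le_rfl
  | n + 1 => by
    have := one_le_cP n
    rw [cP]
    have : 0 ≤ 2 * ((n : ℝ) + 1) ^ 2 * cP n := by positivity
    linarith

/-- Constants for the Wick products. -/
noncomputable def cQ : ℕ → ℝ
  | 0 => 0
  | n + 1 => 2 * cP n + 2 * (n : ℝ) ^ 2 * cQ n

lemma cQ_nonneg : ∀ n, 0 ≤ cQ n
  | 0 => le_rfl
  | n + 1 => by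
    have := one_le_cP n
    have := cQ_nonneg n
    rw [cQ]
    positivity

/-- Constants for the cumulants. -/
noncomputable def cD : ℕ → ℝ
  | 0 => 0
  | n + 1 => 2 * (cQ (n + 1) * cP n) + 2 * ((2 ^ n) ^ 2 * (cD n * (cP n * cP n)))

lemma cD_nonneg : ∀ n, 0 ≤ cD n
  | 0 => le_rfl
  | n + 1 => by
    have := one_le_cP n
    have := cQ_nonneg (n + 1)
    have := cD_nonneg n
    rw [cD]
    positivity

namespace Ctx

variable {I R : Type} [Fintype I] [DecidableEq I] [CommRing R] [Algebra ℝ R] (c : Ctx I R)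

lemma card_ne {σ : Type} [Fintype σ] [DecidableEq σ] (a : σ) :
    Fintype.card {b // b ≠ a} + 1 = Fintype.card σ := by
  have : 0 < Fintype.card σ := Fintype.card_pos_iff.2 ⟨a⟩
  simp only [ne_eq, Fintype.card_subtype_compl, Fintype.card_unique]
  omega

lemma L2_P' (n : ℕ) : ∀ (σ : Type) [Fintype σ] [DecidableEq σ], Fintype.card σ ≤ n →
    c.L2 (cP n) fun p : Unit × (σ → I) => c.P (ms p.2) := by
  have base : ∀ (σ : Type) [Fintype σ] [DecidableEq σ] [IsEmpty σ],
      c.L2 1 fun p : Unit × (σ → I) => c.P (ms p.2) := by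
    intro σ _ _ _ A
    simp [Fintype.sum_prod_type, ms_empty, P_zero, q, c.E_one, sq]
  induction n with
  | zero =>
    intro σ _ _ h
    have : IsEmpty σ := Fintype.card_eq_zero_iff.1 (by omega)
    exact base σ
  | succ n ih =>
    intro σ _ _ h
    rcases isEmpty_or_nonempty σ with h0 | h0
    · exact (base σ).mono (one_le_cP _)
    · have := c.step (fun _ : Unit => c.P) (fun _ _ => 0) (fun _ => by simpa using c.hdh_P)
        (σ := σ) (g := 0) (B := cP n) (fun _ i => by
          rw [← EE_apply, EE_P, one_apply_ne]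
          obtain ⟨a⟩ := h0
          exact fun e => by simpa [e] using (mem_ms i (i a)).2 ⟨a, rfl⟩)
        (fun A => by simp [q]) fun a => ih _ (by have := card_ne a; omega)
      refine this.mono ?_
      have h1 : (Fintype.card σ : ℝ) ≤ n + 1 := by exact_mod_cast h
      have h2 := one_le_cP n
      rw [cP]
      have : 2 * (Fintype.card σ : ℝ) ^ 2 * cP n ≤ 2 * ((n : ℝ) + 1) ^ 2 * cP n := by gcongr
      linarith

lemma L2_P {n : ℕ} (σ : Type) [Fintype σ] [DecidableEq σ] (h : Fintype.card σ ≤ n) :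
    c.L2 (cP n) fun i : σ → I => c.P (ms i) := by
  intro A
  simpa [Fintype.sum_prod_type] using c.L2_P' n σ h fun p => A p.2

lemma L2_Q (n : ℕ) : ∀ (σ : Type) [Fintype σ] [DecidableEq σ], Fintype.card σ < n →
    c.L2 (cQ n * c.δ2) fun p : I × (σ → I) => c.Q p.1 (ms p.2) := by
  induction n with
  | zero => intro σ _ _ h; omega
  | succ n ih =>
    intro σ _ _ h
    have hδ := c.δ2_nonneg
    have := c.step c.Q (fun k l => C (c.H k l) * c.P) c.hdh_Q (σ := σ) (g := cP n * c.δ2)
      (B := cQ n * c.δ2) (fun k i => by rw [← EE_apply, EE_Q]; rfl) (fun A => by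
        have h1 := c.hess fun k => ∑ i : σ → I, A (k, i) • c.P (ms i)
        have h2 : ∑ k, c.q (∑ i : σ → I, A (k, i) • c.P (ms i)) ≤ cP n * ∑ p, A p ^ 2 := by
          rw [Fintype.sum_prod_type, Finset.mul_sum]
          exact Finset.sum_le_sum fun k _ => c.L2_P σ (by omega) fun i => A (k, i)
        have e : ∀ l, ∑ p : I × (σ → I), A p • (C (c.H p.1 l) * c.P : Hur I R) (ms p.2) =
            ∑ k, c.H k l * ∑ i : σ → I, A (k, i) • c.P (ms i) := by
          intro l
          simp only [Fintype.sum_prod_type, C_mul_apply, Finset.mul_sum, mul_smul_comm]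
        simp only [e]
        refine h1.trans ((mul_le_mul_of_nonneg_left h2 hδ).trans (le_of_eq (by ring))))
      fun a => ih _ (by have := card_ne a; omega)
    refine this.mono ?_
    have h1 : (Fintype.card σ : ℝ) ≤ n := by exact_mod_cast Nat.lt_succ_iff.1 h
    have h2 := cQ_nonneg n
    rw [cQ]
    have : 2 * (Fintype.card σ : ℝ) ^ 2 * (cQ n * c.δ2) ≤ 2 * (n : ℝ) ^ 2 * (cQ n * c.δ2) := by
      gcongr
    linarith

/-- The increments `κ(η₁ + η₂) - κ(η₁)`. -/
noncomputable def Δ (k : I) : Hur I (Hur I ℝ) := add2 (c.κ k) - Hur.map C (c.κ k)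

/-- The kernel `E e_{η₁} e_{η₂}`. -/
noncomputable def K : Hur I (Hur I ℝ) := fun s s' => c.E (c.P s * c.P s')

lemma key_identity (k : I) (s s' : Multiset I) :
    c.E (c.Q k s * c.P s') = (c.Δ k * c.K : Hur I (Hur I ℝ)) s s' := by
  let E2 : Hur I (Hur I R) →+ Hur I (Hur I ℝ) := mapE c.EE
  let i2 : Hur I (Hur I ℝ) →+* Hur I (Hur I R) := Hur.map (io I R)
  have hE2 : ∀ r F, E2 (i2 r * F) = r * E2 F := mapE_mul _ _ c.EE_mul
  have hL : ∀ r : Hur I ℝ, Hur.map C (io I R r) = i2 (Hur.map C r) := fun r =>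
    Hur.ext fun s => Hur.ext fun s' => by
      change (C (algebraMap ℝ R (r s)) : Hur I R) s' = algebraMap ℝ R ((C (r s) : Hur I ℝ) s')
      by_cases hs : s' = 0
      · subst hs; rw [C_apply_zero, C_apply_zero]
      · rw [C_apply_ne _ hs, C_apply_ne _ hs, map_zero]
  have hR : ∀ r : Hur I ℝ, C (io I R r) = i2 (C r) := fun r =>
    Hur.ext fun s => by
      change (C (io I R r) : Hur I (Hur I R)) s = io I R ((C r : Hur I (Hur I ℝ)) s)
      by_cases hs : s = 0
      · subst hs; rw [C_apply_zero, C_apply_zero]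
      · rw [C_apply_ne _ hs, C_apply_ne _ hs, map_zero]
  have hA : ∀ F : Hur I R, E2 (add2 F) = add2 (c.EE F) := fun F => rfl
  have hY : Hur.map C (C (c.Y k) : Hur I R) = add2 (C (c.Y k) : Hur I R) :=
    Hur.ext fun s => Hur.ext fun s' => by
      rw [map_apply, add2_apply]
      by_cases hs : s' = 0
      · subst hs; rw [C_apply_zero, add_zero]
      · rw [C_apply_ne _ hs, C_apply_ne _ (by simp [hs])]
  have hPP : (Hur.map C c.P * C c.P : Hur I (Hur I R)) =
      i2 (Hur.map C c.a * C c.a) * add2 (ex c.x) := by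
    simp only [P, map_mul, hL, hR, add2_ex]; ring
  have hK : c.K = Hur.map C c.a * C c.a * add2 (c.EE (ex c.x)) := by
    rw [← hA, ← hE2, ← hPP]
    exact Hur.ext fun s => Hur.ext fun s' => by
      change _ = c.E ((Hur.map C c.P * C c.P : Hur I (Hur I R)) s s')
      rw [tens_apply]; rfl
  have hQP : (Hur.map C (c.Q k) * C c.P : Hur I (Hur I R)) =
      i2 (Hur.map C c.a * C c.a) * add2 (C (c.Y k) * ex c.x) -
        i2 (Hur.map C (c.κ k) * (Hur.map C c.a * C c.a)) * add2 (ex c.x) := by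
    rw [Q, map_mul, mul_assoc, hPP, map_sub, hY, hL]
    simp only [map_mul]; ring
  have : E2 (Hur.map C (c.Q k) * C c.P) = c.Δ k * c.K := by
    rw [hQP, map_sub, hE2, hE2, hA, hA, ← hκ', hK, Δ, map_mul]; ring
  rw [← this]
  change _ = c.E ((Hur.map C (c.Q k) * C c.P : Hur I (Hur I R)) s s')
  rw [tens_apply]

lemma op_term {σ τ : Type} [Fintype σ] [DecidableEq σ] [Fintype τ] [DecidableEq τ]
    (T : Finset σ) (T' : Finset τ) {B B' : ℝ} (hB : 0 ≤ B)
    (h1 : Op B fun (p : I × ({a // a ∈ T} → I)) (j : {b // b ∈ T'} → I) =>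
      c.Δ p.1 (ms p.2) (ms j))
    (h2 : Op B' fun (i : {a // a ∉ T} → I) (j : {b // b ∉ T'} → I) => c.K (ms i) (ms j)) :
    Op (B * B') fun (p : I × (σ → I)) (j : τ → I) =>
      c.Δ p.1 (T.val.map p.2) (T'.val.map j) *
        c.K ((Finset.univ \ T).val.map p.2) ((Finset.univ \ T').val.map j) := by
  have := (h1.tens h2 hB).reindex
    (((Equiv.refl I).prodCongr (Equiv.piEquivPiSubtypeProd (fun a => a ∈ T) fun _ => I)).trans
      (Equiv.prodAssoc _ _ _).symm)
    (Equiv.piEquivPiSubtypeProd (fun b => b ∈ T') fun _ => I)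
  convert this using 3 with p j
  congr 1
  · change _ = c.Δ p.1 (ms fun a : {a // a ∈ T} => p.2 a) (ms fun b : {b // b ∈ T'} => j b)
    rw [ms_subtype, ms_subtype]; simp
  · change _ = c.K (ms fun a : {a // a ∉ T} => p.2 a) (ms fun b : {b // b ∉ T'} => j b)
    rw [ms_subtype, ms_subtype, Finset.filter_not, Finset.filter_not]; simp

lemma op_Δ (n : ℕ) : ∀ (σ τ : Type) [Fintype σ] [DecidableEq σ] [Fintype τ] [DecidableEq τ],
    Fintype.card σ + Fintype.card τ < n →
      Op (cD n * c.δ2) fun (p : I × (σ → I)) (j : τ → I) => c.Δ p.1 (ms p.2) (ms j) := by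
  induction n with
  | zero => intro σ τ _ _ _ _ h; omega
  | succ n ih =>
    intro σ τ _ _ _ _ h
    have hδ := c.δ2_nonneg
    have hP : 0 ≤ cP n := zero_le_one.trans (one_le_cP n)
    have hN := (c.L2_Q (n + 1) σ (by omega)).op (c.L2_P (n := n) τ (by omega))
      (mul_nonneg (cQ_nonneg _) hδ) hP
    let U : Finset (Finset σ × Finset τ) := Finset.univ.erase (Finset.univ, Finset.univ)
    have hS := Op.sum U (B := cD n * c.δ2 * (cP n * cP n))
      (t := fun T (p : I × (σ → I)) (j : τ → I) => c.Δ p.1 (T.1.val.map p.2) (T.2.val.map j) *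
        c.K ((Finset.univ \ T.1).val.map p.2) ((Finset.univ \ T.2).val.map j)) fun T hT => by
        refine c.op_term T.1 T.2 (mul_nonneg (cD_nonneg n) hδ) (ih _ _ ?_) ?_
        · have h1 := Finset.card_le_univ T.1
          have h2 := Finset.card_le_univ T.2
          have h3 : T.1.card ≠ Fintype.card σ ∨ T.2.card ≠ Fintype.card τ := by
            by_contra hc
            push Not at hc
            exact (Finset.mem_erase.1 hT).1 (Prod.ext ((Finset.card_eq_iff_eq_univ _).1 hc.1)
              ((Finset.card_eq_iff_eq_univ _).1 hc.2))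
          simp only [Fintype.card_coe]
          omega
        · exact (c.L2_P _ ((Fintype.card_subtype_le _).trans (by omega))).op
            (c.L2_P _ ((Fintype.card_subtype_le _).trans (by omega))) hP hP
    have hU : (U.card : ℝ) ≤ 2 ^ n := by
      have h1 : U.card ≤ 2 ^ (Fintype.card σ + Fintype.card τ) :=
        (Finset.card_le_univ U).trans (by simp [pow_add])
      have h2 : 2 ^ (Fintype.card σ + Fintype.card τ) ≤ 2 ^ n :=
        Nat.pow_le_pow_right (by norm_num) (by omega)
      exact_mod_cast h1.trans h2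
    refine Op.mono (B := 2 * (cQ (n + 1) * c.δ2 * cP n) +
      2 * (U.card ^ 2 * (cD n * c.δ2 * (cP n * cP n)))) ?_ ?_
    · convert hN.sub hS using 3 with p j
      rw [key_identity, ms_eq p.2, ms_eq j, mul_slots, Hur.sum_apply]
      simp only [mul_slots, Finset.powerset_univ]
      rw [← Fintype.sum_prod_type', ← Finset.add_sum_erase _ _
        (Finset.mem_univ ((Finset.univ : Finset σ), (Finset.univ : Finset τ)))]
      simp [K, P_zero, c.E_one, U]
    · have := cD_nonneg n
      rw [cD]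
      have : (U.card : ℝ) ^ 2 * (cD n * c.δ2 * (cP n * cP n)) ≤
          (2 ^ n) ^ 2 * (cD n * c.δ2 * (cP n * cP n)) := by gcongr
      linarith

/-- The main algebraic bound. -/
lemma op_κ (σ τ : Type) [Fintype σ] [DecidableEq σ] [Fintype τ] [DecidableEq τ] [Nonempty τ]
    {n : ℕ} (h : Fintype.card σ + Fintype.card τ < n) :
    Op (cD n * c.δ2) fun (p : I × (σ → I)) (j : τ → I) => c.κ p.1 (ms p.2 + ms j) := by
  convert c.op_Δ n σ τ h using 3 with p j
  have hj : ms j ≠ 0 := by
    obtain ⟨a⟩ := ‹Nonempty τ›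
    exact fun e => by simpa [e] using (mem_ms j (j a)).2 ⟨a, rfl⟩
  rw [Δ, Hur.sub_apply, Hur.sub_apply, map_apply, C_apply_ne _ hj, sub_zero, add2_apply]

end Ctx

end Crest.Agent.R285.CumulAux
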