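import Crest.Agent.R285.ExpFam
import Crest.Agent.R285.Poincare
import Crest.Agent.R285.CumulAux2

/-! Row 285: the analytic part of the cumulant bound. -/

set_option autoImplicit false

open MeasureTheory ProbabilityTheory Crest.OracleSampling
open scoped ENNReal NNReal RealInnerProductSpace ContDiff

namespace Crest.Agent.R285.CumulAux

open PoincareAux Hur

section Pdm

variable {X κ : Type} [NormedAddCommGroup X] [NormedSpace ℝ X]

lemma pdm_zero (v : κ → X) (F : Sm X) : pdm v 0 F = F := iterD_zero F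

lemma pdm_cons (v : κ → X) (a : κ) (s : Multiset κ) (F : Sm X) :
    pdm v (a ::ₘ s) F = pd (v a) (pdm v s F) := iterD_cons a s F

lemma pdm_cons' (v : κ → X) (a : κ) (s : Multiset κ) (F : Sm X) :
    pdm v (a ::ₘ s) F = pdm v s (pd (v a) F) := by
  rw [pdm_cons]
  exact iterD_comm (fun f => pd (v a) f) (fun _ f => pd_comm _ _ f) s F

lemma pdm_add (v : κ → X) (s : Multiset κ) (F G : Sm X) :
    pdm v s (F + G) = pdm v s F + pdm v s G := by
  induction s using Multiset.induction_on with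
  | empty => simp only [pdm_zero]
  | cons a s ih => simp only [pdm_cons, ih, map_add]

lemma pdm_zero_right (v : κ → X) (s : Multiset κ) : pdm v s (0 : Sm X) = 0 := by
  induction s using Multiset.induction_on with
  | empty => simp only [pdm_zero]
  | cons a s ih => simp only [pdm_cons, ih, map_zero]

lemma pd_smul_dir (c : ℝ) (v : X) (F : Sm X) : pd (c • v) F = c • pd v F := by
  ext x
  change fderiv ℝ (F : X → ℝ) x (c • v) = c • fderiv ℝ (F : X → ℝ) x v
  rw [map_smul]

lemma pdm_smul_dir (c : ℝ) (v : κ → X) (s : Multiset κ) (F : Sm X) :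
    pdm (fun a => c • v a) s F = c ^ s.card • pdm v s F := by
  induction s using Multiset.induction_on with
  | empty => simp only [pdm_zero, Multiset.card_zero, pow_zero, one_smul]
  | cons a s ih =>
    rw [pdm_cons, pdm_cons, ih, pd_smul_dir, Derivation.map_smul, smul_smul, Multiset.card_cons,
      pow_succ']

/-- The Taylor series of a smooth function. -/
noncomputable def tay (v : κ → X) (b : X) (F : Sm X) : Hur κ ℝ := fun s => (pdm v s F : X → ℝ) b

lemma tay_zero (v : κ → X) (b : X) (F : Sm X) : tay v b F 0 = (F : X → ℝ) b := by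
  rw [tay, pdm_zero]

lemma tay_cons (v : κ → X) (b : X) (F : Sm X) (a : κ) (s : Multiset κ) :
    tay v b F (a ::ₘ s) = tay v b (pd (v a) F) s := by
  rw [tay, pdm_cons']; rfl

lemma tay_mul (v : κ → X) (b : X) (F G : Sm X) : tay v b (F * G) = tay v b F * tay v b G :=
  taylor_mul (tay v b) (fun a F => pd (v a) F)
    (fun F G => Hur.ext fun s => by rw [tay, pdm_add]; rfl)
    (fun F G => by simp only [tay_zero]; rfl) (fun a F => Hur.ext fun s => tay_cons v b F a s)
    (fun a F G => by rw [Derivation.leibniz, smul_eq_mul, smul_eq_mul]; ring) F G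

lemma tay_one (v : κ → X) (b : X) : tay v b 1 = 1 := by
  ext s
  induction s using Multiset.induction_on with
  | empty => rw [tay_zero, one_apply_zero]; rfl
  | cons a s _ =>
    rw [tay_cons, Derivation.map_one_eq_zero, one_apply_ne Multiset.cons_ne_zero, tay,
      pdm_zero_right]
    rfl

/-- Restriction of a smooth function to a slice. -/
def slice (r : ℝ) (F : Sm (ℝ × X)) : Sm X :=
  ⟨fun b => (F : ℝ × X → ℝ) (r, b), (Sm.smooth F).comp (contDiff_const.prodMk contDiff_id)⟩

lemma slice_pd (r : ℝ) (v : X) (F : Sm (ℝ × X)) : slice r (pd (0, v) F) = pd v (slice r F) := by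
  ext b
  change fderiv ℝ (F : ℝ × X → ℝ) (r, b) (0, v) = fderiv ℝ (fun b => (F : ℝ × X → ℝ) (r, b)) b v
  have := (Sm.diff F (r, b)).hasFDerivAt.comp b (hasFDerivAt_prodMk_right r b)
  rw [show (fun b => (F : ℝ × X → ℝ) (r, b)) = (F : ℝ × X → ℝ) ∘ fun b => (r, b) from rfl,
    this.fderiv]
  rfl

lemma slice_pdm (r : ℝ) (v : κ → X) (s : Multiset κ) (F : Sm (ℝ × X)) :
    slice r (pdm (fun a => ((0 : ℝ), v a)) s F) = pdm v s (slice r F) := by
  induction s using Multiset.induction_on with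
  | empty => simp only [pdm_zero]
  | cons a s ih => rw [pdm_cons, pdm_cons, slice_pd, ih]

end Pdm

variable {d : ℕ} {α δ : ℝ} {W : E d → ℝ}

/-- The algebra of measurable functions of polynomial growth. -/
def PM (d : ℕ) : Subalgebra ℝ (E d → ℝ) where
  carrier := {f | MP f}
  mul_mem' hf hg := MP.mul hf hg
  add_mem' hf hg := MP.add hf hg
  algebraMap_mem' c := MP.const c

lemma PM.mp (f : PM d) : MP (f : E d → ℝ) := f.2

/-- The basis vectors. -/
noncomputable def ee (d : ℕ) (l : Fin d) : E d := EuclideanSpace.single l 1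

lemma inner_ee (v : E d) (l : Fin d) : ⟪v, ee d l⟫ = v l := by
  simp [ee, EuclideanSpace.inner_single_right]

/-- Coordinates. -/
def xc (k : Fin d) : PM d :=
  ⟨fun x => x k, MP.of_lip (L := 1) fun x y => by
    rw [one_mul]; exact PiLp.norm_apply_le (x - y) k⟩

/-- Expectation as a linear map. -/
noncomputable def EI (h : Pot α δ W) (b : E d) {t : ℝ} (ht : 0 < t) : PM d →ₗ[ℝ] ℝ where
  toFun f := ∫ x, (f : E d → ℝ) x ∂(nu W b t)
  map_add' f g := integral_add ((PM.mp f).int h b ht) ((PM.mp g).int h b ht)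
  map_smul' c _ := integral_const_mul c _

lemma EI_one (h : Pot α δ W) (b : E d) {t : ℝ} (ht : 0 < t) : EI h b ht 1 = 1 := by
  have hP := isProb_nu h b ht
  change ∫ _x, (1 : ℝ) ∂(nu W b t) = 1
  simp

lemma EI_xc (h : Pot α δ W) (b : E d) {t : ℝ} (ht : 0 < t) (l : Fin d) :
    EI h b ht (xc l) = (∫ y, y ∂(nu W b t)) l :=
  (EuclideanSpace.proj l : E d →L[ℝ] ℝ).integral_comp_comm
    (integrable_nu h b ht aestronglyMeasurable_id pg_id)

lemma fderiv_EI (h : Pot α δ W) (b : E d) {t : ℝ} (ht : 0 < t) (f : PM d) (l : Fin d) :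
    fderiv ℝ (fun b => EI h b ht f) b (ee d l) =
      t⁻¹ * (EI h b ht (f * xc l) - EI h b ht f * EI h b ht (xc l)) := by
  have hf := PM.mp f
  have := (hasFDerivAt_mean h b ht hf.1.aestronglyMeasurable hf.2).fderiv
  change fderiv ℝ (fun b => EI h b ht f) b = _ at this
  rw [this, innerSL_apply_apply, inner_ee, EI_xc]
  set m := ∫ y, y ∂(nu W b t)
  have hiv : Integrable (fun x => (f : E d → ℝ) x • (x - m)) (nu W b t) :=
    integrable_nu h b ht (by have := hf.1; fun_prop) (pg_smul hf.2 (pg_sub pg_id (pg_const m)))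
  have e := (EuclideanSpace.proj l : E d →L[ℝ] ℝ).integral_comp_comm hiv
  change ∫ x, (f : E d → ℝ) x * (x l - m l) ∂(nu W b t) =
    (∫ x, (f : E d → ℝ) x • (x - m) ∂(nu W b t)) l at e
  rw [PiLp.smul_apply, ← e, smul_eq_mul]
  congr 1
  simp only [mul_sub]
  have i1 : Integrable (fun x => (f : E d → ℝ) x * x l) (nu W b t) := (PM.mp (f * xc l)).int h b ht
  rw [integral_sub i1 ((hf.int h b ht).mul_const _), integral_mul_const]
  rfl

lemma clm_eq_sum (L : E d →L[ℝ] ℝ) :
    L = ∑ l, L (ee d l) • (EuclideanSpace.proj l : E d →L[ℝ] ℝ) := by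
  ext v
  conv_lhs => rw [← (EuclideanSpace.basisFun (Fin d) ℝ).sum_repr v]
  simp [ee, mul_comm]

lemma contDiff_EI (h : Pot α δ W) {t : ℝ} (ht : 0 < t) (f : PM d) :
    ContDiff ℝ ∞ fun b => EI h b ht f := by
  have hd : ∀ f : PM d, Differentiable ℝ fun b => EI h b ht f := fun f b =>
    (hasFDerivAt_mean h b ht (PM.mp f).1.aestronglyMeasurable (PM.mp f).2).differentiableAt
  refine contDiff_infty.2 fun n => ?_
  induction n generalizing f with
  | zero => exact contDiff_zero.2 (hd f).continuous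
  | succ n ih =>
    rw [Nat.cast_succ, contDiff_succ_iff_fderiv]
    refine ⟨hd f, by simp, ?_⟩
    have e : fderiv ℝ (fun b => EI h b ht f) = fun b => ∑ l,
        (t⁻¹ * (EI h b ht (f * xc l) - EI h b ht f * EI h b ht (xc l))) •
          (EuclideanSpace.proj l : E d →L[ℝ] ℝ) := funext fun b => by
      rw [clm_eq_sum (fderiv ℝ _ b)]; simp only [fderiv_EI]
    rw [e]
    exact ContDiff.sum fun l _ =>
      (contDiff_const.mul ((ih _).sub ((ih _).mul (ih _)))).smul contDiff_const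

/-- The mean as a smooth function of the centre. -/
noncomputable def IS (h : Pot α δ W) {t : ℝ} (ht : 0 < t) (f : PM d) : Sm (E d) :=
  ⟨fun b => EI h b ht f, contDiff_EI h ht f⟩

lemma pd_IS (h : Pot α δ W) {t : ℝ} (ht : 0 < t) (f : PM d) (l : Fin d) :
    pd (t • ee d l) (IS h ht f) = IS h ht (f * xc l) - IS h ht f * IS h ht (xc l) := by
  ext b
  change fderiv ℝ (fun b => EI h b ht f) b (t • ee d l) =
    EI h b ht (f * xc l) - EI h b ht f * EI h b ht (xc l)
  rw [map_smul, fderiv_EI, smul_eq_mul, mul_inv_cancel_left₀ ht.ne']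

/-- The components of the gradient. -/
noncomputable def yc (h : Pot α δ W) (hα : 0 ≤ α) (k : Fin d) : PM d :=
  ⟨fun x => gradient W x k, MP.of_lip (L := δ) fun x y =>
    (PiLp.norm_apply_le (gradient W x - gradient W y) k).trans (h.lip_grad hα x y)⟩

lemma EI_yc (h : Pot α δ W) (hα : 0 ≤ α) (b : E d) {t : ℝ} (ht : 0 < t) (k : Fin d) :
    EI h b ht (yc h hα k) = mn W b t k :=
  (EuclideanSpace.proj k : E d →L[ℝ] ℝ).integral_comp_comm
    (integrable_nu h b ht h.contDiff_gradient.continuous.aestronglyMeasurable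
      (h.pgrowth_gradient hα))

/-- The entries of the Hessian. -/
noncomputable def hc (h : Pot α δ W) (hα : 0 ≤ α) (k l : Fin d) : PM d :=
  ⟨fun x => fderiv ℝ (gradient W) x (ee d l) k, by
    have := h.contDiff_gradient.continuous_fderiv (by simp)
    refine ⟨Continuous.measurable (by fun_prop), δ, 0, fun x => ?_⟩
    refine (PiLp.norm_apply_le _ k).trans ((h.norm_fderiv_gradient_le hα x _).trans ?_)
    simp [ee]⟩

lemma pd_slice (h : Pot α δ W) (hα : 0 ≤ α) (r : ℝ) (k : Fin d) :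
    pd (ee d k) (slice r (lZs h)) = IS h (Poincare_tanh_pos r) (yc h hα k) := by
  rw [← slice_pd]
  ext b
  change fderiv ℝ (lZ W) (r, b) (0, ee d k) = EI h b _ (yc h hα k)
  rw [fderiv_lZ_space h hα, inner_ee, EI_yc]

/-- The logarithmic Laplace transform, up to a constant. -/
noncomputable def psi (h : Pot α δ W) (r : ℝ) : Sm (E d) :=
  ⟨fun b => (1 - Real.tanh r ^ 2)⁻¹ / 2 * ‖b‖ ^ 2 - (slice r (lZs h) : E d → ℝ) b,
    (contDiff_const.mul (contDiff_norm_sq ℝ)).sub (Sm.smooth _)⟩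

lemma pd_psi (h : Pot α δ W) (hα : 0 ≤ α) (r : ℝ) (l : Fin d) :
    pd ((1 - Real.tanh r ^ 2) • ee d l) (psi h r) = IS h (Poincare_tanh_pos r) (xc l) := by
  have ht := Poincare_tanh_pos r
  ext b
  have h1 := ((hasStrictFDerivAt_norm_sq b).hasFDerivAt.const_mul
    ((1 - Real.tanh r ^ 2)⁻¹ / 2)).sub (Sm.diff (slice r (lZs h)) b).hasFDerivAt
  have h2 := congrArg (fun F : Sm (E d) => (F : E d → ℝ) b) (pd_slice h hα r l)
  change fderiv ℝ (slice r (lZs h) : E d → ℝ) b (ee d l) = EI h b ht (yc h hα l) at h2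
  change fderiv ℝ ((fun b : E d => (1 - Real.tanh r ^ 2)⁻¹ / 2 * ‖b‖ ^ 2) -
    (slice r (lZs h) : E d → ℝ)) b _ = EI h b ht (xc l)
  rw [h1.fderiv, map_smul, _root_.sub_apply, h2, EI_yc, EI_xc, stein h hα b ht]
  simp only [_root_.smul_apply, innerSL_apply_apply, inner_ee, smul_eq_mul,
    nsmul_eq_mul, PiLp.sub_apply, PiLp.smul_apply]
  field_simp
  push_cast
  ring

/-- The exponential of a smooth function. -/
noncomputable def sexp (F : Sm (E d)) : Sm (E d) :=
  ⟨fun b => Real.exp ((F : E d → ℝ) b), (Sm.smooth F).exp⟩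

lemma pd_sexp (F : Sm (E d)) (v : E d) : pd v (sexp F) = pd v F * sexp F := by
  ext b
  change fderiv ℝ (fun b => Real.exp ((F : E d → ℝ) b)) b v =
    fderiv ℝ (F : E d → ℝ) b v * Real.exp ((F : E d → ℝ) b)
  rw [(Sm.diff F b).hasFDerivAt.exp.fderiv]
  simp [mul_comm]

lemma sexp_neg_mul (F : Sm (E d)) : sexp (-F) * sexp F = 1 := by
  ext b
  change Real.exp (-(F : E d → ℝ) b) * Real.exp ((F : E d → ℝ) b) = 1
  rw [← Real.exp_add]; simp

/-- The normalised logarithmic Laplace transform. -/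
noncomputable def psi0 (h : Pot α δ W) (r : ℝ) (b : E d) : Sm (E d) :=
  psi h r - algebraMap ℝ _ ((psi h r : E d → ℝ) b)

lemma tay_IS (h : Pot α δ W) (hα : 0 ≤ α) (r : ℝ) (b : E d) (f : PM d) (s : Multiset (Fin d)) :
    tay (fun l => (1 - Real.tanh r ^ 2) • ee d l) b
      (IS h (Poincare_tanh_pos r) f * sexp (psi0 h r b)) s =
        EI h b (Poincare_tanh_pos r) (f * ex xc s) := by
  induction s using Multiset.induction_on generalizing f with
  | empty =>
    rw [tay_zero, ex_zero, mul_one]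
    change EI h b _ f * Real.exp ((psi h r : E d → ℝ) b - (psi h r : E d → ℝ) b) = _
    simp
  | cons a s ih =>
    rw [tay_cons, ex_cons, ← mul_assoc, ← ih]
    congr 1
    rw [Derivation.leibniz, pd_IS, pd_sexp, psi0, map_sub, Derivation.map_algebraMap, sub_zero,
      pd_psi h hα, smul_eq_mul, smul_eq_mul]
    ring

lemma gradient_apply (f : E d → ℝ) (x : E d) (l : Fin d) :
    gradient f x l = fderiv ℝ f x (ee d l) := by
  rw [← inner_ee, gradient, InnerProductSpace.toDual_symm_apply]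

lemma hess_pt (h : Pot α δ W) (hα : 0 ≤ α) (x : E d) (u : Fin d → ℝ) :
    ∑ l, (∑ k, fderiv ℝ (gradient W) x (ee d l) k * u k) ^ 2 ≤ δ ^ 2 * ∑ k, u k ^ 2 := by
  refine Op.of_bilin (t := fun k l => fderiv ℝ (gradient W) x (ee d l) k) (sq_nonneg δ)
    (fun f g => ?_) u
  let f' : E d := WithLp.toLp 2 f
  let g' : E d := WithLp.toLp 2 g
  have e1 : ∑ l, (∑ k, fderiv ℝ (gradient W) x (ee d l) k * f k) * g l =
      ⟪f', fderiv ℝ (gradient W) x g'⟫ := by
    conv_rhs => rw [← (EuclideanSpace.basisFun (Fin d) ℝ).sum_repr g']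
    simp [f', g', ee, inner_sum, inner_smul_right, PiLp.inner_apply, mul_comm]
  have e2 : ∑ k, f k ^ 2 = ‖f'‖ ^ 2 := by simp [f', EuclideanSpace.real_norm_sq_eq]
  have e3 : ∑ k, g k ^ 2 = ‖g'‖ ^ 2 := by simp [g', EuclideanSpace.real_norm_sq_eq]
  rw [e1, e2, e3, ← sq_abs]
  have := (abs_real_inner_le_norm f' _).trans (mul_le_mul_of_nonneg_left
    (h.norm_fderiv_gradient_le hα x g') (norm_nonneg _))
  refine (pow_le_pow_left₀ (abs_nonneg _) this 2).trans (le_of_eq (by ring))

lemma EI_mono (h : Pot α δ W) (b : E d) {t : ℝ} (ht : 0 < t) {f g : PM d}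
    (hfg : ∀ x, (f : E d → ℝ) x ≤ (g : E d → ℝ) x) : EI h b ht f ≤ EI h b ht g :=
  integral_mono ((PM.mp f).int h b ht) ((PM.mp g).int h b ht) hfg

/-- The tilted Gaussian as an abstract Poincaré space. -/
noncomputable def ctx (h : Pot 0 δ W) (r : ℝ) (b : E d) : Ctx (Fin d) (PM d) where
  E := EI h b (Poincare_tanh_pos r)
  x := xc
  Y := yc h le_rfl
  H := hc h le_rfl
  HD f f' := ContDiff ℝ 1 (f : E d → ℝ) ∧
    ∀ x l, fderiv ℝ (f : E d → ℝ) x (ee d l) = (f' l : E d → ℝ) x
  δ2 := δ ^ 2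
  a := tay (fun l => (1 - Real.tanh r ^ 2) • ee d l) b (sexp (-psi0 h r b))
  κ k := tay (fun l => (1 - Real.tanh r ^ 2) • ee d l) b
    (IS h (Poincare_tanh_pos r) (yc h le_rfl k))
  δ2_nonneg := sq_nonneg δ
  E_one := EI_one h b _
  E_sq f := integral_nonneg fun x => mul_self_nonneg _
  hd_const c := ⟨show ContDiff ℝ 1 fun _ : E d => c from contDiff_const, fun x l => by
    change fderiv ℝ (fun _ : E d => c) x _ = 0
    simp⟩
  hd_add f f' g g' hf hg := ⟨hf.1.add hg.1, fun x l => by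
    change fderiv ℝ ((f : E d → ℝ) + (g : E d → ℝ)) x _ = (f' l : E d → ℝ) x + (g' l : E d → ℝ) x
    rw [fderiv_add (hf.1.differentiable (by simp) x) (hg.1.differentiable (by simp) x),
      _root_.add_apply, hf.2, hg.2]⟩
  hd_mul f f' g g' hf hg := ⟨hf.1.mul hg.1, fun x l => by
    change fderiv ℝ ((f : E d → ℝ) * (g : E d → ℝ)) x _ =
      (f' l : E d → ℝ) x * (g : E d → ℝ) x + (f : E d → ℝ) x * (g' l : E d → ℝ) x
    rw [fderiv_mul (hf.1.differentiable (by simp) x) (hg.1.differentiable (by simp) x)]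
    simp only [_root_.add_apply, _root_.smul_apply, hf.2, hg.2,
      smul_eq_mul]
    ring⟩
  hd_x k := ⟨(EuclideanSpace.proj k : E d →L[ℝ] ℝ).contDiff, fun x l => by
    change fderiv ℝ (EuclideanSpace.proj k : E d →L[ℝ] ℝ) x _ = _
    rw [ContinuousLinearMap.fderiv]
    by_cases hkl : k = l <;> simp [ee, hkl]⟩
  hd_Y k := ⟨(EuclideanSpace.proj k : E d →L[ℝ] ℝ).contDiff.comp h.contDiff_gradient, fun x l => by
    change fderiv ℝ ((EuclideanSpace.proj k : E d →L[ℝ] ℝ) ∘ gradient W) x _ = _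
    rw [((EuclideanSpace.proj k : E d →L[ℝ] ℝ).hasFDerivAt.comp x
      (h.contDiff_gradient.differentiable (by simp) x).hasFDerivAt).fderiv]
    rfl⟩
  poinc f f' hf h0 := by
    have ht := Poincare_tanh_pos r
    have hn : ∀ x, ‖gradient (f : E d → ℝ) x‖ ^ 2 = ((∑ l, f' l * f' l : PM d) : E d → ℝ) x :=
      fun x => by
        rw [EuclideanSpace.real_norm_sq_eq]; simp [gradient_apply, hf.2, sq]
    have hg : PGrowth (gradient (f : E d → ℝ)) := by
      refine pg_of_le (PM.mp (1 + ∑ l, f' l * f' l)).2 fun x => ?_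
      change _ ≤ |1 + ((∑ l, f' l * f' l : PM d) : E d → ℝ) x|
      rw [← hn, abs_of_nonneg (by positivity)]
      nlinarith [sq_nonneg (‖gradient (f : E d → ℝ) x‖ - 1)]
    have key := poincare h le_rfl b ht hf.1 (PM.mp f).2 hg
    change ∫ y, (f : E d → ℝ) y ∂(nu W b _) = 0 at h0
    simp only [h0, sub_zero, mul_zero, add_zero, div_one, hn, sq ((f : E d → ℝ) _)] at key
    rw [← map_sum]
    refine le_trans key (mul_le_of_le_one_left (integral_nonneg fun x => ?_) ?_)
    · simp only [← hn, Pi.zero_apply]; positivity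
    · nlinarith [sq_nonneg (Real.tanh r)]
  hess u := by
    rw [← map_sum, ← map_sum, ← smul_eq_mul, ← map_smul]
    refine EI_mono h b _ fun x => ?_
    have := hess_pt h le_rfl x fun k => (u k : E d → ℝ) x
    simpa [hc, sq] using this
  ha := by
    have : mapE (EI h b (Poincare_tanh_pos r)).toAddMonoidHom (ex xc) =
        tay (fun l => (1 - Real.tanh r ^ 2) • ee d l) b (sexp (psi0 h r b)) := Hur.ext fun s => by
      have h1 := tay_IS h le_rfl r b 1 s
      have h2 : IS h (Poincare_tanh_pos r) 1 = 1 := Subtype.ext (funext fun b => EI_one h b _)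
      rw [h2, one_mul, one_mul] at h1
      exact h1.symm
    rw [this, ← tay_mul, sexp_neg_mul, tay_one]
  hκ k := by
    have : mapE (EI h b (Poincare_tanh_pos r)).toAddMonoidHom (ex xc) =
        tay (fun l => (1 - Real.tanh r ^ 2) • ee d l) b (sexp (psi0 h r b)) := Hur.ext fun s => by
      have h1 := tay_IS h le_rfl r b 1 s
      have h2 : IS h (Poincare_tanh_pos r) 1 = 1 := Subtype.ext (funext fun b => EI_one h b _)
      rw [h2, one_mul, one_mul] at h1
      exact h1.symm
    rw [this, ← tay_mul]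
    ext s
    rw [tay_IS h le_rfl, mapE_apply, C_mul_apply]
    rfl

lemma pdm_lZ (h : Pot 0 δ W) (r : ℝ) (b : E d) (k : Fin d) (s : Multiset (Fin d)) :
    (pdm (eb d) (k ::ₘ s) (lZs h) : _ → ℝ) (r, b) =
      Real.cosh r ^ (2 * s.card) * (ctx h r b).κ k s := by
  have e1 : (pdm (eb d) (k ::ₘ s) (lZs h) : _ → ℝ) (r, b) =
      (pdm (ee d) (k ::ₘ s) (slice r (lZs h)) : _ → ℝ) b := by
    rw [← slice_pdm]; rfl
  have e2 : (ctx h r b).κ k s = (1 - Real.tanh r ^ 2) ^ s.card *
      (pdm (ee d) s (IS h (Poincare_tanh_pos r) (yc h le_rfl k)) : _ → ℝ) b := by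
    change (pdm (fun l => (1 - Real.tanh r ^ 2) • ee d l) s _ : _ → ℝ) b = _
    rw [pdm_smul_dir]; rfl
  have e3 : Real.cosh r ^ 2 * (1 - Real.tanh r ^ 2) = 1 := by
    have := (Real.cosh_pos r).ne'
    rw [Real.tanh_eq_sinh_div_cosh]
    field_simp
    exact Real.cosh_sq_sub_sinh_sq r
  rw [e1, e2, pdm_cons', pd_slice h le_rfl, ← mul_assoc, pow_mul, ← mul_pow, e3, one_pow, one_mul]

end Crest.Agent.R285.CumulAux
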