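import Mathlib

/-! Row 285: kernels that are bounded operators on finite `ℓ²` spaces. -/

set_option autoImplicit false

namespace Crest.Agent.R285

/-- The kernel `t` is an operator of norm at most `B` on `ℓ²`. -/
def FlOp {A C : Type} (B : ℝ) (t : A → C → ℝ) : Prop :=
  ∀ f : A → ℝ, ∑ᶠ o, (∑ᶠ i, t i o * f i) ^ 2 ≤ B ^ 2 * ∑ᶠ i, f i ^ 2

variable {A C A' C' S : Type} {B B' : ℝ}

theorem FlOp.of_equiv {t : A → C → ℝ} (h : FlOp B t) (eA : A' ≃ A) (eC : C' ≃ C)
    {t' : A' → C' → ℝ} (ht : ∀ i o, t' i o = t (eA i) (eC o)) : FlOp B t' := by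
  intro f
  have h1 := h (f ∘ eA.symm)
  rw [← finsum_comp_equiv eC, ← finsum_comp_equiv eA] at h1
  simp only [← finsum_comp_equiv eA (f := fun i => t i _ * (f ∘ eA.symm) i)] at h1
  simpa [ht] using h1

theorem flOp_iff [Fintype A] [Fintype C] {t : A → C → ℝ} :
    FlOp B t ↔ ∀ f : A → ℝ, ∑ o, (∑ i, t i o * f i) ^ 2 ≤ B ^ 2 * ∑ i, f i ^ 2 := by
  simp only [FlOp, finsum_eq_sum_of_fintype]

theorem FlOp.mono [Finite A] [Finite C] {t : A → C → ℝ} (h : FlOp B t) (hle : B ^ 2 ≤ B' ^ 2) :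
    FlOp B' t := by
  cases nonempty_fintype A
  cases nonempty_fintype C
  rw [flOp_iff] at h ⊢
  exact fun f => (h f).trans
    (mul_le_mul_of_nonneg_right hle (Finset.sum_nonneg fun _ _ => sq_nonneg _))

theorem FlOp.transpose [Finite A] [Finite C] {t : A → C → ℝ} (h : FlOp B t) :
    FlOp B (fun o i => t i o) := by
  cases nonempty_fintype A
  cases nonempty_fintype C
  rw [flOp_iff] at h ⊢
  intro g
  set u : A → ℝ := fun i => ∑ o, t i o * g o with hu
  have h1 : ∑ i, u i ^ 2 = ∑ o, (∑ i, t i o * u i) * g o := by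
    simp only [Finset.sum_mul]
    rw [Finset.sum_comm]
    refine Finset.sum_congr rfl fun i _ => ?_
    rw [sq]
    conv_lhs => rw [hu]
    simp only [Finset.sum_mul]
    exact Finset.sum_congr rfl fun o _ => by ring
  have h2 := Finset.sum_mul_sq_le_sq_mul_sq Finset.univ (fun o => ∑ i, t i o * u i) g
  rw [← h1] at h2
  have hg : 0 ≤ ∑ o, g o ^ 2 := Finset.sum_nonneg fun _ _ => sq_nonneg _
  have hN : 0 ≤ ∑ i, u i ^ 2 := Finset.sum_nonneg fun _ _ => sq_nonneg _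
  have h3 := h2.trans (mul_le_mul_of_nonneg_right (h u) hg)
  change ∑ i, u i ^ 2 ≤ _
  rcases hN.eq_or_lt with h0 | h0
  · rw [← h0]; positivity
  · refine le_of_mul_le_mul_left ?_ h0
    linarith

theorem FlOp.add [Finite A] [Finite C] {t t' : A → C → ℝ} (h : FlOp B t) (h' : FlOp B' t')
    (hB : 0 ≤ B) (hB' : 0 ≤ B') : FlOp (B + B') (fun i o => t i o + t' i o) := by
  cases nonempty_fintype A
  cases nonempty_fintype C
  rw [flOp_iff] at h h' ⊢
  intro f
  have h1 := h f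
  have h2 := h' f
  have hf : 0 ≤ ∑ i, f i ^ 2 := Finset.sum_nonneg fun _ _ => sq_nonneg _
  have h3 := Finset.sum_mul_sq_le_sq_mul_sq Finset.univ (fun o => ∑ i, t i o * f i)
    (fun o => ∑ i, t' i o * f i)
  have h4 : ∑ o, (∑ i, t i o * f i) * (∑ i, t' i o * f i) ≤ B * B' * ∑ i, f i ^ 2 := by
    refine (abs_le_of_sq_le_sq' (h3.trans ?_) (by positivity)).2
    refine (mul_le_mul h1 h2 (Finset.sum_nonneg fun _ _ => sq_nonneg _) (by positivity)).trans
      (le_of_eq ?_)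
    ring
  have h5 : ∑ o, (∑ i, (t i o + t' i o) * f i) ^ 2 = ∑ o, (∑ i, t i o * f i) ^ 2 +
      2 * ∑ o, (∑ i, t i o * f i) * (∑ i, t' i o * f i) + ∑ o, (∑ i, t' i o * f i) ^ 2 := by
    rw [Finset.mul_sum, ← Finset.sum_add_distrib, ← Finset.sum_add_distrib]
    refine Finset.sum_congr rfl fun o _ => ?_
    simp only [add_mul, Finset.sum_add_distrib]
    ring
  rw [h5]
  nlinarith

theorem FlOp.smul [Finite A] [Finite C] {t : A → C → ℝ} (h : FlOp B t) (c : ℝ) :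
    FlOp (|c| * B) (fun i o => c * t i o) := by
  cases nonempty_fintype A
  cases nonempty_fintype C
  rw [flOp_iff] at h ⊢
  intro f
  simp only [mul_assoc, ← Finset.mul_sum, mul_pow, sq_abs]
  exact mul_le_mul_of_nonneg_left (h f) (sq_nonneg c)

theorem FlOp.comp [Finite A] [Finite C] [Finite A'] [Finite C'] [Finite S]
    {t : A → C × S → ℝ} {t' : A' × S → C' → ℝ} (h : FlOp B t) (h' : FlOp B' t') :
    FlOp (B * B') (fun (i : A × A') (o : C × C') => ∑ᶠ s, t i.1 (o.1, s) * t' (i.2, s) o.2) := by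
  cases nonempty_fintype A
  cases nonempty_fintype C
  cases nonempty_fintype A'
  cases nonempty_fintype C'
  cases nonempty_fintype S
  rw [flOp_iff] at h h' ⊢
  intro f
  simp only [finsum_eq_sum_of_fintype]
  have h1 : ∀ o : C × C', ∑ i : A × A', (∑ s, t i.1 (o.1, s) * t' (i.2, s) o.2) * f i
      = ∑ p : A' × S, t' p o.2 * ∑ a, t a (o.1, p.2) * f (a, p.1) := fun o => by
    simp only [Fintype.sum_prod_type, Finset.sum_mul, Finset.mul_sum]
    rw [Finset.sum_comm]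
    refine Finset.sum_congr rfl fun a' _ => ?_
    rw [Finset.sum_comm]
    exact Finset.sum_congr rfl fun s _ => Finset.sum_congr rfl fun a _ => by ring
  simp only [h1]
  rw [Fintype.sum_prod_type]
  calc ∑ c : C, ∑ c' : C', (∑ p : A' × S, t' p c' * ∑ a, t a (c, p.2) * f (a, p.1)) ^ 2
      ≤ ∑ c : C, B' ^ 2 * ∑ p : A' × S, (∑ a, t a (c, p.2) * f (a, p.1)) ^ 2 :=
        Finset.sum_le_sum fun c _ => h' _
    _ = B' ^ 2 * ∑ a' : A', ∑ q : C × S, (∑ a, t a q * f (a, a')) ^ 2 := by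
        rw [← Finset.mul_sum]
        simp only [Fintype.sum_prod_type]
        rw [Finset.sum_comm]
    _ ≤ B' ^ 2 * ∑ a' : A', B ^ 2 * ∑ a, f (a, a') ^ 2 :=
        mul_le_mul_of_nonneg_left (Finset.sum_le_sum fun a' _ => h _) (sq_nonneg _)
    _ = _ := by
        rw [← Finset.mul_sum, Fintype.sum_prod_type, Finset.sum_comm]
        ring

theorem FlOp.row [Finite A] [Finite C] {t : A → C → ℝ} (h : FlOp B t) (a : A) :
    ∑ᶠ o, t a o ^ 2 ≤ B ^ 2 := by
  classical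
  cases nonempty_fintype A
  cases nonempty_fintype C
  rw [flOp_iff] at h
  simpa [finsum_eq_sum_of_fintype] using h fun i => if i = a then 1 else 0

theorem FlOp.entry [Finite A] [Finite C] {t : A → C → ℝ} (h : FlOp B t) (a : A) (c : C) :
    |t a c| ≤ |B| := by
  cases nonempty_fintype C
  have h1 := h.row a
  rw [finsum_eq_sum_of_fintype] at h1
  exact sq_le_sq.1 ((Finset.single_le_sum (f := fun o => t a o ^ 2) (fun _ _ => sq_nonneg _)
    (Finset.mem_univ c)).trans h1)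

theorem FlOp.extend [Finite A] [Finite C] [Finite A'] [Finite C'] {t : A → C → ℝ} (h : FlOp B t)
    {u : A → A'} (hu : Function.Injective u) {v : C → C'} (hv : Function.Injective v)
    {t' : A' → C' → ℝ} (h1 : ∀ a c, t' (u a) (v c) = t a c)
    (h2 : ∀ a c, a ∉ Set.range u → t' a c = 0) (h3 : ∀ a c, c ∉ Set.range v → t' a c = 0) :
    FlOp B t' := by
  classical
  cases nonempty_fintype A
  cases nonempty_fintype C
  cases nonempty_fintype A'
  cases nonempty_fintype C'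
  rw [flOp_iff] at h ⊢
  intro f
  have e1 : ∑ c, (∑ a, t a c * f (u a)) ^ 2 = ∑ c, (∑ a, t' a c * f a) ^ 2 := by
    refine Fintype.sum_of_injective v hv _ _ (fun c hc => by simp [h3 _ c hc]) fun c => ?_
    congr 1
    exact Fintype.sum_of_injective u hu _ _ (fun a ha => by simp [h2 a _ ha]) fun a => by rw [h1]
  rw [← e1]
  refine (h fun a => f (u a)).trans (mul_le_mul_of_nonneg_left ?_ (sq_nonneg _))
  rw [← Finset.sum_image (s := Finset.univ) (g := u) (f := fun a => f a ^ 2) hu.injOn]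
  exact Finset.sum_le_sum_of_subset_of_nonneg (Finset.subset_univ _) fun _ _ _ => sq_nonneg _

theorem flat_exists_split {α β σ₁ σ₂ : Type} (e : α ⊕ β ≃ σ₁ ⊕ σ₂) :
    ∃ (α₁ α₂ β₁ β₂ : Type) (ea : α₁ ⊕ α₂ ≃ α) (eb : β₁ ⊕ β₂ ≃ β) (e₁ : α₁ ⊕ β₁ ≃ σ₁)
      (e₂ : α₂ ⊕ β₂ ≃ σ₂),
      (∀ x, e (.inl (ea (.inl x))) = .inl (e₁ (.inl x))) ∧
      (∀ x, e (.inl (ea (.inr x))) = .inr (e₂ (.inl x))) ∧
      (∀ x, e (.inr (eb (.inl x))) = .inl (e₁ (.inr x))) ∧
      (∀ x, e (.inr (eb (.inr x))) = .inr (e₂ (.inr x))) := by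
  refine ⟨{a // (e (.inl a)).isLeft}, {a // ¬ (e (.inl a)).isLeft}, {b // (e (.inr b)).isLeft},
    {b // ¬ (e (.inr b)).isLeft}, Equiv.sumCompl _, Equiv.sumCompl _,
    (Equiv.subtypeSum (p := fun c => (e c).isLeft)).symm.trans
      ((e.subtypeEquiv fun _ => Iff.rfl).trans Equiv.sumIsLeft),
    (Equiv.subtypeSum (p := fun c => ¬ (e c).isLeft)).symm.trans
      ((e.subtypeEquiv fun _ => Sum.not_isLeft).trans Equiv.sumIsRight), ?_, ?_, ?_, ?_⟩
  · rintro ⟨x, hx⟩
    exact (Sum.inl_getLeft _ hx).symm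
  · rintro ⟨x, hx⟩
    exact (Sum.inr_getRight _ (Sum.not_isLeft.1 hx)).symm
  · rintro ⟨x, hx⟩
    exact (Sum.inl_getLeft _ hx).symm
  · rintro ⟨x, hx⟩
    exact (Sum.inr_getRight _ (Sum.not_isLeft.1 hx)).symm

end Crest.Agent.R285
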