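import Mathlib
import Crest.Agent.R285.FlatAux

/-! Row 285: real tensors all of whose flattenings are bounded operators. -/

set_option autoImplicit false

namespace Crest.Agent.R285

variable {I : Type} [Finite I]

/-- All flattenings with non-empty input and output slots have operator norm at most `B`. -/
def Flat {σ : Type} (B : ℝ) (t : (σ → I) → ℝ) : Prop :=
  ∀ (α β : Type) [Finite α] [Finite β] [Nonempty α] [Nonempty β] (e : α ⊕ β ≃ σ)
    (f : (α → I) → ℝ),
    ∑ᶠ o : β → I, (∑ᶠ i : α → I, t (Sum.elim i o ∘ e.symm) * f i) ^ 2 ≤ B ^ 2 * ∑ᶠ i, f i ^ 2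

/-- Contraction of two tensors along the slots `S`. -/
noncomputable def ctr {R : Type*} [CommRing R] {σ₁ σ₂ S : Type} (t₁ : (σ₁ ⊕ S → I) → R)
    (t₂ : (σ₂ ⊕ S → I) → R) (j : σ₁ ⊕ σ₂ → I) : R :=
  ∑ᶠ s : S → I, t₁ (Sum.elim (j ∘ Sum.inl) s) * t₂ (Sum.elim (j ∘ Sum.inr) s)

variable {σ σ' σ₁ σ₂ S : Type} {B B' : ℝ}

omit [Finite I] in
theorem Flat.op {t : (σ → I) → ℝ} (h : Flat B t) {α β : Type} [Finite α] [Finite β] [Nonempty α]
    [Nonempty β] (e : α ⊕ β ≃ σ) :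
    FlOp B (fun (i : α → I) (o : β → I) => t (Sum.elim i o ∘ e.symm)) := h α β e

omit [Finite I] in
theorem Flat.of_op {t : (σ → I) → ℝ} (h : ∀ (α β : Type) [Finite α] [Finite β] [Nonempty α]
    [Nonempty β] (e : α ⊕ β ≃ σ),
    FlOp B (fun (i : α → I) (o : β → I) => t (Sum.elim i o ∘ e.symm))) : Flat B t := h

omit [Finite I] in
theorem Flat.op1 {α β : Type} [Finite α] [Finite β] [Finite S] [Nonempty α] [Nonempty S]
    {t : (σ ⊕ S → I) → ℝ} (h : Flat B t) (e : α ⊕ β ≃ σ) :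
    FlOp B (fun (a : α → I) (p : (β → I) × (S → I)) =>
      t (Sum.elim (Sum.elim a p.1 ∘ e.symm) p.2)) := by
  refine (h.op ((Equiv.sumAssoc α β S).symm.trans (e.sumCongr (Equiv.refl S)))).of_equiv
    (Equiv.refl _) (Equiv.sumArrowEquivProdArrow β S I).symm fun a p => ?_
  congr 1
  funext x
  rcases x with x | x
  · obtain ⟨y, rfl⟩ := e.surjective x
    rcases y with y | y <;> simp [Equiv.sumArrowEquivProdArrow]
  · simp [Equiv.sumArrowEquivProdArrow]

theorem Flat.op2 {α β : Type} [Finite α] [Finite β] [Finite S] [Nonempty β] [Nonempty S]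
    {t : (σ ⊕ S → I) → ℝ} (h : Flat B t) (e : α ⊕ β ≃ σ) :
    FlOp B (fun (p : (α → I) × (S → I)) (b : β → I) =>
      t (Sum.elim (Sum.elim p.1 b ∘ e.symm) p.2)) := by
  refine (h.op1 ((Equiv.sumComm β α).trans e)).transpose.of_equiv (Equiv.refl _) (Equiv.refl _)
    fun p b => ?_
  congr 2
  funext x
  obtain ⟨y, rfl⟩ := e.surjective x
  rcases y with y | y <;> simp

theorem Flat.mono {t : (σ → I) → ℝ} (h : Flat B t) (hB : 0 ≤ B) (hle : B ≤ B') : Flat B' t := by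
  intro α β _ _ _ _ e
  exact (h.op e).mono (pow_le_pow_left₀ hB hle 2)

theorem Flat.reindex {t : (σ → I) → ℝ} (h : Flat B t) (e : σ ≃ σ') :
    Flat B (fun i : σ' → I => t (i ∘ e)) := by
  intro α β _ _ _ _ e'
  exact h α β (e'.trans e.symm)

theorem Flat.add {t t' : (σ → I) → ℝ} (h : Flat B t) (h' : Flat B' t') (hB : 0 ≤ B) (hB' : 0 ≤ B') :
    Flat (B + B') (fun i => t i + t' i) := by
  intro α β _ _ _ _ e
  exact (h.op e).add (h'.op e) hB hB'

theorem Flat.smul {t : (σ → I) → ℝ} (h : Flat B t) (c : ℝ) : Flat (|c| * B) (fun i => c * t i) := by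
  intro α β _ _ _ _ e
  exact (h.op e).smul c

theorem Flat.zero : Flat 0 (fun _ : σ → I => (0 : ℝ)) := by
  intro α β _ _ _ _ e f
  simp

theorem Flat.ctr [Finite σ₁] [Finite σ₂] [Finite S] [Nonempty σ₁] [Nonempty σ₂] [Nonempty S]
    {t₁ : (σ₁ ⊕ S → I) → ℝ} {t₂ : (σ₂ ⊕ S → I) → ℝ} (h₁ : Flat B t₁) (h₂ : Flat B' t₂) :
    Flat (B * B') (ctr t₁ t₂) := by
  refine Flat.of_op fun α β _ _ _ _ e => ?_
  obtain ⟨α₁, α₂, β₁, β₂, ea, eb, e₁, e₂, k1, k2, k3, k4⟩ := flat_exists_split e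
  have : Finite (α₁ ⊕ α₂) := Finite.of_equiv _ ea.symm
  have : Finite (β₁ ⊕ β₂) := Finite.of_equiv _ eb.symm
  have : Finite α₁ := Finite.of_injective (Sum.inl : α₁ → α₁ ⊕ α₂) Sum.inl_injective
  have : Finite α₂ := Finite.of_injective (Sum.inr : α₂ → α₁ ⊕ α₂) Sum.inr_injective
  have : Finite β₁ := Finite.of_injective (Sum.inl : β₁ → β₁ ⊕ β₂) Sum.inl_injective
  have : Finite β₂ := Finite.of_injective (Sum.inr : β₂ → β₁ ⊕ β₂) Sum.inr_injective
  have hl : ∀ (i : α → I) (o : β → I), (Sum.elim i o ∘ e.symm) ∘ Sum.inl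
      = Sum.elim (i ∘ ea ∘ Sum.inl) (o ∘ eb ∘ Sum.inl) ∘ e₁.symm := fun i o => by
    funext x
    obtain ⟨y, rfl⟩ := e₁.surjective x
    rcases y with y | y
    · simp [← k1]
    · simp [← k3]
  have hr : ∀ (i : α → I) (o : β → I), (Sum.elim i o ∘ e.symm) ∘ Sum.inr
      = Sum.elim (i ∘ ea ∘ Sum.inr) (o ∘ eb ∘ Sum.inr) ∘ e₂.symm := fun i o => by
    funext x
    obtain ⟨y, rfl⟩ := e₂.surjective x
    rcases y with y | y
    · simp [← k2]
    · simp [← k4]
  have hcase : (Nonempty α₁ ∧ Nonempty β₂) ∨ (Nonempty α₂ ∧ Nonempty β₁) := by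
    have n1 := nonempty_sum.1 (ea.nonempty_congr.2 inferInstance)
    have n2 := nonempty_sum.1 (eb.nonempty_congr.2 inferInstance)
    have n3 := nonempty_sum.1 (e₁.nonempty_congr.2 inferInstance)
    have n4 := nonempty_sum.1 (e₂.nonempty_congr.2 inferInstance)
    tauto
  let EA : (α → I) ≃ (α₁ → I) × (α₂ → I) :=
    (ea.symm.arrowCongr (Equiv.refl I)).trans (Equiv.sumArrowEquivProdArrow α₁ α₂ I)
  let EB : (β → I) ≃ (β₁ → I) × (β₂ → I) :=
    (eb.symm.arrowCongr (Equiv.refl I)).trans (Equiv.sumArrowEquivProdArrow β₁ β₂ I)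
  rcases hcase with ⟨n1, n2⟩ | ⟨n1, n2⟩
  · refine ((h₁.op1 e₁).comp (h₂.op2 e₂)).of_equiv EA EB fun i o => ?_
    unfold R285.ctr
    rw [hl, hr]
    rfl
  · rw [mul_comm]
    refine ((h₂.op1 e₂).comp (h₁.op2 e₁)).of_equiv (EA.trans (Equiv.prodComm _ _))
      (EB.trans (Equiv.prodComm _ _)) fun i o => ?_
    unfold R285.ctr
    rw [hl, hr]
    exact finsum_congr fun s => mul_comm _ _

theorem Flat.sum_sq_ctr [Finite σ₁] [Finite σ₂] [Finite S] [Nonempty σ₁] [Nonempty S]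
    {t : (σ₁ ⊕ S → I) → ℝ} (h : Flat B t) (F : (σ₂ ⊕ S → I) → ℝ) :
    ∑ᶠ j, R285.ctr t F j ^ 2 ≤ B ^ 2 * ∑ᶠ i, F i ^ 2 := by
  classical
  cases nonempty_fintype (σ₁ → I)
  cases nonempty_fintype (σ₂ → I)
  cases nonempty_fintype (S → I)
  have h1 := flOp_iff.1 (h.op (Equiv.sumComm S σ₁))
  rw [← finsum_comp_equiv (Equiv.sumArrowEquivProdArrow σ₁ σ₂ I).symm,
    ← finsum_comp_equiv (Equiv.sumArrowEquivProdArrow σ₂ S I).symm]
  simp only [finsum_eq_sum_of_fintype, Fintype.sum_prod_type, R285.ctr]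
  rw [Finset.sum_comm, Finset.mul_sum]
  refine Finset.sum_le_sum fun j _ => ?_
  refine le_trans (le_of_eq ?_) (h1 fun s => F (Sum.elim j s))
  refine Finset.sum_congr rfl fun o _ => ?_
  congr 1
  refine Finset.sum_congr rfl fun s _ => ?_
  congr 2
  funext x
  rcases x with x | x <;> rfl

theorem Flat.sum_sq [Finite σ] [Nontrivial σ] {t : (σ → I) → ℝ} (h : Flat B t) :
    ∑ᶠ i, t i ^ 2 ≤ Nat.card I * B ^ 2 := by
  classical
  obtain ⟨x, y, hxy⟩ := exists_pair_ne σ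
  have : Nonempty {z // ¬ z = x} := ⟨⟨y, hxy.symm⟩⟩
  let e : {z // z = x} ⊕ {z // ¬ z = x} ≃ σ := Equiv.sumCompl _
  have h1 := h.op e
  cases nonempty_fintype ({z // z = x} → I)
  cases nonempty_fintype ({z // ¬ z = x} → I)
  rw [← finsum_comp_equiv ((Equiv.sumArrowEquivProdArrow _ _ I).symm.trans
    (e.arrowCongr (Equiv.refl I))), finsum_eq_sum_of_fintype, Fintype.sum_prod_type]
  calc _ ≤ ∑ _a : {z // z = x} → I, B ^ 2 := Finset.sum_le_sum fun a _ => by
        have := h1.row a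
        rw [finsum_eq_sum_of_fintype] at this
        exact this
    _ = _ := by
        rw [Finset.sum_const, Finset.card_univ, nsmul_eq_mul, ← Nat.card_eq_fintype_card,
          Nat.card_congr (Equiv.funUnique _ I)]

theorem Flat.abs_le [Finite σ] [Nontrivial σ] {t : (σ → I) → ℝ} (h : Flat B t) (i : σ → I) :
    |t i| ≤ |B| := by
  classical
  obtain ⟨x, y, hxy⟩ := exists_pair_ne σ
  have : Nonempty {z // ¬ z = x} := ⟨⟨y, hxy.symm⟩⟩
  let e : {z // z = x} ⊕ {z // ¬ z = x} ≃ σ := Equiv.sumCompl _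
  have h1 := (h.op e).entry (i ∘ e ∘ Sum.inl) (i ∘ e ∘ Sum.inr)
  have h2 : Sum.elim (i ∘ e ∘ Sum.inl) (i ∘ e ∘ Sum.inr) ∘ e.symm = i := by
    funext z
    obtain ⟨w, rfl⟩ := e.surjective z
    rcases w with w | w <;> simp
  rwa [h2] at h1

/-- A matrix bounded by `B` (as an operator on `ℓ²`) is a flat two-slot tensor. -/
theorem Flat.of_matrix (J : I → I → ℝ)
    (h : ∀ f : I → ℝ, ∑ᶠ b, (∑ᶠ a, J a b * f a) ^ 2 ≤ B ^ 2 * ∑ᶠ a, f a ^ 2) :
    Flat B (fun i : Bool → I => J (i false) (i true)) := by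
  have h' : FlOp B J := h
  refine Flat.of_op fun α β _ _ ⟨a₀⟩ ⟨b₀⟩ e => ?_
  have hne : ∀ a b, e (.inl a) ≠ e (.inr b) := fun a b hab => by simpa using e.injective hab
  have key : ∀ x y z : Bool, x ≠ z → y ≠ z → x = y := by decide
  have : Unique α := ⟨⟨a₀⟩, fun a => Sum.inl_injective
    (e.injective (key _ _ _ (hne a b₀) (hne a₀ b₀)))⟩
  have : Unique β := ⟨⟨b₀⟩, fun b => Sum.inr_injective
    (e.injective (key _ _ _ (hne a₀ b).symm (hne a₀ b₀).symm))⟩
  have h0 := hne default default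
  rcases h1 : e (.inl default) with _ | _
  · have h2 : e (.inr default) = true := by simpa [h1] using h0
    refine h'.of_equiv (Equiv.funUnique α I) (Equiv.funUnique β I) fun i o => ?_
    have h3 : e.symm false = .inl default := by rw [← h1, e.symm_apply_apply]
    have h4 : e.symm true = .inr default := by rw [← h2, e.symm_apply_apply]
    simp [h3, h4]
  · have h2 : e (.inr default) = false := by simpa [h1] using h0
    refine h'.transpose.of_equiv (Equiv.funUnique α I) (Equiv.funUnique β I) fun i o => ?_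
    have h3 : e.symm true = .inl default := by rw [← h1, e.symm_apply_apply]
    have h4 : e.symm false = .inr default := by rw [← h2, e.symm_apply_apply]
    simp [h3, h4]

/-- Extension by zero along an injection of index sets. -/
theorem Flat.extend {I' : Type} [Finite I'] [Finite σ] (ι : I → I') (hι : Function.Injective ι)
    {t : (σ → I) → ℝ} (h : Flat B t) (t' : (σ → I') → ℝ) (h1 : ∀ i, t' (ι ∘ i) = t i)
    (h2 : ∀ i', (∃ a, i' a ∉ Set.range ι) → t' i' = 0) : Flat B t' := by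
  refine Flat.of_op fun α β _ _ _ _ e => ?_
  have key : ∀ {γ : Type} (i : γ → I'), i ∉ Set.range (fun j : γ → I => ι ∘ j) →
      ∃ a, i a ∉ Set.range ι := fun i hi => by
    by_contra hcon
    push Not at hcon
    choose j hj using hcon
    exact hi ⟨j, funext hj⟩
  refine (h.op e).extend (u := fun j => ι ∘ j) hι.comp_left (v := fun j => ι ∘ j) hι.comp_left
    (fun a c => ?_) (fun a c ha => ?_) (fun a c hc => ?_)
  · rw [← h1]
    congr 1
    funext x
    obtain ⟨y, rfl⟩ := e.surjective x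
    rcases y with y | y <;> simp
  · obtain ⟨x, hx⟩ := key a ha
    exact h2 _ ⟨e (.inl x), by simpa using hx⟩
  · obtain ⟨x, hx⟩ := key c hc
    exact h2 _ ⟨e (.inr x), by simpa using hx⟩

end Crest.Agent.R285
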