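import Crest.Agent.R285.ExpFam
import Crest.Agent.R285.Poincare
import Crest.Agent.R285.Flat
import Crest.Agent.R285.CumulAux3

/-! Row 285: dimension-free bounds for all flattenings of the derivative tensors of `lZ`. -/

set_option autoImplicit false

open MeasureTheory ProbabilityTheory Crest.OracleSampling
open scoped ENNReal NNReal RealInnerProductSpace ContDiff

namespace Crest.Agent.R285

theorem flat_lZ : ∃ c : ℕ → ℝ, (∀ n, 0 ≤ c n) ∧
    ∀ (d : ℕ) (δ : ℝ) (W : E d → ℝ) (h : Pot 0 δ W), 0 ≤ δ → ∀ (q : ℝ × E d) (σ : Type) [Finite σ],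
      Flat (c (Nat.card σ) * δ * Real.cosh q.1 ^ (2 * Nat.card σ))
        fun i : σ → Fin d => (pdm (eb d) (ms i) (lZs h) : _ → ℝ) q := by
  classical
  refine ⟨fun n => √(CumulAux.cD n), fun n => Real.sqrt_nonneg _, ?_⟩
  rintro d δ W h - ⟨r, b⟩ σ _ α β _ _ hα _ e f
  cases nonempty_fintype α
  cases nonempty_fintype β
  obtain ⟨a⟩ := hα
  have hc : Nat.card σ = Fintype.card {a' // a' ≠ a} + Fintype.card β + 1 := by
    rw [← Nat.card_congr e, Nat.card_eq_fintype_card, Fintype.card_sum, ← CumulAux.Ctx.card_ne a]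
    ring
  have key := ((CumulAux.ctx h r b).op_κ {a' // a' ≠ a} β (n := Nat.card σ) (by omega)).reindex
    (Equiv.funSplitAt a (Fin d)) (Equiv.refl _) f
  have e1 : ∀ (i : α → Fin d) (o : β → Fin d),
      (pdm (eb d) (ms (Sum.elim i o ∘ e.symm)) (lZs h) : _ → ℝ) (r, b) =
        Real.cosh r ^ (2 * (Nat.card σ - 1)) *
          (CumulAux.ctx h r b).κ (i a) (ms (fun a' : {a' // a' ≠ a} => i a') + ms o) := by
    intro i o
    have e2 : ms i = i a ::ₘ ms (fun a' : {a' // a' ≠ a} => i a') := by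
      rw [← ms_equiv (Equiv.optionSubtypeNe a), ms_option]; rfl
    rw [ms_equiv, ms_sum, Sum.elim_comp_inl, Sum.elim_comp_inr, e2, Multiset.cons_add,
      CumulAux.pdm_lZ, hc]
    simp [CumulAux.ms_eq]
  simp only [finsum_eq_sum_of_fintype, e1, mul_assoc, ← Finset.mul_sum, mul_pow]
  rw [Real.sq_sqrt (CumulAux.cD_nonneg _)]
  have h1 : 1 ≤ Real.cosh r := Real.one_le_cosh r
  have h2 : (Real.cosh r ^ (2 * (Nat.card σ - 1))) ^ 2 ≤ (Real.cosh r ^ (2 * Nat.card σ)) ^ 2 := by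
    gcongr
    omega
  have h3 := CumulAux.cD_nonneg (Nat.card σ)
  refine (mul_le_mul h2 key (Finset.sum_nonneg fun _ _ => sq_nonneg _) (sq_nonneg _)).trans
    (le_of_eq ?_)
  change _ * (_ * δ ^ 2 * _) = _
  ring

end Crest.Agent.R285
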