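import Crest.Agent.R285.Sm

/-! Row 285: Hurwitz series (formal jets indexed by multisets) and bounded kernels. -/

set_option autoImplicit false

namespace Crest.Agent.R285.CumulAux

/-- Hurwitz series: formal jets indexed by multisets of directions. -/
def Hur (I R : Type) : Type := Multiset I → R

namespace Hur

variable {I R S : Type} [CommRing R] [CommRing S]

instance : AddCommGroup (Hur I R) := inferInstanceAs (AddCommGroup (Multiset I → R))

omit [CommRing R] in
@[ext] lemma ext {F G : Hur I R} (h : ∀ s, F s = G s) : F = G := funext h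

@[simp] lemma add_apply (F G : Hur I R) (s : Multiset I) : (F + G) s = F s + G s := rfl
@[simp] lemma sub_apply (F G : Hur I R) (s : Multiset I) : (F - G) s = F s - G s := rfl
@[simp] lemma zero_apply (s : Multiset I) : (0 : Hur I R) s = 0 := rfl

lemma sum_apply {ι : Type*} (T : Finset ι) (F : ι → Hur I R) (s : Multiset I) :
    (∑ j ∈ T, F j) s = ∑ j ∈ T, F j s := Finset.sum_apply s T F

instance : Mul (Hur I R) :=
  ⟨fun F G s => ((Multiset.antidiagonal s).map fun p => F p.1 * G p.2).sum⟩

open Classical in
/-- Constants. -/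
noncomputable def C0 (r : R) : Hur I R := fun s => if s = 0 then r else 0

noncomputable instance : One (Hur I R) := ⟨C0 1⟩

/-- The formal partial derivative. -/
def D (a : I) (F : Hur I R) : Hur I R := fun s => F (a ::ₘ s)

omit [CommRing R] in
lemma D_apply (a : I) (F : Hur I R) (s : Multiset I) : D a F s = F (a ::ₘ s) := rfl

lemma mul_apply (F G : Hur I R) (s : Multiset I) :
    (F * G) s = ((Multiset.antidiagonal s).map fun p => F p.1 * G p.2).sum := rfl

@[simp] lemma mul_apply_zero (F G : Hur I R) : (F * G) 0 = F 0 * G 0 := by simp [mul_apply]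

lemma mul_cons (F G : Hur I R) (a : I) (s : Multiset I) :
    (F * G) (a ::ₘ s) = (D a F * G) s + (F * D a G) s := by
  simp only [mul_apply, Multiset.antidiagonal_cons, Multiset.map_add, Multiset.map_map,
    Multiset.sum_add]
  rw [add_comm]
  rfl

lemma D_mul (a : I) (F G : Hur I R) : D a (F * G) = D a F * G + F * D a G :=
  ext fun s => mul_cons F G a s

lemma D_add (a : I) (F G : Hur I R) : D a (F + G) = D a F + D a G := rfl

lemma D_C0 (a : I) (r : R) : D a (C0 r : Hur I R) = 0 := ext fun s => by simp [D, C0]

@[simp] lemma C0_zero (r : R) : (C0 r : Hur I R) 0 = r := by simp [C0]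

lemma C0_cons (r : R) (a : I) (s : Multiset I) : (C0 r : Hur I R) (a ::ₘ s) = 0 := by simp [C0]

lemma left_distrib' (F G H : Hur I R) : F * (G + H) = F * G + F * H :=
  ext fun s => by simp [mul_apply, mul_add, Multiset.sum_map_add]

lemma right_distrib' (F G H : Hur I R) : (F + G) * H = F * H + G * H :=
  ext fun s => by simp [mul_apply, add_mul, Multiset.sum_map_add]

lemma zero_mul' (F : Hur I R) : 0 * F = 0 := ext fun s => by simp [mul_apply]

lemma mul_zero' (F : Hur I R) : F * 0 = 0 := ext fun s => by simp [mul_apply]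

lemma mul_comm' (F G : Hur I R) : F * G = G * F := by
  ext s
  induction s using Multiset.induction_on generalizing F G with
  | empty => simp [mul_comm]
  | cons a s ih => rw [mul_cons, mul_cons, ih, ih F, add_comm]

lemma mul_assoc' (F G H : Hur I R) : F * G * H = F * (G * H) := by
  ext s
  induction s using Multiset.induction_on generalizing F G H with
  | empty => simp [mul_assoc]
  | cons a s ih =>
    rw [mul_cons, mul_cons F, D_mul, D_mul, left_distrib', right_distrib', add_apply, add_apply,
      ih, ih, ih, add_assoc]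

lemma C0_mul_apply (r : R) (F : Hur I R) (s : Multiset I) : (C0 r * F : Hur I R) s = r * F s := by
  induction s using Multiset.induction_on generalizing F with
  | empty => simp
  | cons a s ih => rw [mul_cons, D_C0, zero_mul', ih]; simp [D]

noncomputable instance : CommRing (Hur I R) where
  left_distrib := left_distrib'
  right_distrib := right_distrib'
  zero_mul := zero_mul'
  mul_zero := mul_zero'
  mul_assoc := mul_assoc'
  mul_comm := mul_comm'
  one_mul F := ext fun s => by
    change (C0 1 * F : Hur I R) s = _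
    rw [C0_mul_apply, one_mul]
  mul_one F := ext fun s => by
    rw [mul_comm']
    change (C0 1 * F : Hur I R) s = _
    rw [C0_mul_apply, one_mul]

lemma one_def : (1 : Hur I R) = C0 1 := rfl

@[simp] lemma one_apply_zero : (1 : Hur I R) 0 = 1 := C0_zero 1

lemma one_apply_ne {s : Multiset I} (hs : s ≠ 0) : (1 : Hur I R) s = 0 := by
  simp [one_def, C0, hs]

/-- Multiplicativity of Taylor maps. -/
lemma taylor_mul {A : Type*} [Mul A] [Add A] (T : A → Hur I R) (Dd : I → A → A)
    (hadd : ∀ F G, T (F + G) = T F + T G) (h0 : ∀ F G, T (F * G) 0 = T F 0 * T G 0)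
    (hD : ∀ a F, D a (T F) = T (Dd a F))
    (hL : ∀ a F G, Dd a (F * G) = Dd a F * G + F * Dd a G) (F G : A) :
    T (F * G) = T F * T G := by
  ext s
  induction s using Multiset.induction_on generalizing F G with
  | empty => simp [h0]
  | cons a s ih =>
    rw [mul_cons, ← D_apply a (T (F * G)), hD, hD, hD, hL, hadd, add_apply, ih, ih]

/-- Constants as a ring homomorphism. -/
noncomputable def C : R →+* Hur I R where
  toFun := C0
  map_one' := rfl
  map_mul' r r' := ext fun s => by
    rw [C0_mul_apply]; by_cases hs : s = 0 <;> simp [C0, hs]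
  map_zero' := ext fun s => by simp [C0]
  map_add' r r' := ext fun s => by by_cases hs : s = 0 <;> simp [C0, hs]

lemma C_mul_apply (r : R) (F : Hur I R) (s : Multiset I) : (C r * F : Hur I R) s = r * F s :=
  C0_mul_apply r F s

lemma mul_C_apply (r : R) (F : Hur I R) (s : Multiset I) : (F * C r : Hur I R) s = F s * r := by
  rw [mul_comm, C_mul_apply, mul_comm]

lemma C_apply_zero (r : R) : (C r : Hur I R) 0 = r := C0_zero (I := I) r

lemma C_apply_ne (r : R) {s : Multiset I} (hs : s ≠ 0) : (C r : Hur I R) s = 0 := by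
  simp [C, C0, hs]

/-- Coefficientwise application of a ring homomorphism. -/
noncomputable def map (φ : R →+* S) : Hur I R →+* Hur I S where
  toFun F := fun s => φ (F s)
  map_one' := ext fun s => by by_cases hs : s = 0 <;> simp [one_def, C0, hs]
  map_mul' := taylor_mul (fun F s => φ (F s)) D (fun F G => ext fun s => by simp)
    (fun F G => by simp) (fun _ _ => rfl) D_mul
  map_zero' := ext fun s => by simp
  map_add' F G := ext fun s => by simp

lemma map_apply (φ : R →+* S) (F : Hur I R) (s : Multiset I) : map φ F s = φ (F s) := rfl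

/-- The substitution `η ↦ η₁ + η₂`. -/
noncomputable def add2 : Hur I R →+* Hur I (Hur I R) where
  toFun F := fun s s' => F (s + s')
  map_one' := ext fun s => ext fun s' => by
    by_cases hs : s = 0
    · subst hs; rw [one_apply_zero]; exact congrArg (1 : Hur I R) (zero_add s')
    · rw [one_apply_ne hs]; exact one_apply_ne (by simp [hs])
  map_mul' := taylor_mul (R := Hur I R) (fun F s s' => F (s + s')) D (fun F G => rfl)
    (fun F G => by
      have e : ∀ F : Hur I R, (fun s' => F (0 + s') : Hur I R) = F := fun F => ext fun s => by simp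
      simp only [e])
    (fun a F => ext fun s => ext fun s' => by simp [D]) D_mul
  map_zero' := rfl
  map_add' F G := rfl

lemma add2_apply (F : Hur I R) (s s' : Multiset I) : add2 F s s' = F (s + s') := rfl

/-- The tensor product of a jet in the first variable with a jet in the second variable. -/
lemma tens_apply (F G : Hur I R) (s s' : Multiset I) :
    (map C F * C G : Hur I (Hur I R)) s s' = F s * G s' := by
  rw [mul_C_apply, map_apply, C_mul_apply]

/-- Coefficientwise application of an additive map. -/
def mapE (e : R →+ S) : Hur I R →+ Hur I S where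
  toFun F := fun s => e (F s)
  map_zero' := ext fun s => by simp
  map_add' F G := ext fun s => by simp

lemma mapE_apply (e : R →+ S) (F : Hur I R) (s : Multiset I) : mapE e F s = e (F s) := rfl

lemma mapE_mul (e : R →+ S) (φ : S →+* R) (h : ∀ c f, e (φ c * f) = c * e f) (c : Hur I S)
    (F : Hur I R) : mapE e (map φ c * F) = c * mapE e F := by
  ext s
  simp only [mapE_apply, mul_apply, map_multiset_sum, Multiset.map_map, Function.comp_def,
    map_apply, h]

/-- Expansion of a product along the subsets of a set of slots. -/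
lemma mul_slots {σ : Type*} [DecidableEq σ] (i : σ → I) (T : Finset σ) (F G : Hur I R) :
    (F * G) (T.val.map i) = ∑ U ∈ T.powerset, F (U.val.map i) * G ((T \ U).val.map i) := by
  induction T using Finset.induction_on generalizing F G with
  | empty => simp
  | insert a T ha ih =>
    rw [Finset.insert_val_of_notMem ha, Multiset.map_cons, mul_cons, ih, ih,
      Finset.sum_powerset_insert ha, add_comm]
    congr 1
    · refine Finset.sum_congr rfl fun U hU => ?_
      have hU : U ⊆ T := Finset.mem_powerset.1 hU
      have haU : a ∉ U := fun h => ha (hU h)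
      rw [Finset.insert_sdiff_of_notMem _ haU,
        Finset.insert_val_of_notMem (fun h => ha (Finset.mem_sdiff.1 h).1), Multiset.map_cons]
      rfl
    · refine Finset.sum_congr rfl fun U hU => ?_
      have hU : U ⊆ T := Finset.mem_powerset.1 hU
      have haU : a ∉ U := fun h => ha (hU h)
      rw [Finset.insert_sdiff_insert, Finset.sdiff_insert_of_notMem ha,
        Finset.insert_val_of_notMem haU, Multiset.map_cons]
      rfl

open Classical in
/-- The coordinate function `η_l`. -/
noncomputable def lam (l : I) : Hur I R := fun s => if s = {l} then 1 else 0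

lemma lam_mul_zero (l : I) (F : Hur I R) : (lam l * F : Hur I R) 0 = 0 := by
  have : (0 : Multiset I) ≠ {l} := (Multiset.singleton_ne_zero l).symm
  simp [lam, this]

lemma lam_mul_cons [DecidableEq I] (l a : I) (F : Hur I R) (s : Multiset I) :
    (lam l * F : Hur I R) (a ::ₘ s) = (if a = l then F s else 0) + (lam l * D a F : Hur I R) s := by
  rw [mul_cons]
  congr 1
  split_ifs with h
  · have : D a (lam l : Hur I R) = 1 := ext fun s => by
      subst h
      by_cases hs : s = 0
      · subst hs; simp [D, lam]
      · rw [one_apply_ne hs]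
        have : a ::ₘ s ≠ {a} := by
          rw [← Multiset.cons_zero, Ne, Multiset.cons_inj_right]; exact hs
        simp [D, lam, this]
    rw [this, one_mul]
  · have : D a (lam l : Hur I R) = 0 := ext fun s => by
      have : a ::ₘ s ≠ {l} := fun e => h (by
        have : a ∈ ({l} : Multiset I) := e ▸ Multiset.mem_cons_self a s
        simpa using this)
      simp [D, lam, this]
    rw [this, zero_mul]; rfl

lemma lam_slots [DecidableEq I] {σ : Type*} [DecidableEq σ] (i : σ → I) (T : Finset σ) (l : I)
    (F : Hur I R) : (lam l * F : Hur I R) (T.val.map i) =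
      ∑ a ∈ T, if i a = l then F ((T.erase a).val.map i) else 0 := by
  induction T using Finset.induction_on generalizing F with
  | empty => simpa using lam_mul_zero l F
  | insert a T ha ih =>
    rw [Finset.insert_val_of_notMem ha, Multiset.map_cons, lam_mul_cons, ih, Finset.sum_insert ha,
      Finset.erase_insert ha]
    congr 1
    refine Finset.sum_congr rfl fun b hb => ?_
    have hab : a ≠ b := fun e => ha (e ▸ hb)
    rw [Finset.erase_insert_of_ne hab,
      Finset.insert_val_of_notMem (fun h => ha (Finset.mem_of_mem_erase h)), Multiset.map_cons]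
    rfl

/-- The exponential `exp ⟨η, x⟩`. -/
def ex (x : I → R) : Hur I R := fun s => (s.map x).prod

@[simp] lemma ex_zero (x : I → R) : ex x 0 = 1 := by simp [ex]

lemma ex_cons (x : I → R) (a : I) (s : Multiset I) : ex x (a ::ₘ s) = x a * ex x s := by simp [ex]

lemma D_ex (x : I → R) (a : I) : D a (ex x) = C (x a) * ex x :=
  ext fun s => by rw [C_mul_apply, D_apply, ex_cons]

lemma add2_ex (x : I → R) : add2 (ex x) = map C (ex x) * C (ex x) :=
  ext fun s => ext fun s' => by rw [tens_apply, add2_apply]; simp [ex]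

end Hur

section Slots

variable {I σ : Type}

lemma ms_eq [Fintype σ] (i : σ → I) : ms i = Finset.univ.val.map i := by
  rw [ms, finsum_eq_sum_of_fintype, Finset.sum,
    ← Multiset.sum_map_singleton (Finset.univ.val.map i), Multiset.map_map]
  rfl

lemma ms_subtype [Fintype σ] (p : σ → Prop) [DecidablePred p] (i : σ → I) :
    ms (fun a : {a // p a} => i a) = (Finset.univ.filter p).val.map i := by
  rw [ms_eq, ← Finset.subtype_univ p, ← Finset.subtype_map p, Finset.map_val, Multiset.map_map]
  rfl

end Slots

section Op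

variable {X Y X' Y' : Type} [Fintype X] [Fintype Y] [Fintype X'] [Fintype Y']

/-- The kernel `t` has squared operator norm at most `B`. -/
def Op (B : ℝ) (t : X → Y → ℝ) : Prop :=
  ∀ f : X → ℝ, ∑ y, (∑ x, t x y * f x) ^ 2 ≤ B * ∑ x, f x ^ 2

lemma Op.mono {B B' : ℝ} {t : X → Y → ℝ} (h : Op B t) (hB : B ≤ B') : Op B' t := fun f =>
  (h f).trans (mul_le_mul_of_nonneg_right hB (Finset.sum_nonneg fun _ _ => sq_nonneg _))

lemma Op.reindex {B : ℝ} {t : X → Y → ℝ} (h : Op B t) (e : X' ≃ X) (e' : Y' ≃ Y) :
    Op B fun x y => t (e x) (e' y) := by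
  intro f
  have := h (f ∘ e.symm)
  rw [← e'.sum_comp, ← e.sum_comp] at this
  simp only [← e.sum_comp, Function.comp_apply, Equiv.symm_apply_apply] at this
  exact this

lemma Op.tens {B B' : ℝ} {t : X → Y → ℝ} {t' : X' → Y' → ℝ} (h : Op B t) (h' : Op B' t')
    (hB : 0 ≤ B) : Op (B * B') fun (x : X × X') (y : Y × Y') => t x.1 y.1 * t' x.2 y.2 := by
  intro f
  simp only [Fintype.sum_prod_type]
  rw [Finset.sum_comm]
  calc ∑ y', ∑ y, (∑ x, ∑ x', t x y * t' x' y' * f (x, x')) ^ 2
      = ∑ y', ∑ y, (∑ x, t x y * ∑ x', t' x' y' * f (x, x')) ^ 2 := by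
        simp only [Finset.mul_sum, mul_assoc]
    _ ≤ ∑ y', B * ∑ x, (∑ x', t' x' y' * f (x, x')) ^ 2 := Finset.sum_le_sum fun y' _ => h _
    _ = B * ∑ x, ∑ y', (∑ x', t' x' y' * f (x, x')) ^ 2 := by
        rw [← Finset.mul_sum, Finset.sum_comm]
    _ ≤ B * ∑ x, B' * ∑ x', f (x, x') ^ 2 :=
        mul_le_mul_of_nonneg_left (Finset.sum_le_sum fun x _ => h' fun x' => f (x, x')) hB
    _ = _ := by rw [← Finset.mul_sum, mul_assoc]

lemma Op.sum {ι : Type*} (T : Finset ι) {B : ℝ} {t : ι → X → Y → ℝ} (h : ∀ j ∈ T, Op B (t j)) :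
    Op (T.card ^ 2 * B) fun x y => ∑ j ∈ T, t j x y := by
  intro f
  calc ∑ y, (∑ x, (∑ j ∈ T, t j x y) * f x) ^ 2 = ∑ y, (∑ j ∈ T, ∑ x, t j x y * f x) ^ 2 := by
        simp only [Finset.sum_mul]
        exact Finset.sum_congr rfl fun y _ => by rw [Finset.sum_comm]
    _ ≤ ∑ y, T.card * ∑ j ∈ T, (∑ x, t j x y * f x) ^ 2 :=
        Finset.sum_le_sum fun y _ => sq_sum_le_card_mul_sum_sq
    _ = T.card * ∑ j ∈ T, ∑ y, (∑ x, t j x y * f x) ^ 2 := by
        rw [← Finset.mul_sum, Finset.sum_comm]
    _ ≤ T.card * ∑ j ∈ T, B * ∑ x, f x ^ 2 :=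
        mul_le_mul_of_nonneg_left (Finset.sum_le_sum fun j hj => h j hj f) (Nat.cast_nonneg _)
    _ = _ := by rw [Finset.sum_const, nsmul_eq_mul]; ring

lemma Op.sub {B B' : ℝ} {t t' : X → Y → ℝ} (h : Op B t) (h' : Op B' t') :
    Op (2 * B + 2 * B') fun x y => t x y - t' x y := by
  intro f
  have h1 := h f
  have h2 := h' f
  have : ∑ y, (∑ x, (t x y - t' x y) * f x) ^ 2 ≤
      ∑ y, (2 * (∑ x, t x y * f x) ^ 2 + 2 * (∑ x, t' x y * f x) ^ 2) :=
    Finset.sum_le_sum fun y _ => by
      simp only [sub_mul, Finset.sum_sub_distrib]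
      nlinarith [sq_nonneg (∑ x, t x y * f x + ∑ x, t' x y * f x)]
  rw [Finset.sum_add_distrib, ← Finset.mul_sum, ← Finset.mul_sum] at this
  linarith

lemma Op.of_bilin {B : ℝ} {t : X → Y → ℝ} (hB : 0 ≤ B)
    (h : ∀ (f : X → ℝ) (g : Y → ℝ), (∑ y, (∑ x, t x y * f x) * g y) ^ 2 ≤
      B * (∑ x, f x ^ 2) * ∑ y, g y ^ 2) : Op B t := by
  intro f
  have key := h f fun y => ∑ x, t x y * f x
  simp only [← sq] at key
  set u := ∑ y, (∑ x, t x y * f x) ^ 2
  have hu : 0 ≤ u := Finset.sum_nonneg fun _ _ => sq_nonneg _
  rcases hu.eq_or_lt with h0 | h0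
  · rw [← h0]; exact mul_nonneg hB (Finset.sum_nonneg fun _ _ => sq_nonneg _)
  · rw [sq] at key
    exact le_of_mul_le_mul_right key h0

end Op

end Crest.Agent.R285.CumulAux
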