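import Crest.Agent.R285.Sm
import Crest.Agent.R285.Flat

/-! Row 285: the abstract differential algebra behind the flows; commutation relations. -/

set_option autoImplicit false

namespace Crest.Agent.R285

/-- The algebraic data. -/
structure DAlg where
  I : Type
  [finI : Fintype I]
  [decI : DecidableEq I]
  A : Type
  [cr : CommRing A]
  [alg : Algebra ℝ A]
  p : I → Derivation ℝ A A
  t : I → Derivation ℝ A A
  dr : Derivation ℝ A A
  pp : ∀ a b f, p a (p b f) = p b (p a f)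
  pt : ∀ a b f, p a (t b f) = t b (p a f)
  tt : ∀ a b f, t a (t b f) = t b (t a f)
  pdr : ∀ a f, p a (dr f) = dr (p a f)
  tdr : ∀ a f, t a (dr f) = dr (t a f)
  φ : A
  ρ : A
  x : I → A
  p_φ : ∀ a, p a φ = ρ * t a φ
  dr_φ : dr φ = (1 - ρ ^ 2) * (∑ a, x a * t a φ - ρ * ∑ a, (t a (t a φ) - t a φ ^ 2))
  dr_ρ : dr ρ = 1 - ρ ^ 2
  p_ρ : ∀ a, p a ρ = 0
  t_ρ : ∀ a, t a ρ = 0
  p_x : ∀ a b, p a (x b) = if a = b then 1 else 0
  t_x : ∀ a b, t a (x b) = 0
  dr_x : ∀ a, dr (x a) = 0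
  Jc : I → I → ℝ
  Jc_anti : ∀ a b, Jc a b = -Jc b a
  Jc_le : ∀ f : I → ℝ, ∑ b, (∑ a, Jc a b * f a) ^ 2 ≤ ∑ a, f a ^ 2

attribute [instance] DAlg.finI DAlg.decI DAlg.cr DAlg.alg

namespace DAlg

variable (S : DAlg)

/-- `1 - ρ²`. -/
def χ : S.A := 1 - S.ρ ^ 2
/-- The mean force. -/
def u (a : S.I) : S.A := S.t a S.φ
/-- The Hessian. -/
def H (a b : S.I) : S.A := S.t a (S.t b S.φ)
/-- The score. -/
def Sc (a : S.I) : S.A := S.x a + S.ρ * S.u a
/-- The adjoint of `p a`. -/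
def dl (a : S.I) (F : S.A) : S.A := S.Sc a * F - S.p a F
/-- The derivative along the probability flow. -/
def DD (F : S.A) : S.A := S.dr F - S.χ * ∑ a, S.u a * S.p a F
/-- The antisymmetric matrix field. -/
def J (l κ : ℝ) (a b : S.I) : S.A :=
  algebraMap ℝ S.A (l * S.Jc a b) +
    κ • (S.χ * (∑ c, S.Jc c b • S.H a c + ∑ c, S.Jc a c • S.H c b))
/-- The vector field. -/
def vec (μ l κ : ℝ) (b : S.I) : S.A := ∑ a, S.dl a (S.J l κ a b) - μ • (S.χ * S.u b)
/-- The generator. -/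
def G (μ l κ : ℝ) (F : S.A) : S.A := μ • S.dr F + ∑ b, S.vec μ l κ b * S.p b F
/-- Derivative tensors of the potential. -/
noncomputable def T (s : Multiset S.I) : S.A := iterD S.t S.tt s S.φ

variable {S}

lemma H_symm (a b : S.I) : S.H a b = S.H b a := S.tt a b _

lemma p_χ (a : S.I) : S.p a S.χ = 0 := by simp [χ, S.p_ρ]

lemma t_χ (a : S.I) : S.t a S.χ = 0 := by simp [χ, S.t_ρ]

lemma p_ρ_mul (a : S.I) (F : S.A) : S.p a (S.ρ * F) = S.ρ * S.p a F := by
  simp [S.p_ρ]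

lemma t_ρ_mul (a : S.I) (F : S.A) : S.t a (S.ρ * F) = S.ρ * S.t a F := by
  simp [S.t_ρ]

lemma p_χ_mul (a : S.I) (F : S.A) : S.p a (S.χ * F) = S.χ * S.p a F := by
  simp [p_χ]

lemma t_χ_mul (a : S.I) (F : S.A) : S.t a (S.χ * F) = S.χ * S.t a F := by
  simp [t_χ]

lemma T_cons (a : S.I) (s : Multiset S.I) : S.T (a ::ₘ s) = S.t a (S.T s) := iterD_cons _ _ _

lemma T_one (a : S.I) : S.T {a} = S.u a := iterD_singleton _ _

lemma T_two (a b : S.I) : S.T (a ::ₘ {b}) = S.H a b := by rw [T_cons, T_one]; rfl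

lemma p_T (a : S.I) (s : Multiset S.I) : S.p a (S.T s) = S.ρ * S.T (a ::ₘ s) := by
  induction s using Multiset.induction_on with
  | empty => simpa [T] using S.p_φ a
  | cons b s ih => rw [T_cons, S.pt, ih, t_ρ_mul, ← T_cons, Multiset.cons_swap]

lemma p_u (a b : S.I) : S.p a (S.u b) = S.ρ * S.H a b := by
  rw [← T_one, p_T, T_two]

lemma t_u (a b : S.I) : S.t a (S.u b) = S.H a b := rfl

lemma p_Sc (a b : S.I) :
    S.p a (S.Sc b) = (if a = b then 1 else 0) + S.ρ * (S.ρ * S.H a b) := by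
  rw [Sc, map_add, S.p_x, p_ρ_mul, p_u]

lemma t_Sc (a b : S.I) : S.t a (S.Sc b) = S.ρ * S.H a b := by
  rw [Sc, map_add, S.t_x, t_ρ_mul, t_u, zero_add]

lemma dl_mul (a : S.I) (F K : S.A) : S.dl a F * K = S.dl a (F * K) + F * S.p a K := by
  simp only [dl, Derivation.leibniz, smul_eq_mul]; ring

lemma dl_add (a : S.I) (F K : S.A) : S.dl a (F + K) = S.dl a F + S.dl a K := by
  simp only [dl, map_add]; ring

lemma dl_zero (a : S.I) : S.dl a 0 = 0 := by simp [dl]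

lemma dl_smul (a : S.I) (c : ℝ) (F : S.A) : S.dl a (c • F) = c • S.dl a F := by
  simp only [dl, Derivation.map_smul, smul_sub, mul_smul_comm]

lemma dl_sum {κ : Type*} (a : S.I) (s : Finset κ) (F : κ → S.A) :
    S.dl a (∑ c ∈ s, F c) = ∑ c ∈ s, S.dl a (F c) := by
  simp only [dl, map_sum, Finset.mul_sum, Finset.sum_sub_distrib]

lemma dl_ρ_mul (a : S.I) (F : S.A) : S.dl a (S.ρ * F) = S.ρ * S.dl a F := by
  simp only [dl, p_ρ_mul]; ring

lemma dl_χ_mul (a : S.I) (F : S.A) : S.dl a (S.χ * F) = S.χ * S.dl a F := by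
  simp only [dl, p_χ_mul]; ring

lemma p_dl (a b : S.I) (F : S.A) : S.p a (S.dl b F) = S.dl b (S.p a F) + S.p a (S.Sc b) * F := by
  simp only [dl, map_sub, Derivation.leibniz, smul_eq_mul, S.pp a b]; ring

lemma t_dl (a b : S.I) (F : S.A) :
    S.t a (S.dl b F) = S.dl b (S.t a F) + S.ρ * S.H a b * F := by
  simp only [dl, map_sub, Derivation.leibniz, smul_eq_mul, S.pt b a, t_Sc]; ring

lemma dl_comm (a b : S.I) (F : S.A) : S.dl a (S.dl b F) = S.dl b (S.dl a F) := by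
  have h : S.p a (S.Sc b) = S.p b (S.Sc a) := by
    rw [p_Sc, p_Sc, H_symm a b]; simp only [eq_comm]
  simp only [dl, map_sub, Derivation.leibniz, smul_eq_mul, S.pp a b, h]; ring

lemma DD_add (F K : S.A) : S.DD (F + K) = S.DD F + S.DD K := by
  simp only [DD, map_add, mul_add, Finset.sum_add_distrib]; ring

lemma DD_sub (F K : S.A) : S.DD (F - K) = S.DD F - S.DD K := by
  simp only [DD, map_sub, mul_sub, Finset.sum_sub_distrib]; ring

lemma DD_zero : S.DD 0 = 0 := by simp [DD]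

lemma DD_smul (c : ℝ) (F : S.A) : S.DD (c • F) = c • S.DD F := by
  simp only [DD, Derivation.map_smul, mul_smul_comm, ← Finset.smul_sum, smul_sub]

lemma DD_algebraMap (c : ℝ) : S.DD (algebraMap ℝ S.A c) = 0 := by simp [DD]

lemma DD_mul (F K : S.A) : S.DD (F * K) = S.DD F * K + F * S.DD K := by
  have : ∑ a, S.u a * S.p a (F * K) =
      (∑ a, S.u a * S.p a F) * K + F * ∑ a, S.u a * S.p a K := by
    rw [Finset.sum_mul, Finset.mul_sum, ← Finset.sum_add_distrib]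
    refine Finset.sum_congr rfl fun a _ => ?_
    simp only [Derivation.leibniz, smul_eq_mul]; ring
  simp only [DD, this]
  simp only [Derivation.leibniz, smul_eq_mul]; ring

lemma DD_sum {κ : Type*} (s : Finset κ) (F : κ → S.A) :
    S.DD (∑ c ∈ s, F c) = ∑ c ∈ s, S.DD (F c) := by
  classical
  induction s using Finset.induction_on with
  | empty => simp [DD_zero]
  | insert a s ha ih => rw [Finset.sum_insert ha, Finset.sum_insert ha, DD_add, ih]

lemma DD_ρ : S.DD S.ρ = S.χ := by simp [DD, S.p_ρ, S.dr_ρ, χ]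

lemma DD_x (a : S.I) : S.DD (S.x a) = -(S.χ * S.u a) := by
  simp [DD, S.p_x, S.dr_x]

lemma DD_p (a : S.I) (F : S.A) :
    S.DD (S.p a F) = S.p a (S.DD F) + S.χ * (S.ρ * ∑ c, S.H a c * S.p c F) := by
  simp only [DD, map_sub, p_χ_mul, map_sum, S.pdr]
  simp only [Derivation.leibniz, smul_eq_mul, p_u, Finset.sum_add_distrib, S.pp a, Finset.mul_sum,
    mul_add]
  rw [sub_add, sub_right_inj, add_sub_assoc, left_eq_add, sub_eq_zero]
  exact Finset.sum_congr rfl fun c _ => by ring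

lemma DD_t (a : S.I) (F : S.A) :
    S.DD (S.t a F) = S.t a (S.DD F) + S.χ * ∑ c, S.H a c * S.p c F := by
  simp only [DD, map_sub, t_χ_mul, map_sum, S.tdr]
  simp only [Derivation.leibniz, smul_eq_mul, t_u, Finset.sum_add_distrib, ← S.pt _ a,
    Finset.mul_sum, mul_add]
  rw [sub_add, sub_right_inj, add_sub_assoc, left_eq_add, sub_eq_zero]
  exact Finset.sum_congr rfl fun c _ => by ring

lemma DD_u (a : S.I) : S.DD (S.u a) = ∑ b, S.dl b (S.χ * S.H b a) := by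
  have h1 : S.dr (S.u a) = S.χ * (∑ b, S.x b * S.H b a -
      S.ρ * ∑ b, (S.t b (S.H b a) - 2 * S.u b * S.H b a)) := by
    rw [u, ← S.tdr, S.dr_φ]
    change S.t a (S.χ * _) = _
    rw [t_χ_mul, map_sub, t_ρ_mul, map_sum, map_sum]
    congr 2
    · refine Finset.sum_congr rfl fun b _ => ?_
      rw [Derivation.leibniz, S.t_x, smul_zero, add_zero, smul_eq_mul, ← H_symm]; rfl
    · congr 1
      refine Finset.sum_congr rfl fun b _ => ?_
      rw [map_sub, S.tt a b, sq, Derivation.leibniz, smul_eq_mul, H_symm b a]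
      simp only [u, H]; ring
  have h2 : ∀ b, S.p b (S.H b a) = S.ρ * S.t b (S.H b a) := fun b => by
    rw [← T_two, p_T, T_cons]
  simp only [DD, h1, p_u, dl, p_χ_mul, h2, Sc, Finset.mul_sum, ← Finset.sum_sub_distrib, mul_sub]
  exact Finset.sum_congr rfl fun c _ => by ring

lemma DD_Sc (a : S.I) : S.DD (S.Sc a) = S.ρ * ∑ b, S.dl b (S.χ * S.H b a) := by
  rw [Sc, DD_add, DD_mul, DD_x, DD_ρ, DD_u]; ring

lemma DD_div (F : S.I → S.A) : S.DD (∑ a, S.dl a (F a)) =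
    ∑ a, S.dl a (S.DD (F a) + S.χ * (S.ρ * ∑ c, S.H a c * F c)) := by
  have h : ∀ a, S.DD (S.dl a (F a)) = S.dl a (S.DD (F a)) +
      ∑ b, S.dl b (S.χ * (S.ρ * (S.H b a * F a))) +
      (∑ b, S.χ * (S.ρ * (S.H b a * S.p b (F a))) -
        ∑ b, S.χ * (S.ρ * (S.H a b * S.p b (F a)))) := fun a => by
    rw [dl, DD_sub, DD_mul, DD_Sc, DD_p, dl, mul_assoc, Finset.sum_mul]
    simp only [dl_mul, mul_assoc, dl_χ_mul, dl_ρ_mul, Finset.mul_sum, mul_add,
      Finset.sum_add_distrib, mul_left_comm S.ρ S.χ]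
    ring
  have h' : ∀ a, (∑ b, S.χ * (S.ρ * (S.H b a * S.p b (F a))) -
        ∑ b, S.χ * (S.ρ * (S.H a b * S.p b (F a)))) = 0 := fun a => by
    rw [sub_eq_zero]; exact Finset.sum_congr rfl fun b _ => by rw [H_symm]
  simp only [DD_sum, h, h', add_zero, Finset.sum_add_distrib, dl_add, Finset.mul_sum, dl_sum]
  rw [Finset.sum_comm]

lemma J_anti (l κ : ℝ) (a b : S.I) : S.J l κ a b = -S.J l κ b a := by
  simp only [J]
  rw [S.Jc_anti a b, mul_neg, map_neg, neg_add, ← smul_neg, ← mul_neg, neg_add, add_comm (-_) (-_),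
    ← Finset.sum_neg_distrib, ← Finset.sum_neg_distrib]
  have e1 : ∑ c, S.Jc c b • S.H a c = ∑ c, -(S.Jc b c • S.H c a) :=
    Finset.sum_congr rfl fun c _ => by rw [S.Jc_anti c b, neg_smul, H_symm]
  have e2 : ∑ c, S.Jc a c • S.H c b = ∑ c, -(S.Jc c a • S.H b c) :=
    Finset.sum_congr rfl fun c _ => by rw [S.Jc_anti a c, neg_smul, H_symm]
  rw [e1, e2]

lemma sum_anti (K P : S.I → S.I → S.A) (hK : ∀ a b, K a b = -K b a) (hP : ∀ a b, P a b = P b a) :
    ∑ a, ∑ b, K a b * P a b = 0 := by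
  have h : ∑ a, ∑ b, K a b * P a b = -∑ a, ∑ b, K a b * P a b := by
    conv_lhs => rw [Finset.sum_comm]
    simp only [← Finset.sum_neg_distrib]
    exact Finset.sum_congr rfl fun a _ => Finset.sum_congr rfl fun b _ => by
      rw [hK b a, hP b a, neg_mul]
  have h2 : (2 : ℝ) • ∑ a, ∑ b, K a b * P a b = 0 := by
    rw [two_smul]; exact eq_neg_iff_add_eq_zero.1 h
  have := congrArg (fun y => (2 : ℝ)⁻¹ • y) h2
  simpa [smul_smul] using this

lemma G_eq (μ l κ : ℝ) (F : S.A) :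
    S.G μ l κ F = μ • S.DD F + ∑ a, S.dl a (∑ b, S.J l κ a b * S.p b F) := by
  have h0 := sum_anti (S.J l κ) (fun a b => S.p a (S.p b F)) (J_anti l κ) fun a b => S.pp a b F
  have h1 : ∑ b, (∑ a, S.dl a (S.J l κ a b)) * S.p b F =
      ∑ a, S.dl a (∑ b, S.J l κ a b * S.p b F) := by
    simp only [Finset.sum_mul, dl_mul, Finset.sum_add_distrib, dl_sum]
    rw [Finset.sum_comm, Finset.sum_comm (f := fun b a => S.J l κ a b * S.p a (S.p b F)), h0,
      add_zero]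
  simp only [G, vec, sub_mul, Finset.sum_sub_distrib, h1, DD, smul_sub, smul_mul_assoc,
    ← Finset.smul_sum, mul_assoc, ← Finset.mul_sum]
  ring

/-- The continuity equation for the log-density. -/
lemma continuity (μ l κ : ℝ) :
    S.G μ l κ (-((2 : ℝ)⁻¹ • ∑ a, S.x a ^ 2) - S.φ) + ∑ b, S.p b (S.vec μ l κ b) = 0 := by
  have hp : ∀ b, S.p b (-((2 : ℝ)⁻¹ • ∑ a, S.x a ^ 2) - S.φ) = -S.Sc b := fun b => by
    have : S.p b (∑ a, S.x a ^ 2) = (2 : ℝ) • S.x b := by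
      simp [map_sum, S.p_x, two_smul]
    rw [map_sub, map_neg, Derivation.map_smul, this, smul_smul, S.p_φ, Sc, u]
    norm_num; ring
  have hd : S.dr (-((2 : ℝ)⁻¹ • ∑ a, S.x a ^ 2) - S.φ) = -S.dr S.φ := by
    simp [map_sum, S.dr_x]
  have h0 : ∑ b, S.dl b (∑ a, S.dl a (S.J l κ a b)) = 0 := by
    have h : ∑ b, ∑ a, S.dl b (S.dl a (S.J l κ a b)) =
        -∑ b, ∑ a, S.dl b (S.dl a (S.J l κ a b)) := by
      conv_lhs => rw [Finset.sum_comm]
      simp only [← Finset.sum_neg_distrib]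
      refine Finset.sum_congr rfl fun a _ => Finset.sum_congr rfl fun b _ => ?_
      rw [dl_comm, J_anti, ← neg_one_smul ℝ (S.J l κ b a), dl_smul, dl_smul, neg_one_smul]
    have h2 : (2 : ℝ) • ∑ b, ∑ a, S.dl b (S.dl a (S.J l κ a b)) = 0 := by
      rw [two_smul]; exact eq_neg_iff_add_eq_zero.1 h
    have := congrArg (fun y => (2 : ℝ)⁻¹ • y) h2
    simpa [smul_smul, dl_sum] using this
  have h1 : ∑ b, S.vec μ l κ b * -S.Sc b + ∑ b, S.p b (S.vec μ l κ b) =
      -∑ b, S.dl b (S.vec μ l κ b) := by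
    rw [← Finset.sum_add_distrib, ← Finset.sum_neg_distrib]
    exact Finset.sum_congr rfl fun b _ => by rw [dl]; ring
  have h3 : ∑ b, S.dl b (S.vec μ l κ b) = -(μ • ∑ b, S.dl b (S.χ * S.u b)) := by
    have : ∀ b, S.dl b (S.vec μ l κ b) =
        S.dl b (∑ a, S.dl a (S.J l κ a b)) - μ • S.dl b (S.χ * S.u b) := fun b => by
      rw [vec, sub_eq_add_neg, dl_add, ← neg_smul, dl_smul, neg_smul, sub_eq_add_neg]
    simp only [this, Finset.sum_sub_distrib, h0, zero_sub, Finset.smul_sum]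
  have h4 : ∑ b, S.dl b (S.χ * S.u b) = S.dr S.φ := by
    rw [S.dr_φ]
    change _ = S.χ * (∑ a, S.x a * S.u a - S.ρ * ∑ a, (S.H a a - S.u a ^ 2))
    simp only [dl, p_χ_mul, p_u, Sc, Finset.mul_sum, ← Finset.sum_sub_distrib, mul_sub]
    exact Finset.sum_congr rfl fun c _ => by ring
  simp only [G, hp, hd]
  rw [add_assoc, h1, h3, h4]
  simp

end DAlg

end Crest.Agent.R285
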