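import Crest.Agent.R285.DA1

/-! Row 285: the probabilistic data attached to the differential algebra. -/

set_option autoImplicit false

namespace Crest.Agent.R285

/-- Evaluation, expectation and the quantitative hypotheses. -/
structure Setup (c : ℕ → ℝ) (D : DAlg) where
  Pt : Type
  ev : Pt → D.A →ₐ[ℝ] ℝ
  PG : Subalgebra ℝ D.A
  Ex : D.A →ₗ[ℝ] ℝ
  Ex_nonneg : ∀ F ∈ PG, (∀ q, 0 ≤ ev q F) → 0 ≤ Ex F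
  Ex_one : Ex 1 = 1
  ibp : ∀ a F, F ∈ PG → D.p a F ∈ PG → Ex (D.dl a F) = 0
  x_mem : ∀ a, D.x a ∈ PG
  u_mem : ∀ a, D.u a ∈ PG
  bdd_mem : ∀ (F : D.A) (B : ℝ), (∀ q, |ev q F| ≤ B) → F ∈ PG
  Λ : ℝ
  δ : ℝ
  M : ℝ
  one_le_Λ : 1 ≤ Λ
  δ_pos : 0 < δ
  δ_le : δ ≤ 1
  card_le : (Fintype.card D.I : ℝ) ≤ M ^ 2
  Ex_u : Ex (∑ a, D.u a ^ 2) ≤ M ^ 2
  ρ_le : ∀ q, |ev q D.ρ| ≤ 1
  flat : ∀ (q : Pt) (σ : Type) [Finite σ],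
    Flat (c (Nat.card σ) * δ * Λ ^ (2 * Nat.card σ)) fun i : σ → D.I => ev q (D.T (ms i))

end Crest.Agent.R285
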