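import Crest.Agent.R285.DA2Def

/-! Row 285: tensor operations in the differential algebra. -/

set_option autoImplicit false

namespace Crest.Agent.R285

/-- Moving an optional slot to the left summand. -/
def oL (σ τ : Type) : Option (σ ⊕ τ) ≃ Option σ ⊕ τ where
  toFun
    | none => .inl none
    | some (.inl a) => .inl (some a)
    | some (.inr b) => .inr b
  invFun
    | .inl none => none
    | .inl (some a) => some (.inl a)
    | .inr b => some (.inr b)
  left_inv := by rintro (_ | _ | _) <;> rfl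
  right_inv := by rintro ((_ | _) | _) <;> rfl

/-- Moving an optional slot to the right summand. -/
def oR (σ τ : Type) : Option (σ ⊕ τ) ≃ σ ⊕ Option τ where
  toFun
    | none => .inr none
    | some (.inl a) => .inl a
    | some (.inr b) => .inr (some b)
  invFun
    | .inr none => none
    | .inl a => some (.inl a)
    | .inr (some b) => some (.inr b)
  left_inv := by rintro (_ | _ | _) <;> rfl
  right_inv := by rintro (_ | _ | _) <;> rfl

/-- Exchanging two optional slots. -/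
def oS (σ : Type) : Option (Option σ) ≃ Option (Option σ) where
  toFun
    | none => some none
    | some none => none
    | some (some a) => some (some a)
  invFun
    | none => some none
    | some none => none
    | some (some a) => some (some a)
  left_inv := by rintro (_ | _ | _) <;> rfl
  right_inv := by rintro (_ | _ | _) <;> rfl

/-- An optional slot as a right summand. -/
def oU (σ : Type) : Option σ ≃ σ ⊕ Unit where
  toFun
    | none => .inr ()
    | some a => .inl a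
  invFun
    | .inr _ => none
    | .inl a => some a
  left_inv := by rintro (_ | _) <;> rfl
  right_inv := by rintro (_ | _) <;> rfl

/-- A left summand as an optional slot. -/
def uO (σ : Type) : Unit ⊕ σ ≃ Option σ where
  toFun
    | .inl _ => none
    | .inr a => some a
  invFun
    | none => .inl ()
    | some a => .inr a
  left_inv := by rintro (_ | _) <;> rfl
  right_inv := by rintro (_ | _) <;> rfl

/-- Adding a value in the optional slot. -/
def cons {σ I : Type} (a : I) (j : σ → I) : Option σ → I := fun o => o.elim a j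

@[simp] lemma cons_none {σ I : Type} (a : I) (j : σ → I) : cons a j none = a := rfl

@[simp] lemma cons_comp_some {σ I : Type} (a : I) (j : σ → I) : cons a j ∘ some = j := rfl

lemma cons_self {σ I : Type} (j : Option σ → I) : cons (j none) (j ∘ some) = j := by
  funext o; cases o <;> rfl

lemma finsum_option {σ I R : Type} [Finite σ] [Fintype I] [AddCommMonoid R]
    (g : (Option σ → I) → R) : ∑ᶠ j, g j = ∑ᶠ j : σ → I, ∑ a, g (cons a j) := by
  classical
  cases nonempty_fintype σ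
  simp only [finsum_eq_sum_of_fintype]
  rw [Finset.sum_comm, ← Fintype.sum_prod_type']
  refine Fintype.sum_equiv (⟨fun j => (j none, j ∘ some), fun x => cons x.1 x.2,
    fun j => cons_self j, fun _ => rfl⟩ : (Option σ → I) ≃ I × (σ → I)) _ _ fun j => ?_
  exact congrArg g (cons_self j).symm

lemma finsum_unit {I R : Type} [Fintype I] [AddCommMonoid R] (g : (Unit → I) → R) :
    ∑ᶠ j, g j = ∑ a, g fun _ => a := by
  classical
  rw [finsum_eq_sum_of_fintype]
  exact Fintype.sum_equiv (Equiv.funUnique Unit I) _ _ fun j => rfl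

/-- A matrix as a tensor. -/
def mat {I R : Type} (K : I → I → R) : (Unit ⊕ Unit → I) → R :=
  fun j => K (j (.inl ())) (j (.inr ()))

section Ctr

variable {I R : Type} [Fintype I] [CommRing R] {σ σ₁ σ₂ S : Type}

/-- A matrix acting on the optional slot. -/
def mv (K : I → I → R) (F : (Option σ → I) → R) : (Option σ → I) → R :=
  fun j => ∑ c, K (j none) c * F (cons c (j ∘ some))

lemma mv_eq (K : I → I → R) (F : (Option σ → I) → R) (j : Option σ → I) :
    mv K F j = ctr (mat K) (fun j' => F (j' ∘ oU σ)) (j ∘ uO σ) := by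
  rw [ctr, finsum_unit, mv]
  refine Finset.sum_congr rfl fun c _ => ?_
  congr 2
  funext o; cases o <;> rfl

lemma mat_mul_eq (K K' : I → I → R) (j : Unit ⊕ Unit → I) :
    mat (fun a b => ∑ c, K a c * K' c b) j =
      ctr (mat K) (fun j' => mat K' (j' ∘ Equiv.sumComm Unit Unit)) j := by
  rw [ctr, finsum_unit]; rfl

omit [Fintype I] in
lemma ctr_comm (t₁ : (σ₁ ⊕ S → I) → R) (t₂ : (σ₂ ⊕ S → I) → R) (j : σ₁ ⊕ σ₂ → I) :
    ctr t₁ t₂ j = ctr t₂ t₁ (j ∘ Equiv.sumComm σ₂ σ₁) := by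
  simp only [ctr, mul_comm]; rfl

lemma map_ctr [Finite S] {R' : Type} [CommRing R'] (f : R →+* R') (t₁ : (σ₁ ⊕ S → I) → R)
    (t₂ : (σ₂ ⊕ S → I) → R) (j : σ₁ ⊕ σ₂ → I) :
    f (ctr t₁ t₂ j) = ctr (fun i => f (t₁ i)) (fun i => f (t₂ i)) j := by
  classical
  cases nonempty_fintype S
  simp only [ctr, finsum_eq_sum_of_fintype, map_sum, map_mul]

lemma leib_ctr [Finite S] (Q : R →+ R) (hQ : ∀ x y, Q (x * y) = Q x * y + x * Q y)
    (t₁ : (σ₁ ⊕ S → I) → R) (t₂ : (σ₂ ⊕ S → I) → R) (j : σ₁ ⊕ σ₂ → I) :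
    Q (ctr t₁ t₂ j) = ctr (fun i => Q (t₁ i)) t₂ j + ctr t₁ (fun i => Q (t₂ i)) j := by
  classical
  cases nonempty_fintype S
  simp only [ctr, finsum_eq_sum_of_fintype, map_sum, hQ, Finset.sum_add_distrib]

lemma ctr_add_left [Finite S] (t₁ t₁' : (σ₁ ⊕ S → I) → R) (t₂ : (σ₂ ⊕ S → I) → R)
    (j : σ₁ ⊕ σ₂ → I) : ctr (fun i => t₁ i + t₁' i) t₂ j = ctr t₁ t₂ j + ctr t₁' t₂ j := by
  classical
  cases nonempty_fintype S
  simp only [ctr, finsum_eq_sum_of_fintype, add_mul, Finset.sum_add_distrib]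

lemma ctr_mem [Finite S] [Algebra ℝ R] (P : Subalgebra ℝ R) {t₁ : (σ₁ ⊕ S → I) → R}
    {t₂ : (σ₂ ⊕ S → I) → R} (h₁ : ∀ i, t₁ i ∈ P) (h₂ : ∀ i, t₂ i ∈ P) (j : σ₁ ⊕ σ₂ → I) :
    ctr t₁ t₂ j ∈ P := by
  classical
  cases nonempty_fintype S
  simp only [ctr, finsum_eq_sum_of_fintype]
  exact P.sum_mem fun s _ => P.mul_mem (h₁ _) (h₂ _)

/-- Gradient with respect to a family of derivations. -/
def gr [Algebra ℝ R] (X : I → Derivation ℝ R R) (F : (σ → I) → R) : (Option σ → I) → R :=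
  fun j => X (j none) (F (j ∘ some))

lemma gr_ctr [Finite S] [Algebra ℝ R] (X : I → Derivation ℝ R R) (t₁ : (σ₁ ⊕ S → I) → R)
    (t₂ : (σ₂ ⊕ S → I) → R) (j : Option (σ₁ ⊕ σ₂) → I) :
    gr X (ctr t₁ t₂) j = ctr (fun j' => gr X t₁ (j' ∘ oL σ₁ S)) t₂ (j ∘ (oL σ₁ σ₂).symm) +
      ctr t₁ (fun j' => gr X t₂ (j' ∘ oL σ₂ S)) (j ∘ (oR σ₁ σ₂).symm) := by
  have := leib_ctr (X (j none) : R →ₗ[ℝ] R).toAddMonoidHom
    (fun x y => by simp [Derivation.leibniz, add_comm, mul_comm]) t₁ t₂ (j ∘ some)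
  refine this.trans ?_
  congr 1
  · simp only [ctr]
    refine finsum_congr fun s => ?_
    congr 1
    change X (j none) _ = X (j none) _
    congr 2
    funext o; cases o <;> rfl
  · simp only [ctr]
    refine finsum_congr fun s => ?_
    congr 1
    change X (j none) _ = X (j none) _
    congr 2
    funext o; cases o <;> rfl

end Ctr

namespace DAlg

variable {D : DAlg} {σ σ₁ σ₂ S : Type}

variable (D) in
/-- Divergence in the optional slot. -/
def dv (F : (Option σ → D.I) → D.A) : (σ → D.I) → D.A := fun j => ∑ a, D.dl a (F (cons a j))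

variable (D) in
/-- `DD` as an additive map. -/
def DDa : D.A →+ D.A := AddMonoidHom.mk' D.DD DD_add

lemma DD_ctr [Finite S] (t₁ : (σ₁ ⊕ S → D.I) → D.A) (t₂ : (σ₂ ⊕ S → D.I) → D.A)
    (j : σ₁ ⊕ σ₂ → D.I) :
    D.DD (ctr t₁ t₂ j) = ctr (fun i => D.DD (t₁ i)) t₂ j + ctr t₁ (fun i => D.DD (t₂ i)) j :=
  leib_ctr D.DDa DD_mul t₁ t₂ j

lemma ctr_dv [Finite S] (t₁ : (Option (σ₁ ⊕ S) → D.I) → D.A) (t₂ : (σ₂ ⊕ S → D.I) → D.A)
    (j : σ₁ ⊕ σ₂ → D.I) :
    ctr (D.dv t₁) t₂ j =
      D.dv (fun j' => ctr (fun j'' => t₁ (j'' ∘ oL σ₁ S)) t₂ (j' ∘ (oL σ₁ σ₂).symm)) j +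
      ctr (fun j' => t₁ (j' ∘ oR σ₁ S)) (fun j' => gr D.p t₂ (j' ∘ oR σ₂ S)) j := by
  classical
  cases nonempty_fintype S
  simp only [ctr]
  rw [finsum_option]
  simp only [finsum_eq_sum_of_fintype, dv, Finset.sum_mul, dl_mul, Finset.sum_add_distrib, dl_sum]
  congr 1
  · rw [Finset.sum_comm]
    refine Finset.sum_congr rfl fun a _ => Finset.sum_congr rfl fun s _ => ?_
    congr 3
    funext o; rcases o with _ | _ | _ <;> rfl
  · refine Finset.sum_congr rfl fun s _ => Finset.sum_congr rfl fun a _ => ?_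
    congr 1
    · congr 1
      funext o; rcases o with _ | _ | _ <;> rfl
    · change D.p a _ = D.p a _
      congr 2
      funext o; cases o <;> rfl

lemma gr_p_dv (F : (Option σ → D.I) → D.A) (j : Option σ → D.I) :
    gr D.p (D.dv F) j = D.dv (fun j' => gr D.p F (j' ∘ oS σ)) j +
      (F j + D.ρ * (D.ρ * mv D.H F j)) := by
  simp only [gr, dv, map_sum, p_dl, p_Sc, add_mul, Finset.sum_add_distrib, mv, Finset.mul_sum,
    ite_mul, one_mul, zero_mul, Finset.sum_ite_eq, Finset.mem_univ, if_true, cons_self, mul_assoc]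
  congr 1
  refine Finset.sum_congr rfl fun a _ => ?_
  congr 3
  funext o; cases o <;> rfl

lemma gr_t_dv (F : (Option σ → D.I) → D.A) (j : Option σ → D.I) :
    gr D.t (D.dv F) j = D.dv (fun j' => gr D.t F (j' ∘ oS σ)) j + D.ρ * mv D.H F j := by
  simp only [gr, dv, map_sum, t_dl, Finset.sum_add_distrib, mv, Finset.mul_sum, mul_assoc]
  congr 1
  refine Finset.sum_congr rfl fun a _ => ?_
  congr 3
  funext o; cases o <;> rfl

lemma DD_gr_p (F : (σ → D.I) → D.A) (j : Option σ → D.I) :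
    D.DD (gr D.p F j) = gr D.p (fun i => D.DD (F i)) j +
      D.χ * (D.ρ * mv D.H (gr D.p F) j) := DD_p _ _

lemma DD_gr_t (F : (σ → D.I) → D.A) (j : Option σ → D.I) :
    D.DD (gr D.t F j) = gr D.t (fun i => D.DD (F i)) j + D.χ * mv D.H (gr D.p F) j := DD_t _ _

lemma DD_dv (F : (Option σ → D.I) → D.A) (j : σ → D.I) :
    D.DD (D.dv F j) = D.dv (fun i => D.DD (F i) + D.χ * (D.ρ * mv D.H F i)) j :=
  DD_div fun a => F (cons a j)

lemma G_eq' (μ l κ : ℝ) (F : (σ → D.I) → D.A) (j : σ → D.I) :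
    D.G μ l κ (F j) = μ • D.DD (F j) + D.dv (mv (D.J l κ) (gr D.p F)) j := G_eq _ _ _ _

lemma dv_add (F F' : (Option σ → D.I) → D.A) (j : σ → D.I) :
    D.dv (fun i => F i + F' i) j = D.dv F j + D.dv F' j := by
  simp only [dv, dl_add, Finset.sum_add_distrib]

lemma dv_smul (c : ℝ) (F : (Option σ → D.I) → D.A) (j : σ → D.I) :
    D.dv (fun i => c • F i) j = c • D.dv F j := by
  simp only [dv, dl_smul, Finset.smul_sum]

lemma dv_ρ (F : (Option σ → D.I) → D.A) (j : σ → D.I) :
    D.dv (fun i => D.ρ * F i) j = D.ρ * D.dv F j := by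
  simp only [dv, dl_ρ_mul, Finset.mul_sum]

lemma dv_zero (j : σ → D.I) : D.dv (fun _ => 0) j = 0 := by
  simp only [dv, dl_zero, Finset.sum_const_zero]

lemma dv_re {σ' : Type} (e : σ ≃ σ') (F : (Option σ → D.I) → D.A) (j : σ' → D.I) :
    D.dv F (j ∘ e) = D.dv (fun i => F (i ∘ e.optionCongr)) j := by
  simp only [dv]
  refine Finset.sum_congr rfl fun a _ => ?_
  congr 2
  funext o; cases o <;> rfl

lemma T_mat (j : Unit ⊕ Unit → D.I) : D.T (ms j) = mat D.H j := by
  rw [ms_sum, ms_unique, ms_unique, Multiset.singleton_add, T_two]; rfl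

lemma G_smul (μ l κ c : ℝ) (F : D.A) : D.G μ l κ (c • F) = c • D.G μ l κ F := by
  simp only [G, Derivation.map_smul, mul_smul_comm, ← Finset.smul_sum, smul_add, smul_comm μ c]

lemma χ_mul (F : D.A) : D.χ * F = F + (-1 : ℝ) • (D.ρ * (D.ρ * F)) := by
  rw [χ, neg_one_smul]; ring

end DAlg

end Crest.Agent.R285
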