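import Crest.Agent.R285.DA2a

/-! Row 285: the class of uniformly flat tensor fields. -/

set_option autoImplicit false

namespace Crest.Agent.R285

instance sumNontrivial {α β : Type} [Nonempty α] [Nonempty β] : Nontrivial (α ⊕ β) :=
  ⟨⟨.inl (Classical.arbitrary α), .inr (Classical.arbitrary β), Sum.inl_ne_inr⟩⟩

variable {c : ℕ → ℝ} {ι : Type*} {D : ι → DAlg}

variable (D) in
/-- Families of tensor fields. -/
abbrev Fam (σ : Type) := ∀ i : ι, (σ → (D i).I) → (D i).A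

/-- The class of uniformly flat tensor fields. -/
inductive UU (S : ∀ i, Setup c (D i)) : (σ : Type) → Fam D σ → Prop
  | gen (σ : Type) [Finite σ] [Nontrivial σ] (κ : ι → ℝ) (hκ : ∀ i, |κ i| * (S i).δ ≤ 1) :
      UU S σ fun i j => κ i • (D i).T (ms j)
  | cst : UU S (Unit ⊕ Unit) fun i => mat fun a b => algebraMap ℝ (D i).A ((D i).Jc a b)
  | zero (σ : Type) [Finite σ] : UU S σ fun _ _ => 0
  | add {σ : Type} {F F' : Fam D σ} : UU S σ F → UU S σ F' → UU S σ fun i j => F i j + F' i j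
  | rho {σ : Type} {F : Fam D σ} : UU S σ F → UU S σ fun i j => (D i).ρ * F i j
  | smul {σ : Type} {F : Fam D σ} (a : ι → ℝ) (ha : ∀ i, |a i| ≤ 1) : UU S σ F →
      UU S σ fun i j => a i • F i j
  | re {σ σ' : Type} {F : Fam D σ} (e : σ ≃ σ') : UU S σ F → UU S σ' fun i j => F i (j ∘ e)
  | ctr {σ₁ σ₂ T : Type} [Nonempty σ₁] [Nonempty σ₂] [Nonempty T] {F₁ : Fam D (σ₁ ⊕ T)}
      {F₂ : Fam D (σ₂ ⊕ T)} : UU S (σ₁ ⊕ T) F₁ → UU S (σ₂ ⊕ T) F₂ →
      UU S (σ₁ ⊕ σ₂) fun i => ctr (F₁ i) (F₂ i)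

variable {S : ∀ i, Setup c (D i)} {σ σ' : Type} {F F' : Fam D σ}

lemma UU.finite (h : UU S σ F) : Finite σ := by
  induction h with
  | gen => infer_instance
  | cst => infer_instance
  | zero => infer_instance
  | add _ _ h _ => exact h
  | rho _ h => exact h
  | smul _ _ _ h => exact h
  | re e _ h => exact Finite.of_equiv _ e
  | @ctr σ₁ σ₂ T _ _ _ _ _ _ _ h₁ h₂ =>
    have := Finite.sum_left (α := σ₁) T
    have := Finite.sum_left (α := σ₂) T
    infer_instance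

lemma UU.congr (h : UU S σ F) (hF : ∀ i j, F' i j = F i j) : UU S σ F' := by
  have : F' = F := funext fun i => funext fun j => hF i j
  rwa [this]

lemma UU.chi (h : UU S σ F) : UU S σ fun i j => (D i).χ * F i j :=
  (h.add (h.rho.rho.smul (fun _ => -1) fun _ => by simp)).congr fun _ _ => DAlg.χ_mul _

lemma UU.mv [Nonempty σ] {K : ∀ i, (D i).I → (D i).I → (D i).A} {F : Fam D (Option σ)}
    (hK : UU S (Unit ⊕ Unit) fun i => mat (K i)) (h : UU S (Option σ) F) :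
    UU S (Option σ) fun i => mv (K i) (F i) :=
  ((hK.ctr (h.re (oU σ))).re (uO σ)).congr fun _ _ => mv_eq _ _ _

lemma UU.genH (κ : ι → ℝ) (hκ : ∀ i, |κ i| * (S i).δ ≤ 1) :
    UU S (Unit ⊕ Unit) fun i => mat fun a b => κ i • (D i).H a b :=
  (UU.gen (Unit ⊕ Unit) κ hκ).congr fun _ _ => by rw [DAlg.T_mat]; rfl

lemma UU.H : UU S (Unit ⊕ Unit) fun i => mat (D i).H :=
  (UU.genH (fun _ => 1) fun i => by simpa using (S i).δ_le).congr fun _ _ => by simp [mat]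

lemma UU.mat_mul {K K' : ∀ i, (D i).I → (D i).I → (D i).A}
    (hK : UU S (Unit ⊕ Unit) fun i => mat (K i)) (hK' : UU S (Unit ⊕ Unit) fun i => mat (K' i)) :
    UU S (Unit ⊕ Unit) fun i => mat fun a b => ∑ c, K i a c * K' i c b :=
  (hK.ctr (hK'.re (Equiv.sumComm Unit Unit))).congr fun _ _ => mat_mul_eq _ _ _

lemma UU.J (l κ : ι → ℝ) (hl : ∀ i, |l i| ≤ 1) (hκ : ∀ i, |κ i| * (S i).δ ≤ 1) :
    UU S (Unit ⊕ Unit) fun i => mat ((D i).J (l i) (κ i)) := by
  refine ((UU.cst.smul l hl).add (((UU.genH κ hκ).mat_mul UU.cst).add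
    (UU.cst.mat_mul (UU.genH κ hκ))).chi).congr fun i j => ?_
  simp only [mat, DAlg.J, map_mul, Algebra.smul_def, Finset.mul_sum, mul_add]
  congr 2
  · exact Finset.sum_congr rfl fun c _ => by ring
  · exact Finset.sum_congr rfl fun c _ => by ring

/-- Closure under a gradient-like operation. -/
lemma UU.gr_aux (X : ∀ i, (D i).I → Derivation ℝ (D i).A (D i).A)
    (hρ : ∀ i a, X i a (D i).ρ = 0)
    (hgen : ∀ (σ : Type) [Finite σ] [Nontrivial σ] (κ : ι → ℝ), (∀ i, |κ i| * (S i).δ ≤ 1) →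
      UU S (Option σ) fun i => gr (X i) fun j => κ i • (D i).T (ms j))
    (h : UU S σ F) : UU S (Option σ) fun i => gr (X i) (F i) := by
  induction h with
  | gen σ κ hκ => exact hgen σ κ hκ
  | cst => exact (UU.zero _).congr fun i j => by simp [gr, mat]
  | zero σ => exact (UU.zero _).congr fun i j => by simp [gr]
  | add _ _ h h' => exact (h.add h').congr fun i j => by simp [gr]
  | rho _ h => exact h.rho.congr fun i j => by simp [gr, hρ]
  | smul a ha _ h => exact (h.smul a ha).congr fun i j => by simp [gr]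
  | re e _ h => exact (h.re e.optionCongr).congr fun i j => rfl
  | @ctr σ₁ σ₂ T _ _ _ _ _ h₁ h₂ ih₁ ih₂ =>
    have := h₁.finite
    have := Finite.sum_right σ₁ (β := T)
    exact ((((ih₁.re (oL σ₁ T)).ctr h₂).re (oL σ₁ σ₂).symm).add
      ((h₁.ctr (ih₂.re (oL σ₂ T))).re (oR σ₁ σ₂).symm)).congr fun i j => gr_ctr _ _ _ _

lemma gr_t_gen [Finite σ] (κ : ℝ) (i : ι) (j : Option σ → (D i).I) :
    gr (D i).t (fun j => κ • (D i).T (ms j)) j = κ • (D i).T (ms j) := by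
  rw [gr, Derivation.map_smul, ms_option j, DAlg.T_cons]

lemma gr_p_gen [Finite σ] (κ : ℝ) (i : ι) (j : Option σ → (D i).I) :
    gr (D i).p (fun j => κ • (D i).T (ms j)) j = (D i).ρ * κ • (D i).T (ms j) := by
  rw [gr, Derivation.map_smul, ms_option j, DAlg.p_T, mul_smul_comm]

lemma UU.grad (h : UU S σ F) : UU S (Option σ) fun i => gr (D i).p (F i) :=
  h.gr_aux (fun i => (D i).p) (fun i => (D i).p_ρ) fun σ _ _ κ hκ =>
    (UU.gen (Option σ) κ hκ).rho.congr fun i j => gr_p_gen _ i j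

lemma UU.tgrad (h : UU S σ F) : UU S (Option σ) fun i => gr (D i).t (F i) :=
  h.gr_aux (fun i => (D i).t) (fun i => (D i).t_ρ) fun σ _ _ κ hκ =>
    (UU.gen (Option σ) κ hκ).congr fun i j => gr_t_gen _ i j

variable (S) in
/-- The derivative along the probability flow is a divergence plus a flat field. -/
def HasDD (σ : Type) (F : Fam D σ) : Prop :=
  ∃ (F' : Fam D (Option σ)) (F'' : Fam D σ), UU S _ F' ∧ UU S _ F'' ∧
    ∀ i j, (D i).DD (F i j) = (D i).dv (F' i) j + F'' i j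

lemma HasDD.congr (h : HasDD S σ F) (hF : ∀ i j, F' i j = F i j) : HasDD S σ F' := by
  have : F' = F := funext fun i => funext fun j => hF i j
  rwa [this]

lemma HasDD.re (h : HasDD S σ F) (e : σ ≃ σ') : HasDD S σ' fun i j => F i (j ∘ e) := by
  obtain ⟨F', F'', h', h'', h⟩ := h
  exact ⟨_, _, h'.re e.optionCongr, h''.re e, fun i j => by rw [h, DAlg.dv_re]⟩

lemma hasDD_gen (κ : ι → ℝ) (hκ : ∀ i, |κ i| * (S i).δ ≤ 1) (σ : Type) [Finite σ] :
    Nonempty σ → HasDD S σ fun i j => κ i • (D i).T (ms j) := by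
  refine Finite.induction_empty_option
    (P := fun σ => Nonempty σ → HasDD S σ fun i j => κ i • (D i).T (ms j)) ?_ ?_ ?_ σ
  · intro α β e h hβ
    exact ((h (e.nonempty_congr.2 hβ)).re e).congr fun i j => by rw [ms_equiv]
  · rintro ⟨⟨⟩⟩
  · intro α _ ih _
    rcases isEmpty_or_nonempty α with hα | hα
    · refine ⟨_, _, (UU.gen (Option (Option α)) κ hκ).chi, UU.zero _, fun i j => ?_⟩
      beta_reduce
      rw [add_zero, ms_option, ms_empty, Multiset.cons_zero, DAlg.T_one, DAlg.DD_smul, DAlg.DD_u,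
        DAlg.dv, Finset.smul_sum]
      refine Finset.sum_congr rfl fun a _ => ?_
      rw [ms_option, cons_comp_some, ms_option j, ms_empty, Multiset.cons_zero, cons_none,
        DAlg.T_two, mul_smul_comm, DAlg.dl_smul]
    · obtain ⟨F', F'', h', h'', h⟩ := ih hα
      refine ⟨_, _, h'.tgrad.re (oS α), ((UU.H.mv h').rho.add h''.tgrad).add
        (UU.H.mv (UU.gen (Option α) κ hκ).rho).chi, fun i j => ?_⟩
      beta_reduce at h ⊢
      rw [← gr_t_gen, DAlg.DD_gr_t]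
      simp only [h]
      have e1 : gr (D i).t (fun j => (D i).dv (F' i) j + F'' i j) j =
          gr (D i).t ((D i).dv (F' i)) j + gr (D i).t (F'' i) j := by simp [gr]
      have e2 : gr (D i).p (fun j : α → (D i).I => κ i • (D i).T (ms j)) =
          fun j => (D i).ρ * κ i • (D i).T (ms j) := funext fun j => gr_p_gen _ i j
      rw [e1, e2, DAlg.gr_t_dv]
      simp only [add_assoc]

lemma hasDD_ctr_left {σ₁ σ₂ T : Type} [Nonempty σ₁] [Nonempty σ₂] [Nonempty T]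
    {F₁ : Fam D (σ₁ ⊕ T)} {F₂ : Fam D (σ₂ ⊕ T)} (h₁ : HasDD S _ F₁) (h₂ : UU S _ F₂) :
    ∃ (F' : Fam D (Option (σ₁ ⊕ σ₂))) (F'' : Fam D (σ₁ ⊕ σ₂)), UU S _ F' ∧ UU S _ F'' ∧
      ∀ i j, ctr (fun j' => (D i).DD (F₁ i j')) (F₂ i) j = (D i).dv (F' i) j + F'' i j := by
  obtain ⟨F', F'', h', h'', h⟩ := h₁
  have := h₂.finite
  have := Finite.sum_right σ₂ (β := T)
  refine ⟨_, _, ((h'.re (oL σ₁ T)).ctr h₂).re (oL σ₁ σ₂).symm,
    ((h'.re (oR σ₁ T)).ctr (h₂.grad.re (oR σ₂ T))).add (h''.ctr h₂), fun i j => ?_⟩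
  simp only [h]
  rw [ctr_add_left, DAlg.ctr_dv, add_assoc]

lemma UU.hasDD (h : UU S σ F) : HasDD S σ F := by
  induction h with
  | gen σ κ hκ => exact hasDD_gen κ hκ σ inferInstance
  | cst => exact ⟨_, _, UU.zero _, UU.zero _, fun i j => by
      rw [DAlg.dv_zero, add_zero]; exact DAlg.DD_algebraMap _⟩
  | zero σ => exact ⟨_, _, UU.zero _, UU.zero _, fun i j => by
      rw [DAlg.dv_zero, add_zero, DAlg.DD_zero]⟩
  | add _ _ h₁ h₂ =>
    obtain ⟨F₁, F₁', h₁, h₁', e₁⟩ := h₁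
    obtain ⟨F₂, F₂', h₂, h₂', e₂⟩ := h₂
    exact ⟨_, _, h₁.add h₂, h₁'.add h₂', fun i j => by
      rw [DAlg.DD_add, e₁, e₂, DAlg.dv_add]; ring⟩
  | rho h ih =>
    obtain ⟨F₁, F₁', h₁, h₁', e₁⟩ := ih
    exact ⟨_, _, h₁.rho, h₁'.rho.add h.chi, fun i j => by
      rw [DAlg.DD_mul, e₁, DAlg.dv_ρ, DAlg.DD_ρ]; ring⟩
  | smul a ha _ ih =>
    obtain ⟨F₁, F₁', h₁, h₁', e₁⟩ := ih
    exact ⟨_, _, h₁.smul a ha, h₁'.smul a ha, fun i j => by
      rw [DAlg.DD_smul, e₁, DAlg.dv_smul, smul_add]⟩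
  | re e _ ih => exact ih.re e
  | @ctr σ₁ σ₂ T _ _ _ G₁ G₂ h₁ h₂ ih₁ ih₂ =>
    obtain ⟨F₁, F₁', g₁, g₁', e₁⟩ := hasDD_ctr_left ih₁ h₂
    obtain ⟨F₂, F₂', g₂, g₂', e₂⟩ := hasDD_ctr_left ih₂ h₁
    have := h₂.finite
    have := Finite.sum_right σ₂ (β := T)
    refine ⟨_, _, g₁.add (g₂.re (Equiv.sumComm σ₂ σ₁).optionCongr),
      g₁'.add (g₂'.re (Equiv.sumComm σ₂ σ₁)), fun i j => ?_⟩
    rw [DAlg.DD_ctr, e₁, ctr_comm, e₂, DAlg.dv_add, DAlg.dv_re]; ring

lemma UU.nontrivial_or (h : UU S σ F) : Nontrivial σ ∨ ∀ i j, F i j = 0 := by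
  induction h with
  | gen => exact .inl inferInstance
  | cst => exact .inl inferInstance
  | zero => exact .inr fun _ _ => rfl
  | add _ _ h₁ h₂ =>
    rcases h₁ with h₁ | h₁
    · exact .inl h₁
    rcases h₂ with h₂ | h₂
    · exact .inl h₂
    exact .inr fun i j => by simp [h₁, h₂]
  | rho _ h => exact h.imp_right fun h i j => by simp [h]
  | smul _ _ _ h => exact h.imp_right fun h i j => by simp [h]
  | re e _ h => exact h.imp (fun h => @Function.Injective.nontrivial _ _ h _ e.injective) fun h i j => h _ _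
  | ctr => exact .inl inferInstance

variable (S) in
/-- Polynomially bounded in `Λ`. -/
def Tame (g : ι → ℝ) : Prop :=
  (∀ i, 0 ≤ g i) ∧ ∃ (C : ℝ) (N : ℕ), 0 ≤ C ∧ ∀ i, g i ≤ C * (S i).Λ ^ N

lemma Tame.const {a : ℝ} (ha : 0 ≤ a) : Tame S fun _ => a :=
  ⟨fun _ => ha, a, 0, ha, fun _ => by simp⟩

lemma Tame.pow (n : ℕ) : Tame S fun i => (S i).Λ ^ n :=
  ⟨fun i => pow_nonneg (zero_le_one.trans (S i).one_le_Λ) _, 1, n, zero_le_one, fun _ => by simp⟩

lemma Tame.add {g g' : ι → ℝ} (h : Tame S g) (h' : Tame S g') : Tame S fun i => g i + g' i := by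
  obtain ⟨h0, C, N, hC, h⟩ := h
  obtain ⟨h0', C', N', hC', h'⟩ := h'
  refine ⟨fun i => add_nonneg (h0 i) (h0' i), C + C', N + N', add_nonneg hC hC', fun i => ?_⟩
  have h1 := pow_le_pow_right₀ (S i).one_le_Λ (Nat.le_add_right N N')
  have h2 := pow_le_pow_right₀ (S i).one_le_Λ (Nat.le_add_left N' N)
  nlinarith [h i, h' i, mul_le_mul_of_nonneg_left h1 hC, mul_le_mul_of_nonneg_left h2 hC']

lemma Tame.mul {g g' : ι → ℝ} (h : Tame S g) (h' : Tame S g') : Tame S fun i => g i * g' i := by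
  obtain ⟨h0, C, N, hC, h⟩ := h
  obtain ⟨h0', C', N', hC', h'⟩ := h'
  refine ⟨fun i => mul_nonneg (h0 i) (h0' i), C * C', N + N', mul_nonneg hC hC', fun i => ?_⟩
  refine (mul_le_mul (h i) (h' i) (h0' i) ((h0 i).trans (h i))).trans_eq ?_
  ring

lemma UU.flat (hc : ∀ n, 0 ≤ c n) (h : UU S σ F) :
    ∃ g, Tame S g ∧ ∀ i q, Flat (g i) fun j => (S i).ev q (F i j) := by
  induction h with
  | gen σ κ hκ =>
    refine ⟨_, (Tame.const (hc (Nat.card σ))).mul (Tame.pow (2 * Nat.card σ)), fun i q => ?_⟩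
    have hΛ : 0 ≤ (S i).Λ ^ (2 * Nat.card σ) := pow_nonneg (zero_le_one.trans (S i).one_le_Λ) _
    have := (((S i).flat q σ).smul (κ i)).mono (B' := c (Nat.card σ) * (S i).Λ ^ (2 * Nat.card σ))
      (mul_nonneg (abs_nonneg _) (mul_nonneg (mul_nonneg (hc _) (S i).δ_pos.le) hΛ))
      (by nlinarith [mul_le_mul_of_nonneg_right (hκ i) (mul_nonneg (hc (Nat.card σ)) hΛ)])
    simpa using this
  | cst =>
    refine ⟨_, Tame.const zero_le_one, fun i q => ?_⟩
    have := (Flat.of_matrix (B := 1) (D i).Jc fun f => by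
      simpa [finsum_eq_sum_of_fintype] using (D i).Jc_le f).reindex Equiv.boolEquivPUnitSumPUnit
    simp only [mat, AlgHom.commutes]
    exact this
  | zero => exact ⟨_, Tame.const le_rfl, fun i q => by simpa using Flat.zero⟩
  | add _ _ h₁ h₂ =>
    obtain ⟨g₁, t₁, h₁⟩ := h₁
    obtain ⟨g₂, t₂, h₂⟩ := h₂
    exact ⟨_, t₁.add t₂, fun i q => by
      simpa using (h₁ i q).add (h₂ i q) (t₁.1 i) (t₂.1 i)⟩
  | rho _ h =>
    obtain ⟨g, t, h⟩ := h
    refine ⟨g, t, fun i q => ?_⟩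
    simpa using ((h i q).smul ((S i).ev q (D i).ρ)).mono (mul_nonneg (abs_nonneg _) (t.1 i))
      (mul_le_of_le_one_left (t.1 i) ((S i).ρ_le q))
  | smul a ha _ h =>
    obtain ⟨g, t, h⟩ := h
    refine ⟨g, t, fun i q => ?_⟩
    simpa using ((h i q).smul (a i)).mono (mul_nonneg (abs_nonneg _) (t.1 i))
      (mul_le_of_le_one_left (t.1 i) (ha i))
  | re e _ h =>
    obtain ⟨g, t, h⟩ := h
    exact ⟨g, t, fun i q => (h i q).reindex e⟩
  | @ctr σ₁ σ₂ T _ _ _ G₁ G₂ h₁ h₂ ih₁ ih₂ =>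
    obtain ⟨g₁, t₁, f₁⟩ := ih₁
    obtain ⟨g₂, t₂, f₂⟩ := ih₂
    have := h₁.finite
    have := h₂.finite
    have := Finite.sum_right σ₂ (β := T)
    have := Finite.sum_left (α := σ₁) T
    have := Finite.sum_left (α := σ₂) T
    refine ⟨_, t₁.mul t₂, fun i q => ?_⟩
    have := (f₁ i q).ctr (f₂ i q)
    convert this using 2 with j
    exact map_ctr ((S i).ev q : (D i).A →+* ℝ) _ _ _

end Crest.Agent.R285
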