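import Crest.Agent.R285.DA2b

/-! Row 285: Sobolev classes of tensor fields and Meyer's inequality. -/

set_option autoImplicit false

namespace Crest.Agent.R285

variable {c : ℕ → ℝ}

namespace Setup

variable {D : DAlg} (S : Setup c D) {σ : Type}

lemma Ex_mono {F F' : D.A} (hF : F ∈ S.PG) (hF' : F' ∈ S.PG) (h : ∀ q, S.ev q F ≤ S.ev q F') :
    S.Ex F ≤ S.Ex F' := by
  have := S.Ex_nonneg (F' - F) (S.PG.sub_mem hF' hF) fun q => by
    rw [map_sub]; exact sub_nonneg.2 (h q)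
  rwa [map_sub, sub_nonneg] at this

lemma ρ_mem : D.ρ ∈ S.PG := S.bdd_mem _ 1 S.ρ_le

lemma Sc_mem (a : D.I) : D.Sc a ∈ S.PG :=
  S.PG.add_mem (S.x_mem a) (S.PG.mul_mem S.ρ_mem (S.u_mem a))

lemma dl_mem (a : D.I) {F : D.A} (h : F ∈ S.PG) (h' : D.p a F ∈ S.PG) : D.dl a F ∈ S.PG :=
  S.PG.sub_mem (S.PG.mul_mem (S.Sc_mem a) h) h'

lemma p_mul_mem (a : D.I) {F K : D.A} (h : F ∈ S.PG) (h' : D.p a F ∈ S.PG) (k : K ∈ S.PG)
    (k' : D.p a K ∈ S.PG) : D.p a (F * K) ∈ S.PG := by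
  rw [Derivation.leibniz, smul_eq_mul, smul_eq_mul]
  exact S.PG.add_mem (S.PG.mul_mem h k') (S.PG.mul_mem k h')

lemma Ex_dl_mul (a : D.I) {F K : D.A} (h : F ∈ S.PG) (h' : D.p a F ∈ S.PG) (k : K ∈ S.PG)
    (k' : D.p a K ∈ S.PG) : S.Ex (D.dl a F * K) = S.Ex (F * D.p a K) := by
  rw [DAlg.dl_mul, map_add, S.ibp a _ (S.PG.mul_mem h k) (S.p_mul_mem a h h' k k'), zero_add]

/-- Meyer's inequality. -/
lemma meyer (hH : ∀ a b, D.H a b ∈ S.PG) (f : D.I → D.A) (h0 : ∀ a, f a ∈ S.PG)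
    (h1 : ∀ a b, D.p a (f b) ∈ S.PG) (h2 : ∀ a b e, D.p a (D.p b (f e)) ∈ S.PG) :
    S.Ex ((∑ b, D.dl b (f b)) ^ 2) ≤ S.Ex (∑ a, ∑ b, D.p a (f b) ^ 2) +
      2 * S.Ex (∑ a, f a ^ 2) + S.Ex (∑ a, (∑ b, D.H a b * f b) ^ 2) := by
  have hK : ∑ b, D.dl b (f b) ∈ S.PG := S.PG.sum_mem fun b _ => S.dl_mem b (h0 b) (h1 b b)
  have hS : ∀ a b, D.p a (D.Sc b) ∈ S.PG := fun a b => by
    rw [DAlg.p_Sc]
    refine S.PG.add_mem ?_ (S.PG.mul_mem S.ρ_mem (S.PG.mul_mem S.ρ_mem (hH a b)))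
    split_ifs
    · exact S.PG.one_mem
    · exact S.PG.zero_mem
  have hpK : ∀ a, D.p a (∑ b, D.dl b (f b)) =
      ∑ b, (D.dl b (D.p a (f b)) + D.p a (D.Sc b) * f b) := fun a => by
    simp only [map_sum, DAlg.p_dl]
  have hK' : ∀ a, D.p a (∑ b, D.dl b (f b)) ∈ S.PG := fun a => by
    rw [hpK]
    exact S.PG.sum_mem fun b _ => S.PG.add_mem (S.dl_mem b (h1 a b) (h2 b a b))
      (S.PG.mul_mem (hS a b) (h0 b))
  have e1 : S.Ex ((∑ b, D.dl b (f b)) ^ 2) =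
      S.Ex (∑ a, ∑ b, (D.p a (f b) * D.p b (f a) + f a * (D.p a (D.Sc b) * f b))) := by
    rw [sq, Finset.sum_mul, map_sum, map_sum]
    refine Finset.sum_congr rfl fun a _ => ?_
    rw [S.Ex_dl_mul a (h0 a) (h1 a a) hK (hK' a), hpK, Finset.mul_sum, map_sum, map_sum]
    refine Finset.sum_congr rfl fun b _ => ?_
    rw [mul_add, map_add, map_add, mul_comm (f a) (D.dl _ _),
      S.Ex_dl_mul b (h1 a b) (h2 b a b) (h0 a) (h1 b a)]
  have m1 : ∑ a, ∑ b, D.p a (f b) ^ 2 ∈ S.PG :=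
    S.PG.sum_mem fun a _ => S.PG.sum_mem fun b _ => S.PG.pow_mem (h1 a b) 2
  have m2 : ∑ a, f a ^ 2 ∈ S.PG := S.PG.sum_mem fun a _ => S.PG.pow_mem (h0 a) 2
  have m3 : ∑ a, (∑ b, D.H a b * f b) ^ 2 ∈ S.PG := S.PG.sum_mem fun a _ =>
    S.PG.pow_mem (S.PG.sum_mem fun b _ => S.PG.mul_mem (hH a b) (h0 b)) 2
  rw [e1, ← smul_eq_mul, ← map_smul, ← map_add, ← map_add]
  refine S.Ex_mono (S.PG.sum_mem fun a _ => S.PG.sum_mem fun b _ => S.PG.add_mem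
    (S.PG.mul_mem (h1 a b) (h1 b a)) (S.PG.mul_mem (h0 a) (S.PG.mul_mem (hS a b) (h0 b))))
    (S.PG.add_mem (S.PG.add_mem m1 (S.PG.smul_mem m2 _)) m3) fun q => ?_
  simp only [DAlg.p_Sc, map_sum, map_add, map_mul, map_pow, map_smul, smul_eq_mul,
    Finset.sum_add_distrib, add_mul, ite_mul, one_mul,
    zero_mul, mul_add, mul_ite, mul_zero, Finset.sum_ite_eq, Finset.mem_univ, if_true]
  have hρ : S.ev q D.ρ ^ 2 ≤ 1 := by
    have := S.ρ_le q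
    rw [← sq_abs]; nlinarith [abs_nonneg (S.ev q D.ρ)]
  generalize S.ev q D.ρ = r at hρ
  have i1 : ∑ a, ∑ b, S.ev q (D.p a (f b)) * S.ev q (D.p b (f a)) ≤
      ∑ a, ∑ b, S.ev q (D.p a (f b)) ^ 2 := by
    have : 2 * ∑ a, ∑ b, S.ev q (D.p a (f b)) * S.ev q (D.p b (f a)) ≤
        ∑ a, ∑ b, S.ev q (D.p a (f b)) ^ 2 + ∑ a, ∑ b, S.ev q (D.p b (f a)) ^ 2 := by
      simp only [Finset.mul_sum, ← Finset.sum_add_distrib]
      exact Finset.sum_le_sum fun a _ => Finset.sum_le_sum fun b _ => by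
        nlinarith [sq_nonneg (S.ev q (D.p a (f b)) - S.ev q (D.p b (f a)))]
    rw [Finset.sum_comm (f := fun a b => S.ev q (D.p b (f a)) ^ 2)] at this
    linarith
  have i2 : ∑ a, ∑ b, S.ev q (f a) * (r * (r * S.ev q (D.H a b)) * S.ev q (f b)) ≤
      ∑ a, S.ev q (f a) ^ 2 + ∑ a, (∑ b, S.ev q (D.H a b) * S.ev q (f b)) ^ 2 := by
    rw [← Finset.sum_add_distrib]
    refine Finset.sum_le_sum fun a _ => ?_
    have : ∑ b, S.ev q (f a) * (r * (r * S.ev q (D.H a b)) * S.ev q (f b)) =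
        r ^ 2 * (S.ev q (f a) * ∑ b, S.ev q (D.H a b) * S.ev q (f b)) := by
      simp only [Finset.mul_sum]; exact Finset.sum_congr rfl fun b _ => by ring
    rw [this]
    generalize S.ev q (f a) = x
    generalize ∑ b, S.ev q (D.H a b) * S.ev q (f b) = y
    nlinarith [mul_nonneg (sq_nonneg r) (sq_nonneg (x - y)),
      mul_nonneg (sub_nonneg.2 hρ) (add_nonneg (sq_nonneg x) (sq_nonneg y)),
      sq_nonneg x, sq_nonneg y]
  simp only [← sq]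
  linarith

lemma sqs_mem [Finite σ] {F : (σ → D.I) → D.A} (h : ∀ j, F j ∈ S.PG) : ∑ᶠ j, F j ^ 2 ∈ S.PG := by
  classical
  cases nonempty_fintype σ
  rw [finsum_eq_sum_of_fintype]
  exact S.PG.sum_mem fun j _ => S.PG.pow_mem (h j) 2

lemma ev_sqs [Finite σ] (q : S.Pt) (F : (σ → D.I) → D.A) :
    S.ev q (∑ᶠ j, F j ^ 2) = ∑ᶠ j, S.ev q (F j) ^ 2 := by
  classical
  cases nonempty_fintype σ
  simp only [finsum_eq_sum_of_fintype, map_sum, map_pow]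

lemma Ex_finsum [Finite σ] (F : (σ → D.I) → D.A) : S.Ex (∑ᶠ j, F j) = ∑ᶠ j, S.Ex (F j) := by
  classical
  cases nonempty_fintype σ
  simp only [finsum_eq_sum_of_fintype, map_sum]

lemma meyer' [Finite σ] (hH : ∀ a b, D.H a b ∈ S.PG) (F : (Option σ → D.I) → D.A)
    (h0 : ∀ j, F j ∈ S.PG) (h1 : ∀ j, gr D.p F j ∈ S.PG) (h2 : ∀ j, gr D.p (gr D.p F) j ∈ S.PG) :
    S.Ex (∑ᶠ j, D.dv F j ^ 2) ≤ S.Ex (∑ᶠ j, gr D.p F j ^ 2) + 2 * S.Ex (∑ᶠ j, F j ^ 2) +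
      S.Ex (∑ᶠ j, mv D.H F j ^ 2) := by
  classical
  rw [finsum_option (g := fun j => gr D.p F j ^ 2),
    finsum_option (g := fun j => ∑ a, gr D.p F (cons a j) ^ 2),
    finsum_option (g := fun j => F j ^ 2), finsum_option (g := fun j => mv D.H F j ^ 2)]
  simp only [S.Ex_finsum]
  cases nonempty_fintype σ
  simp only [finsum_eq_sum_of_fintype, Finset.mul_sum, ← Finset.sum_add_distrib]
  refine Finset.sum_le_sum fun j _ => ?_
  have := S.meyer hH (fun a => F (cons a j)) (fun a => h0 _) (fun a b => h1 (cons a (cons b j)))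
    fun a b e => h2 (cons a (cons b (cons e j)))
  rw [Finset.sum_comm] at this
  exact this

lemma Ex_le_of_le [Finite σ] {σ' : Type} [Finite σ'] {F : (σ → D.I) → D.A}
    {F' : (σ' → D.I) → D.A} (h : ∀ j, F j ∈ S.PG) (h' : ∀ j, F' j ∈ S.PG) {a : ℝ}
    (hle : ∀ q, ∑ᶠ j, S.ev q (F j) ^ 2 ≤ a * ∑ᶠ j, S.ev q (F' j) ^ 2) :
    S.Ex (∑ᶠ j, F j ^ 2) ≤ a * S.Ex (∑ᶠ j, F' j ^ 2) := by
  rw [← smul_eq_mul, ← map_smul]
  refine S.Ex_mono (S.sqs_mem h) (S.PG.smul_mem (S.sqs_mem h') _) fun q => ?_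
  rw [map_smul, S.ev_sqs, S.ev_sqs]
  exact hle q

end Setup

variable {ι : Type*} {D : ι → DAlg} {S : ∀ i, Setup c (D i)} {σ σ' : Type} {F F' : Fam D σ}

variable (S) in
/-- Square integrable families. -/
def W0 (σ : Type) (F : Fam D σ) : Prop :=
  Finite σ ∧ (∀ i j, F i j ∈ (S i).PG) ∧
    ∃ g, Tame S g ∧ ∀ i, (S i).Ex (∑ᶠ j, F i j ^ 2) ≤ g i * (S i).M ^ 2

variable (S) in
/-- Sobolev classes. -/
def WW : ℕ → (σ : Type) → Fam D σ → Prop
  | 0, σ, F => W0 S σ F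
  | n + 1, σ, F => W0 S σ F ∧ WW n (Option σ) fun i => gr (D i).p (F i)

lemma W0.congr (h : W0 S σ F) (hF : ∀ i j, F' i j = F i j) : W0 S σ F' := by
  have : F' = F := funext fun i => funext fun j => hF i j
  rwa [this]

lemma WW.congr {n : ℕ} (h : WW S n σ F) (hF : ∀ i j, F' i j = F i j) : WW S n σ F' := by
  have : F' = F := funext fun i => funext fun j => hF i j
  rwa [this]

lemma WW.w0 {n : ℕ} (h : WW S n σ F) : W0 S σ F := by
  cases n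
  · exact h
  · exact h.1

lemma WW.pred {n : ℕ} (h : WW S (n + 1) σ F) : WW S n σ F := by
  induction n generalizing σ with
  | zero => exact h.1
  | succ n ih => exact ⟨h.1, ih h.2⟩

lemma W0.re (h : W0 S σ F) (e : σ ≃ σ') : W0 S σ' fun i j => F i (j ∘ e) := by
  obtain ⟨hf, hm, g, tg, h⟩ := h
  refine ⟨Finite.of_equiv _ e, fun i j => hm i _, g, tg, fun i => ?_⟩
  have := finsum_comp_equiv (e.symm.arrowCongr (Equiv.refl (D i).I)) (f := fun j => F i j ^ 2)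
  exact (congrArg (S i).Ex this).le.trans (h i)

lemma WW.re {n : ℕ} (h : WW S n σ F) (e : σ ≃ σ') : WW S n σ' fun i j => F i (j ∘ e) := by
  induction n generalizing σ σ' with
  | zero => exact W0.re h e
  | succ n ih => exact ⟨h.1.re e, (ih h.2 e.optionCongr).congr fun i j => rfl⟩

lemma W0.add (h : W0 S σ F) (h' : W0 S σ F') : W0 S σ fun i j => F i j + F' i j := by
  classical
  obtain ⟨hf, hm, g, tg, h⟩ := h
  obtain ⟨-, hm', g', tg', h'⟩ := h'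
  refine ⟨hf, fun i j => (S i).PG.add_mem (hm i j) (hm' i j), _,
    ((Tame.const zero_le_two).mul tg).add ((Tame.const zero_le_two).mul tg'), fun i => ?_⟩
  have : (S i).Ex (∑ᶠ j, (F i j + F' i j) ^ 2) ≤
      (S i).Ex ((2 : ℝ) • ∑ᶠ j, F i j ^ 2 + (2 : ℝ) • ∑ᶠ j, F' i j ^ 2) := by
    refine (S i).Ex_mono ((S i).sqs_mem fun j => (S i).PG.add_mem (hm i j) (hm' i j))
      ((S i).PG.add_mem ((S i).PG.smul_mem ((S i).sqs_mem (hm i)) _)
        ((S i).PG.smul_mem ((S i).sqs_mem (hm' i)) _)) fun q => ?_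
    rw [map_add, map_smul, map_smul, (S i).ev_sqs, (S i).ev_sqs, (S i).ev_sqs]
    cases nonempty_fintype σ
    simp only [finsum_eq_sum_of_fintype, smul_eq_mul, Finset.mul_sum, ← Finset.sum_add_distrib,
      map_add]
    exact Finset.sum_le_sum fun j _ => by
      nlinarith [sq_nonneg ((S i).ev q (F i j) - (S i).ev q (F' i j))]
  rw [map_add, map_smul, map_smul, smul_eq_mul, smul_eq_mul] at this
  nlinarith [h i, h' i]

lemma WW.add {n : ℕ} (h : WW S n σ F) (h' : WW S n σ F') :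
    WW S n σ fun i j => F i j + F' i j := by
  induction n generalizing σ with
  | zero => exact W0.add h h'
  | succ n ih => exact ⟨h.1.add h'.1, (ih h.2 h'.2).congr fun i j => by simp [gr]⟩

lemma W0.mul (h : W0 S σ F) (a : ∀ i, (D i).A) (ha : ∀ i q, |(S i).ev q (a i)| ≤ 1) :
    W0 S σ fun i j => a i * F i j := by
  classical
  obtain ⟨hf, hm, g, tg, h⟩ := h
  have hm' : ∀ i j, a i * F i j ∈ (S i).PG := fun i j =>
    (S i).PG.mul_mem ((S i).bdd_mem _ 1 (ha i)) (hm i j)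
  refine ⟨hf, hm', g, tg, fun i => ?_⟩
  refine ((S i).Ex_le_of_le (a := 1) (hm' i) (hm i) fun q => ?_).trans (by simpa using h i)
  cases nonempty_fintype σ
  simp only [finsum_eq_sum_of_fintype, one_mul, map_mul, mul_pow]
  refine Finset.sum_le_sum fun j _ => mul_le_of_le_one_left (sq_nonneg _) ?_
  have := ha i q
  rw [← sq_abs]; nlinarith [abs_nonneg ((S i).ev q (a i))]

lemma WW.rho {n : ℕ} (h : WW S n σ F) : WW S n σ fun i j => (D i).ρ * F i j := by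
  induction n generalizing σ with
  | zero => exact W0.mul h _ fun i => (S i).ρ_le
  | succ n ih => exact ⟨h.1.mul _ fun i => (S i).ρ_le,
      (ih h.2).congr fun i j => by simp [gr, (D i).p_ρ]⟩

lemma WW.smul {n : ℕ} (h : WW S n σ F) (a : ι → ℝ) (ha : ∀ i, |a i| ≤ 1) :
    WW S n σ fun i j => a i • F i j := by
  have h0 : ∀ {σ : Type} {F : Fam D σ}, W0 S σ F → W0 S σ fun i j => a i • F i j := fun h =>
    (h.mul (fun i => algebraMap ℝ _ (a i)) fun i q => by simpa using ha i).congr fun i j =>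
      Algebra.smul_def _ _
  induction n generalizing σ with
  | zero => exact h0 h
  | succ n ih => exact ⟨h0 h.1, (ih h.2).congr fun i j => by simp [gr]⟩

lemma UU.mem (hc : ∀ n, 0 ≤ c n) (h : UU S σ F) (i : ι) (j : σ → (D i).I) : F i j ∈ (S i).PG := by
  have := h.finite
  obtain ⟨g, -, hg⟩ := h.flat hc
  rcases h.nontrivial_or with h | h
  · exact (S i).bdd_mem _ _ fun q => (hg i q).abs_le j
  · rw [h]; exact (S i).PG.zero_mem

lemma UU.w0 (hc : ∀ n, 0 ≤ c n) (h : UU S σ F) : W0 S σ F := by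
  have := h.finite
  obtain ⟨g, tg, hg⟩ := h.flat hc
  refine ⟨this, h.mem hc, _, tg.mul tg, fun i => ?_⟩
  rcases h.nontrivial_or with h' | h'
  · have : (S i).Ex (∑ᶠ j, F i j ^ 2) ≤ (S i).Ex ((g i * g i * (S i).M ^ 2) • 1) := by
      refine (S i).Ex_mono ((S i).sqs_mem (h.mem hc i)) ((S i).PG.smul_mem (S i).PG.one_mem _)
        fun q => ?_
      rw [(S i).ev_sqs, map_smul, map_one, smul_eq_mul, mul_one]
      refine (hg i q).sum_sq.trans ?_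
      rw [Nat.card_eq_fintype_card]
      nlinarith [mul_le_mul_of_nonneg_right (S i).card_le (sq_nonneg (g i))]
    rwa [map_smul, (S i).Ex_one, smul_eq_mul, mul_one] at this
  · simp only [h', ne_eq, OfNat.ofNat_ne_zero, not_false_eq_true, zero_pow, finsum_zero, map_zero]
    exact mul_nonneg (mul_nonneg (tg.1 i) (tg.1 i)) (sq_nonneg _)

lemma UU.ww (hc : ∀ n, 0 ≤ c n) {n : ℕ} (h : UU S σ F) : WW S n σ F := by
  induction n generalizing σ with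
  | zero => exact h.w0 hc
  | succ n ih => exact ⟨h.w0 hc, ih h.grad⟩

lemma W0.ctr (hc : ∀ n, 0 ≤ c n) {σ₁ σ₂ T : Type} [Nonempty σ₁] [Nonempty T]
    {F₁ : Fam D (σ₁ ⊕ T)} {F₂ : Fam D (σ₂ ⊕ T)} (h₁ : UU S _ F₁) (h₂ : W0 S _ F₂) :
    W0 S (σ₁ ⊕ σ₂) fun i => ctr (F₁ i) (F₂ i) := by
  obtain ⟨hf, hm, g, tg, h⟩ := h₂
  obtain ⟨g₁, tg₁, hg₁⟩ := h₁.flat hc
  have := h₁.finite
  have := Finite.sum_right σ₂ (β := T)
  have := Finite.sum_left (α := σ₁) T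
  have := Finite.sum_left (α := σ₂) T
  have hm' : ∀ i j, R285.ctr (F₁ i) (F₂ i) j ∈ (S i).PG := fun i j =>
    ctr_mem _ (h₁.mem hc i) (hm i) j
  refine ⟨inferInstance, hm', _, (tg₁.mul tg₁).mul tg, fun i => ?_⟩
  refine ((S i).Ex_le_of_le (a := g₁ i ^ 2) (hm' i) (hm i) fun q => ?_).trans ?_
  · have := (hg₁ i q).sum_sq_ctr fun j => (S i).ev q (F₂ i j)
    convert this using 4 with j
    exact map_ctr ((S i).ev q : (D i).A →+* ℝ) _ _ _
  · nlinarith [mul_le_mul_of_nonneg_left (h i) (sq_nonneg (g₁ i))]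

lemma WW.ctr (hc : ∀ n, 0 ≤ c n) {n : ℕ} {σ₁ σ₂ T : Type} [Nonempty σ₁] [Nonempty T]
    {F₁ : Fam D (σ₁ ⊕ T)} {F₂ : Fam D (σ₂ ⊕ T)} (h₁ : UU S _ F₁) (h₂ : WW S n _ F₂) :
    WW S n (σ₁ ⊕ σ₂) fun i => ctr (F₁ i) (F₂ i) := by
  induction n generalizing σ₁ σ₂ with
  | zero => exact W0.ctr hc h₁ h₂
  | succ n ih =>
    have := h₁.finite
    have := Finite.sum_right σ₁ (β := T)
    exact ⟨h₂.1.ctr hc h₁, (((ih (h₁.grad.re (oL σ₁ T)) h₂.pred).re (oL σ₁ σ₂).symm).add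
      ((ih h₁ (h₂.2.re (oL σ₂ T))).re (oR σ₁ σ₂).symm)).congr fun i j => gr_ctr _ _ _ _⟩

lemma WW.mv (hc : ∀ n, 0 ≤ c n) {n : ℕ} {K : ∀ i, (D i).I → (D i).I → (D i).A}
    {F : Fam D (Option σ)} (hK : UU S (Unit ⊕ Unit) fun i => mat (K i))
    (h : WW S n (Option σ) F) : WW S n (Option σ) fun i => mv (K i) (F i) :=
  (((h.re (oU σ)).ctr hc hK).re (uO σ)).congr fun _ _ => mv_eq _ _ _

lemma W0.dv (hc : ∀ n, 0 ≤ c n) {F : Fam D (Option σ)} (h : WW S 2 (Option σ) F) :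
    W0 S σ fun i => (D i).dv (F i) := by
  obtain ⟨-, -, g₃, tg₃, h₃⟩ := (h.mv hc UU.H).w0
  obtain ⟨⟨hf, m₀, g₀, tg₀, h₀⟩, ⟨-, m₁, g₁, tg₁, h₁⟩, -, m₂, -⟩ := h
  have : Finite σ := Finite.of_injective _ (Option.some_injective σ)
  refine ⟨this, fun i j => (S i).PG.sum_mem fun a _ =>
    (S i).dl_mem a (m₀ i _) (m₁ i (cons a (cons a j))), _,
    (tg₁.add ((Tame.const zero_le_two).mul tg₀)).add tg₃, fun i => ?_⟩
  have := (S i).meyer' (fun a b => (UU.H (S := S)).mem hc i (Sum.elim (fun _ => a) fun _ => b))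
    (F i) (m₀ i) (m₁ i) (m₂ i)
  nlinarith [h₀ i, h₁ i, h₃ i]

lemma WW.dv (hc : ∀ n, 0 ≤ c n) {n : ℕ} {F : Fam D (Option σ)} (h : WW S (n + 2) (Option σ) F) :
    WW S n σ fun i => (D i).dv (F i) := by
  induction n generalizing σ with
  | zero => exact W0.dv hc h
  | succ n ih =>
    exact ⟨(ih h.pred).w0, ((ih (h.2.re (oS σ))).add (h.pred.pred.pred.add
      (h.pred.pred.pred.mv hc UU.H).rho.rho)).congr fun i j => DAlg.gr_p_dv _ _⟩

lemma ww_u (hc : ∀ n, 0 ≤ c n) (n : ℕ) : WW S n Unit fun i j => (D i).u (j ()) := by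
  have h0 : W0 S Unit fun i j => (D i).u (j ()) :=
    ⟨inferInstance, fun i j => (S i).u_mem _, _, Tame.const zero_le_one, fun i => by
      rw [finsum_unit, one_mul]; exact (S i).Ex_u⟩
  cases n with
  | zero => exact h0
  | succ n => exact ⟨h0, ((UU.H.re (uO Unit)).rho.ww hc).congr fun i j => DAlg.p_u _ _⟩

end Crest.Agent.R285
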