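import Mathlib
import Crest.Prelude.Def_OracleSampling

/-! Row 285 (log-concave sampling): shared definitions. -/

set_option autoImplicit false

open MeasureTheory ProbabilityTheory Crest.OracleSampling
open scoped ENNReal NNReal

namespace Crest.Agent.R285

variable {d : ℕ}

/-- Potentials: `C²`, non-negative, Hessian between `α` and `δ`. -/
structure Pot (α δ : ℝ) (W : E d → ℝ) : Prop where
  c2 : ContDiff ℝ 2 W
  nonneg : ∀ x, 0 ≤ W x
  hess : ∀ x h : E d, α * ‖h‖ ^ 2 ≤ iteratedFDeriv ℝ 2 W x ![h, h] ∧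
    iteratedFDeriv ℝ 2 W x ![h, h] ≤ δ * ‖h‖ ^ 2

/-- The standard Gaussian measure. -/
noncomputable abbrev gam (d : ℕ) : Measure (E d) := stdGaussian (E d)

/-- The Gaussian `N(v, σ² I)`. -/
noncomputable def gauss (v : E d) (σ : ℝ) : Measure (E d) := (gam d).map fun ξ => v + σ • ξ

/-- The tilted Gaussian `N(b, t I) e^{-W} / Z`. -/
noncomputable def nu (W : E d → ℝ) (b : E d) (t : ℝ) : Measure (E d) :=
  (volume : Measure (E d)).tilted fun x => -‖x - b‖ ^ 2 / (2 * t) - W x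

/-- The mean of the gradient under the tilted Gaussian. -/
noncomputable def mn (W : E d → ℝ) (b : E d) (t : ℝ) : E d := ∫ x, gradient W x ∂(nu W b t)

/-- The mean force at scale parameter `r`. -/
noncomputable def uu (W : E d → ℝ) (r : ℝ) (z : E d) : E d :=
  mn W (Real.tanh r • z) (1 - Real.tanh r ^ 2)

/-- The smoothed (Polchinski) potential at variance `1 / cosh² r`, up to a constant. -/
noncomputable def lZ (W : E d → ℝ) (q : ℝ × E d) : ℝ :=
  -Real.log (Real.cosh q.1 ^ d * ∫ x, Real.exp (-(Real.cosh q.1 ^ 2 * ‖x - q.2‖ ^ 2 / 2) - W x))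

/-- The law of `tanh r • X + sech r • ξ`, `X ~ nu W 0 1`. -/
noncomputable def pz (W : E d → ℝ) (r : ℝ) : Measure (E d) :=
  (volume : Measure (E d)).tilted fun z => -‖z‖ ^ 2 / 2 - lZ W (r, Real.tanh r • z)

/-- The law of the pair `(z, g)`. -/
noncomputable def pp (W : E d → ℝ) (r : ℝ) : Measure (E d × E d) := (pz W r).prod (gam d)

/-- The size parameter. -/
noncomputable def MM (W : E d → ℝ) : ℝ := √(d : ℝ) + ‖mn W 0 1‖

/-- Rescaled potential. -/
noncomputable def resc (V : E d → ℝ) (b : E d) (t : ℝ) : E d → ℝ := fun y => V (b + √t • y)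

/-- Lipschitz condition for extended non-negative functions. -/
def LipE {X : Type*} [PseudoEMetricSpace X] (L : ℝ≥0) (f : X → ℝ≥0∞) : Prop :=
  ∀ x y, f x ≤ f y + L * edist x y

/-- Polynomial growth. -/
def PGrowth {X Y : Type*} [Norm X] [Norm Y] (f : X → Y) : Prop :=
  ∃ (C : ℝ) (n : ℕ), ∀ x, ‖f x‖ ≤ C * (1 + ‖x‖) ^ n

/-- A path functional with all time derivatives, the derivatives of order between `j₀` and `k + 1`
having `L¹` norm at most `B`. `f'` is the derivative at time zero. -/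
def Chain {X Y : Type*} [MeasurableSpace X] [NormedAddCommGroup Y] [NormedSpace ℝ Y]
    [MeasurableSpace Y] (j₀ k : ℕ) (T : ℝ) (p : Measure X) (f : ℝ → X → Y) (f' : X → Y) (B : ℝ) :
    Prop :=
  ∃ F : ℕ → ℝ → X → Y, (∀ τ ∈ Set.Icc 0 T, ∀ x, F 0 τ x = f τ x) ∧ (∀ x, F 1 0 x = f' x) ∧
    (∀ j x, ∀ τ ∈ Set.Icc 0 T, HasDerivWithinAt (fun s => F j s x) (F (j + 1) τ x) (Set.Icc 0 T) τ) ∧
    (∀ j, Measurable (Function.uncurry (F j))) ∧
    ∀ j, j₀ ≤ j → j ≤ k + 1 → ∀ τ ∈ Set.Icc 0 T, ∫⁻ x, ‖F j τ x‖ₑ ∂p ≤ ENNReal.ofReal B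

end Crest.Agent.R285
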