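import Mathlib

/-! Row 285: smoothness of exponential families (Laplace transforms), generic version. -/

set_option autoImplicit false

open MeasureTheory Filter Topology
open scoped ContDiff

namespace Crest.Agent.R285

variable {X F : Type} [MeasurableSpace X] [NormedAddCommGroup F] [NormedSpace ℝ F]

/-- `φ` has exponential moments near the parameter `θ`. -/
def ExpGood (μ : Measure X) (L : X → F →L[ℝ] ℝ) (θ : F) {G : Type} [NormedAddCommGroup G]
    (φ : X → G) : Prop :=
  AEStronglyMeasurable φ μ ∧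
    ∃ ε > 0, Integrable (fun x => Real.exp (L x θ + ε * ‖L x‖) * ‖φ x‖) μ

/-- The Laplace transform. -/
noncomputable def expI (μ : Measure X) (L : X → F →L[ℝ] ℝ) {G : Type} [NormedAddCommGroup G]
    [NormedSpace ℝ G] (φ : X → G) (θ : F) : G :=
  ∫ x, Real.exp (L x θ) • φ x ∂μ

variable {μ : Measure X} {L : X → F →L[ℝ] ℝ} {θ : F}
  {G : Type} [NormedAddCommGroup G] [NormedSpace ℝ G] {φ : X → G}

lemma expFam_meas_exp (hL : AEStronglyMeasurable L μ) (θ : F) (ε : ℝ) :
    AEStronglyMeasurable (fun x => Real.exp (L x θ + ε * ‖L x‖)) μ := by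
  refine Real.continuous_exp.comp_aestronglyMeasurable ?_
  exact (hL.apply_continuousLinearMap θ).add (hL.norm.const_mul ε)

lemma expFam_meas_exp' (hL : AEStronglyMeasurable L μ) (θ : F) :
    AEStronglyMeasurable (fun x => Real.exp (L x θ)) μ :=
  Real.continuous_exp.comp_aestronglyMeasurable (hL.apply_continuousLinearMap θ)

lemma expFam_apply_le (l : F →L[ℝ] ℝ) {θ θ' : F} {ε : ℝ} (h : ‖θ' - θ‖ ≤ ε) :
    l θ' ≤ l θ + ε * ‖l‖ := by
  have h1 : l θ' - l θ ≤ ‖l (θ' - θ)‖ := by rw [map_sub]; exact le_abs_self _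
  have h2 := l.le_opNorm (θ' - θ)
  have h3 : ‖l‖ * ‖θ' - θ‖ ≤ ‖l‖ * ε := mul_le_mul_of_nonneg_left h (norm_nonneg _)
  linarith

omit [NormedSpace ℝ G] in
lemma ExpGood.eventually (hL : AEStronglyMeasurable L μ) (h : ExpGood μ L θ φ) :
    ∀ᶠ θ' in 𝓝 θ, ExpGood μ L θ' φ := by
  obtain ⟨hφ, ε, hε, hi⟩ := h
  filter_upwards [Metric.ball_mem_nhds θ (half_pos hε)] with θ' hθ'
  refine ⟨hφ, ε / 2, half_pos hε, hi.mono' ((expFam_meas_exp hL _ _).mul hφ.norm)
    (Eventually.of_forall fun x => ?_)⟩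
  rw [Real.norm_eq_abs, abs_of_nonneg (by positivity)]
  refine mul_le_mul_of_nonneg_right (Real.exp_le_exp.2 ?_) (norm_nonneg _)
  have := expFam_apply_le (L x) (θ := θ) (θ' := θ') (ε := ε / 2)
    (by rw [← dist_eq_norm]; exact (Metric.mem_ball.1 hθ').le)
  linarith

lemma ExpGood.integrable (hL : AEStronglyMeasurable L μ) (h : ExpGood μ L θ φ) :
    Integrable (fun x => Real.exp (L x θ) • φ x) μ := by
  obtain ⟨hφ, ε, hε, hi⟩ := h
  refine hi.mono' ((expFam_meas_exp' hL _).smul hφ) (Eventually.of_forall fun x => ?_)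
  rw [norm_smul, Real.norm_eq_abs, abs_of_pos (Real.exp_pos _)]
  refine mul_le_mul_of_nonneg_right (Real.exp_le_exp.2 ?_) (norm_nonneg _)
  have : 0 ≤ ε * ‖L x‖ := by positivity
  linarith

lemma expFam_meas_smulRight (hL : AEStronglyMeasurable L μ) (hφ : AEStronglyMeasurable φ μ) :
    AEStronglyMeasurable (fun x => (L x).smulRight (φ x)) μ :=
  (ContinuousLinearMap.smulRightL ℝ F G).aestronglyMeasurable_comp₂ hL hφ

lemma ExpGood.smulRight (hL : AEStronglyMeasurable L μ) (h : ExpGood μ L θ φ) :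
    ExpGood μ L θ fun x => (L x).smulRight (φ x) := by
  obtain ⟨hφ, ε, hε, hi⟩ := h
  have hm := expFam_meas_smulRight hL hφ
  refine ⟨hm, ε / 2, half_pos hε, (hi.const_mul (2 / ε)).mono' ((expFam_meas_exp hL _ _).mul hm.norm)
    (Eventually.of_forall fun x => ?_)⟩
  rw [Real.norm_eq_abs, abs_of_nonneg (by positivity), ContinuousLinearMap.norm_smulRight_apply]
  have h1 : ‖L x‖ ≤ 2 / ε * Real.exp (ε / 2 * ‖L x‖) := by
    have := Real.add_one_le_exp (ε / 2 * ‖L x‖)
    rw [div_mul_eq_mul_div, le_div_iff₀ hε]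
    linarith
  have e : Real.exp (L x θ + ε * ‖L x‖) =
      Real.exp (L x θ + ε / 2 * ‖L x‖) * Real.exp (ε / 2 * ‖L x‖) := by
    rw [← Real.exp_add]; congr 1; ring
  rw [e]
  calc Real.exp (L x θ + ε / 2 * ‖L x‖) * (‖L x‖ * ‖φ x‖)
      ≤ Real.exp (L x θ + ε / 2 * ‖L x‖) * ((2 / ε * Real.exp (ε / 2 * ‖L x‖)) * ‖φ x‖) := by
        gcongr
    _ = _ := by ring

/-- Differentiation under the integral sign. -/
theorem ExpGood.hasFDerivAt (hL : AEStronglyMeasurable L μ) (h : ExpGood μ L θ φ) :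
    HasFDerivAt (expI μ L φ) (expI μ L (fun x => (L x).smulRight (φ x)) θ) θ := by
  obtain ⟨hm, ε, hε, hi⟩ := h.smulRight hL
  refine hasFDerivAt_integral_of_dominated_of_fderiv_le (F := fun θ x => Real.exp (L x θ) • φ x)
    (F' := fun θ x => Real.exp (L x θ) • (L x).smulRight (φ x)) (Metric.ball_mem_nhds θ hε)
    (Eventually.of_forall fun θ' => (expFam_meas_exp' hL _).smul h.1) (h.integrable hL)
    ((expFam_meas_exp' hL _).smul hm) (Eventually.of_forall fun x θ' hθ' => ?_) hi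
    (Eventually.of_forall fun x θ' _ => ?_)
  · rw [norm_smul, Real.norm_eq_abs, abs_of_pos (Real.exp_pos _)]
    refine mul_le_mul_of_nonneg_right (Real.exp_le_exp.2 ?_) (norm_nonneg _)
    exact expFam_apply_le (L x) (by rw [← dist_eq_norm]; exact (Metric.mem_ball.1 hθ').le)
  · refine ((L x).hasFDerivAt.exp.smul_const (φ x)).congr_fderiv ?_
    ext v
    simp [mul_smul]

/-- The derivative applied to a direction. -/
theorem ExpGood.expI_smulRight_apply [CompleteSpace G] (hL : AEStronglyMeasurable L μ)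
    (h : ExpGood μ L θ φ) (v : F) :
    expI μ L (fun x => (L x).smulRight (φ x)) θ v = ∫ x, (Real.exp (L x θ) * L x v) • φ x ∂μ := by
  unfold expI
  rw [ContinuousLinearMap.integral_apply ((h.smulRight hL).integrable hL)]
  simp [mul_smul]

theorem ExpGood.contDiffAt_nat (hL : AEStronglyMeasurable L μ) (n : ℕ) :
    ∀ {G : Type} [NormedAddCommGroup G] [NormedSpace ℝ G] {φ : X → G} {θ : F},
      ExpGood μ L θ φ → ContDiffAt ℝ n (expI μ L φ) θ := by
  induction n with
  | zero =>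
    intro G _ _ φ θ h
    refine contDiffAt_zero.2 ⟨_, h.eventually hL, fun θ' hθ' => ?_⟩
    exact (ExpGood.hasFDerivAt hL hθ').continuousAt.continuousWithinAt
  | succ n ih =>
    intro G _ _ φ θ h
    refine contDiffAt_succ_iff_hasFDerivAt.2 ⟨expI μ L fun x => (L x).smulRight (φ x),
      ⟨_, h.eventually hL, fun θ' hθ' => ExpGood.hasFDerivAt hL hθ'⟩, ih (h.smulRight hL)⟩

/-- Laplace transforms are smooth. -/
theorem ExpGood.contDiffAt (hL : AEStronglyMeasurable L μ) (h : ExpGood μ L θ φ) :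
    ContDiffAt ℝ ∞ (expI μ L φ) θ :=
  contDiffAt_infty.2 fun n => ExpGood.contDiffAt_nat hL n h

end Crest.Agent.R285
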