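import Crest.Agent.R285.Tilt
import Crest.Agent.R285.ExpFamAux

/-! Row 285: Gaussian-weighted integrals as smooth functions of the precision and the centre. -/

set_option autoImplicit false

open MeasureTheory ProbabilityTheory Crest.OracleSampling Filter Topology
open scoped ENNReal NNReal RealInnerProductSpace ContDiff

namespace Crest.Agent.R285

variable {d : ℕ} {α δ : ℝ} {W : E d → ℝ}

lemma Pot.expFam_continuous (h : Pot α δ W) : Continuous W := h.c2.continuous

/-- The unnormalised weight with precision `β` and centre `b`. -/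
noncomputable def expWt (W : E d → ℝ) (β : ℝ) (b x : E d) : ℝ :=
  Real.exp (-(β * ‖x - b‖ ^ 2 / 2) - W x)

lemma expWt_pos (W : E d → ℝ) (β : ℝ) (b x : E d) : 0 < expWt W β b x := Real.exp_pos _

lemma expWt_eq (W : E d → ℝ) (β : ℝ) (b x : E d) :
    expWt W β b x = Real.exp (-‖x - b‖ ^ 2 / (2 * β⁻¹) - W x) := by
  unfold expWt
  congr 2
  rw [div_mul_eq_div_div, div_inv_eq_mul]
  ring

section
variable {G : Type} [NormedAddCommGroup G] [NormedSpace ℝ G] {φ : E d → G}

lemma integrable_expWt (h : Pot α δ W) {β : ℝ} (hβ : 0 < β) (b : E d)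
    (hφ : AEStronglyMeasurable φ volume) (hg : PGrowth φ) :
    Integrable fun x => expWt W β b x • φ x := by
  simp only [expWt_eq]
  exact integrable_weight h b (inv_pos.2 hβ) hφ hg

/-- Weighted integral as a function of `(β, b)`. -/
noncomputable def expK (W : E d → ℝ) (φ : E d → G) (q : ℝ × E d) : G :=
  ∫ x, expWt W q.1 q.2 x • φ x

/-- The sufficient statistic centred at `b₀`. -/
noncomputable def expL (b₀ x : E d) : E d × ℝ →L[ℝ] ℝ :=
  (innerSL ℝ (x - b₀)).comp (ContinuousLinearMap.fst ℝ _ _) -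
    (‖x - b₀‖ ^ 2 / 2) • ContinuousLinearMap.snd ℝ _ _

lemma expL_apply (b₀ x : E d) (p : E d × ℝ) :
    expL b₀ x p = ⟪x - b₀, p.1⟫ - ‖x - b₀‖ ^ 2 / 2 * p.2 := by
  simp [expL, inner_sub_left]

lemma continuous_expL (b₀ : E d) : Continuous (expL b₀) := by
  unfold expL
  refine Continuous.sub ?_ ?_
  · exact ((innerSL ℝ).continuous.comp (continuous_id.sub continuous_const)).clm_comp
      continuous_const
  · fun_prop

lemma norm_expL_le (b₀ x : E d) : ‖expL b₀ x‖ ≤ ‖x - b₀‖ + ‖x - b₀‖ ^ 2 / 2 := by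
  refine ContinuousLinearMap.opNorm_le_bound _ (by positivity) fun p => ?_
  rw [expL_apply]
  have h1 : ‖⟪x - b₀, p.1⟫‖ ≤ ‖x - b₀‖ * ‖p‖ :=
    (norm_inner_le_norm _ _).trans (mul_le_mul_of_nonneg_left (norm_fst_le p) (norm_nonneg _))
  have h2 : ‖‖x - b₀‖ ^ 2 / 2 * p.2‖ ≤ ‖x - b₀‖ ^ 2 / 2 * ‖p‖ := by
    rw [norm_mul, Real.norm_of_nonneg (by positivity)]
    exact mul_le_mul_of_nonneg_left (norm_snd_le p) (by positivity)
  refine (norm_sub_le _ _).trans ?_
  linarith

omit [NormedSpace ℝ G] in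
lemma PGrowth.expFam_norm (hg : PGrowth φ) : PGrowth fun x => ‖φ x‖ := by
  obtain ⟨C, n, hC⟩ := hg
  exact ⟨C, n, fun x => by simpa using hC x⟩

lemma expGood_expL (h : Pot α δ W) {β : ℝ} (hβ : 0 < β) (b₀ : E d)
    (hφ : AEStronglyMeasurable φ volume) (hg : PGrowth φ) :
    ExpGood volume (expL b₀) (0, β) fun x => Real.exp (-W x) • φ x := by
  have hW : AEStronglyMeasurable (fun x => Real.exp (-W x)) volume :=
    (Real.continuous_exp.comp h.expFam_continuous.neg).aestronglyMeasurable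
  refine ⟨hW.smul hφ, β / 4, by positivity, ?_⟩
  have hi := (integrable_expWt h (half_pos hβ) b₀ hφ.norm hg.expFam_norm).const_mul
    (Real.exp (β / 8))
  refine hi.mono' ((expFam_meas_exp (continuous_expL b₀).aestronglyMeasurable _ _).mul
    (hW.smul hφ).norm) (Eventually.of_forall fun x => ?_)
  rw [Real.norm_eq_abs, abs_of_nonneg (by positivity), norm_smul, Real.norm_eq_abs,
    abs_of_pos (Real.exp_pos _), smul_eq_mul, ← mul_assoc, ← mul_assoc, expWt, ← Real.exp_add,
    ← Real.exp_add]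
  refine mul_le_mul_of_nonneg_right (Real.exp_le_exp.2 ?_) (norm_nonneg _)
  have h1 := norm_expL_le b₀ x
  have h2 : ‖x - b₀‖ ≤ 1 / 2 + ‖x - b₀‖ ^ 2 / 2 := by nlinarith [sq_nonneg (‖x - b₀‖ - 1)]
  have h3 : β / 4 * ‖expL b₀ x‖ ≤ β / 4 * (1 / 2 + ‖x - b₀‖ ^ 2) :=
    mul_le_mul_of_nonneg_left (by linarith) (by positivity)
  rw [expL_apply]
  simp only [inner_zero_right]
  nlinarith

lemma expK_eq (W : E d → ℝ) (φ : E d → G) (b₀ : E d) :
    expK W φ = fun q : ℝ × E d => Real.exp (-(q.1 * ‖q.2 - b₀‖ ^ 2 / 2)) •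
      expI volume (expL b₀) (fun x => Real.exp (-W x) • φ x) (q.1 • (q.2 - b₀), q.1) := by
  funext q
  unfold expK expI
  rw [← integral_smul]
  refine integral_congr_ae (Eventually.of_forall fun x => ?_)
  simp only [smul_smul, expWt, ← Real.exp_add, expL_apply]
  congr 2
  have e : x - q.2 = (x - b₀) - (q.2 - b₀) := by abel
  rw [e, norm_sub_sq_real, inner_smul_right]
  ring

/-- Smoothness in the precision and the centre. -/
theorem contDiffAt_expK (h : Pot α δ W) {q : ℝ × E d} (hq : 0 < q.1)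
    (hφ : AEStronglyMeasurable φ volume) (hg : PGrowth φ) : ContDiffAt ℝ ∞ (expK W φ) q := by
  rw [expK_eq W φ q.2]
  have h1 := (expGood_expL h hq q.2 hφ hg).contDiffAt (continuous_expL q.2).aestronglyMeasurable
  have h2 : ContDiffAt ℝ ∞ (fun p : ℝ × E d => (p.1 • (p.2 - q.2), p.1)) q := by fun_prop
  have h3 : ContDiffAt ℝ ∞ (fun p : ℝ × E d => Real.exp (-(p.1 * ‖p.2 - q.2‖ ^ 2 / 2))) q := by
    refine ContDiffAt.exp (ContDiffAt.neg (ContDiffAt.div_const (ContDiffAt.mul (by fun_prop) ?_) _))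
    exact ContDiffAt.norm_sq ℝ (by fun_prop)
  refine h3.smul (ContDiffAt.comp q (g := expI volume (expL q.2) fun x => Real.exp (-W x) • φ x)
    ?_ h2)
  simpa using h1

/-- The derivative in the precision and the centre. -/
theorem fderiv_expK [CompleteSpace G] (h : Pot α δ W) {q : ℝ × E d} (hq : 0 < q.1)
    (hφ : AEStronglyMeasurable φ volume) (hg : PGrowth φ) (v : ℝ × E d) :
    fderiv ℝ (expK W φ) q v =
      ∫ x, (expWt W q.1 q.2 x * (q.1 * ⟪x - q.2, v.2⟫ - v.1 * ‖x - q.2‖ ^ 2 / 2)) • φ x := by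
  have hL := (continuous_expL q.2).aestronglyMeasurable (μ := volume)
  have hG := expGood_expL h hq q.2 hφ hg
  have h1 := hG.hasFDerivAt hL
  have h2 : HasFDerivAt (fun p : ℝ × E d => (p.1 • (p.2 - q.2), p.1))
      ((q.1 • ContinuousLinearMap.snd ℝ ℝ (E d)).prod (ContinuousLinearMap.fst ℝ ℝ (E d))) q := by
    refine HasFDerivAt.prodMk ?_ hasFDerivAt_fst
    refine ((hasFDerivAt_fst (𝕜 := ℝ) (p := q)).smul
      ((hasFDerivAt_snd (𝕜 := ℝ) (p := q)).sub_const q.2)).congr_fderiv ?_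
    ext <;> simp
  have h3 : HasFDerivAt (fun p : ℝ × E d => Real.exp (-(p.1 * ‖p.2 - q.2‖ ^ 2 / 2)))
      (0 : ℝ × E d →L[ℝ] ℝ) q := by
    have a1 := ((hasFDerivAt_snd (𝕜 := ℝ) (p := q)).sub_const q.2).norm_sq
    have a2 := ((((hasFDerivAt_fst (𝕜 := ℝ) (p := q)).mul a1).mul_const (1 / 2 : ℝ)).neg).exp
    refine (a2.congr_fderiv ?_).congr_of_eventuallyEq (Eventually.of_forall fun p => ?_)
    · ext <;> simp
    · simp [div_eq_mul_inv]
  have h1' : HasFDerivAt (expI volume (expL q.2) fun x => Real.exp (-W x) • φ x)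
      (expI volume (expL q.2) (fun x => (expL q.2 x).smulRight (Real.exp (-W x) • φ x)) (0, q.1))
      ((fun p : ℝ × E d => (p.1 • (p.2 - q.2), p.1)) q) := by simpa using h1
  have h4 := h3.smul (h1'.comp q h2)
  have h5 := h4.fderiv
  rw [expK_eq W φ q.2]
  refine (congrArg (fun A : ℝ × E d →L[ℝ] G => A v) h5).trans ?_
  simp only [sub_self, norm_zero, ne_eq, OfNat.ofNat_ne_zero, not_false_eq_true, zero_pow, mul_zero,
    zero_div, neg_zero, Real.exp_zero, one_smul, ContinuousLinearMap.zero_smulRight, add_zero,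
    ContinuousLinearMap.comp_apply]
  rw [hG.expI_smulRight_apply hL]
  refine integral_congr_ae (Eventually.of_forall fun x => ?_)
  simp only [smul_smul, expL_apply, expWt, inner_zero_right, ContinuousLinearMap.prod_apply,
    ContinuousLinearMap.smul_apply, ContinuousLinearMap.coe_snd', ContinuousLinearMap.coe_fst',
    inner_smul_right]
  congr 1
  rw [sub_eq_add_neg (-(q.1 * ‖x - q.2‖ ^ 2 / 2)), Real.exp_add,
    show 0 - ‖x - q.2‖ ^ 2 / 2 * q.1 = -(q.1 * ‖x - q.2‖ ^ 2 / 2) by ring]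
  ring

/-- Exponential moments under the tilted Gaussian. -/
theorem expGood_nu (h : Pot α δ W) (b : E d) {t : ℝ} (ht : 0 < t)
    (hφ : AEStronglyMeasurable φ volume) (hg : PGrowth φ) (η : E d) :
    ExpGood (nu W b t) (fun x => innerSL ℝ x) η φ := by
  have hW := h.expFam_continuous
  have h0 : Integrable fun x : E d => Real.exp (-‖x - b‖ ^ 2 / (2 * t) - W x) := by
    simpa using integrable_weight h b ht (f := fun _ => (1 : ℝ)) aestronglyMeasurable_const
      ⟨1, 0, by simp⟩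
  refine ⟨hφ.mono_ac (tilted_absolutelyContinuous _ _), 1, one_pos, ?_⟩
  unfold nu
  rw [integrable_tilted_iff h0]
  set R : ℝ := ‖η‖ + 1 with hR
  have hi := (integrable_weight h b (t := 2 * t) (by positivity) hφ.norm hg.expFam_norm).const_mul
    (Real.exp (R * ‖b‖ + t * R ^ 2))
  refine hi.mono' ?_ (Eventually.of_forall fun x => ?_)
  · refine AEStronglyMeasurable.smul h0.aestronglyMeasurable ?_
    exact (expFam_meas_exp (innerSL ℝ).continuous.aestronglyMeasurable _ _).mul hφ.norm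
  · rw [smul_eq_mul, smul_eq_mul, Real.norm_eq_abs, abs_of_nonneg (by positivity), ← mul_assoc,
      ← mul_assoc, ← Real.exp_add, ← Real.exp_add]
    refine mul_le_mul_of_nonneg_right (Real.exp_le_exp.2 ?_) (norm_nonneg _)
    have h1 : innerSL ℝ x η ≤ ‖x‖ * ‖η‖ := real_inner_le_norm x η
    have h2 : ‖x‖ ≤ ‖x - b‖ + ‖b‖ := by simpa using norm_add_le (x - b) b
    have hR0 : 0 ≤ R := by positivity
    have h3 : R * ‖x - b‖ ≤ t * R ^ 2 + ‖x - b‖ ^ 2 / (2 * (2 * t)) := by
      rw [← sub_nonneg]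
      have : t * R ^ 2 + ‖x - b‖ ^ 2 / (2 * (2 * t)) - R * ‖x - b‖ =
          (2 * t * R - ‖x - b‖) ^ 2 / (4 * t) := by
        field_simp; ring
      rw [this]; positivity
    have h4 : -‖x - b‖ ^ 2 / (2 * t) =
        -‖x - b‖ ^ 2 / (2 * (2 * t)) - ‖x - b‖ ^ 2 / (2 * (2 * t)) := by
      field_simp; ring
    have h5 := mul_le_mul_of_nonneg_left h2 hR0
    rw [innerSL_apply_norm, h4]
    nlinarith

/-- The Laplace transform under the tilted Gaussian is smooth. -/
theorem contDiff_laplace_nu (h : Pot α δ W) (b : E d) {t : ℝ} (ht : 0 < t)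
    (hφ : AEStronglyMeasurable φ volume) (hg : PGrowth φ) :
    ContDiff ℝ ∞ fun η : E d => ∫ x, Real.exp ⟪x, η⟫ • φ x ∂(nu W b t) :=
  contDiff_iff_contDiffAt.2 fun η =>
    (expGood_nu h b ht hφ hg η).contDiffAt (innerSL ℝ).continuous.aestronglyMeasurable

theorem fderiv_laplace_nu [CompleteSpace G] (h : Pot α δ W) (b : E d) {t : ℝ} (ht : 0 < t)
    (hφ : AEStronglyMeasurable φ volume) (hg : PGrowth φ) (η v : E d) :
    fderiv ℝ (fun η : E d => ∫ x, Real.exp ⟪x, η⟫ • φ x ∂(nu W b t)) η v =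
      ∫ x, (Real.exp ⟪x, η⟫ * ⟪x, v⟫) • φ x ∂(nu W b t) := by
  have hL : AEStronglyMeasurable (fun x : E d => innerSL ℝ x) (nu W b t) :=
    (innerSL ℝ).continuous.aestronglyMeasurable
  have hG := expGood_nu h b ht hφ hg η
  have h1 := (hG.hasFDerivAt hL).fderiv
  have h2 := hG.expI_smulRight_apply hL v
  rw [← h1] at h2
  exact h2

theorem integrable_laplace_nu (h : Pot α δ W) (b : E d) {t : ℝ} (ht : 0 < t)
    (hφ : AEStronglyMeasurable φ volume) (hg : PGrowth φ) (η : E d) :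
    Integrable (fun x => Real.exp ⟪x, η⟫ • φ x) (nu W b t) :=
  (expGood_nu h b ht hφ hg η).integrable (innerSL ℝ).continuous.aestronglyMeasurable

end

end Crest.Agent.R285
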