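import Mathlib

/-! Row 285: the algebra of smooth functions with its commuting directional derivations. -/

set_option autoImplicit false

open scoped ContDiff

namespace Crest.Agent.R285

/-- The multiset of values of a slot assignment. -/
noncomputable def ms {σ I : Type*} (i : σ → I) : Multiset I := ∑ᶠ a, ({i a} : Multiset I)

lemma ms_equiv {σ σ' I : Type*} (e : σ ≃ σ') (i : σ' → I) : ms (i ∘ e) = ms i :=
  finsum_comp_equiv e (f := fun a => ({i a} : Multiset I))

lemma ms_option {σ I : Type*} [Finite σ] (i : Option σ → I) :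
    ms i = i none ::ₘ ms (i ∘ some) := by
  cases nonempty_fintype σ
  simp only [ms, finsum_eq_sum_of_fintype, Fintype.sum_option, Multiset.singleton_add,
    Function.comp]

lemma ms_sum {σ σ' I : Type*} [Finite σ] [Finite σ'] (i : σ ⊕ σ' → I) :
    ms i = ms (i ∘ Sum.inl) + ms (i ∘ Sum.inr) := by
  cases nonempty_fintype σ
  cases nonempty_fintype σ'
  simp only [ms, finsum_eq_sum_of_fintype, Fintype.sum_sum_type, Function.comp]

lemma ms_empty {σ I : Type*} [IsEmpty σ] (i : σ → I) : ms i = 0 := by
  simp [ms, finsum_of_isEmpty]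

lemma ms_unique {σ I : Type*} [Unique σ] (i : σ → I) : ms i = {i default} := by
  simp [ms, finsum_eq_sum_of_fintype]

lemma ms_map {σ I J : Type*} [Finite σ] (i : σ → I) (f : I → J) : ms (f ∘ i) = (ms i).map f := by
  cases nonempty_fintype σ
  simp only [ms, finsum_eq_sum_of_fintype, Function.comp]
  rw [← Multiset.coe_mapAddMonoidHom, map_sum]
  simp

lemma mem_ms {σ I : Type*} [Finite σ] (i : σ → I) (x : I) : x ∈ ms i ↔ ∃ a, i a = x := by
  cases nonempty_fintype σ
  simp [ms, finsum_eq_sum_of_fintype, eq_comm]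

section Iter

variable {A : Type*} [CommRing A] [Algebra ℝ A] {κ : Type*}

/-- Iterated application of commuting derivations along a multiset. -/
noncomputable def iterD (D : κ → Derivation ℝ A A) (h : ∀ a b f, D a (D b f) = D b (D a f))
    (s : Multiset κ) (f : A) : A :=
  haveI : LeftCommutative (fun (a : κ) (f : A) => D a f) := ⟨h⟩
  Multiset.foldr (fun a f => D a f) f s

variable {D : κ → Derivation ℝ A A} {h : ∀ a b f, D a (D b f) = D b (D a f)}

@[simp] lemma iterD_zero (f : A) : iterD D h 0 f = f := by simp [iterD]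

@[simp] lemma iterD_cons (a : κ) (s : Multiset κ) (f : A) :
    iterD D h (a ::ₘ s) f = D a (iterD D h s f) := by simp [iterD]

@[simp] lemma iterD_singleton (a : κ) (f : A) : iterD D h {a} f = D a f := by simp [iterD]

lemma iterD_add (s s' : Multiset κ) (f : A) :
    iterD D h (s + s') f = iterD D h s (iterD D h s' f) := by
  induction s using Multiset.induction_on with
  | empty => simp
  | cons a s ih => simp [ih]

lemma iterD_comm (Q : A → A) (hQ : ∀ a f, Q (D a f) = D a (Q f)) (s : Multiset κ) (f : A) :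
    Q (iterD D h s f) = iterD D h s (Q f) := by
  induction s using Multiset.induction_on with
  | empty => simp
  | cons a s ih => simp [hQ, ih]

end Iter

variable (X : Type*) [NormedAddCommGroup X] [NormedSpace ℝ X]

/-- The algebra of smooth real functions. -/
def Sm : Subalgebra ℝ (X → ℝ) where
  carrier := {f | ContDiff ℝ ∞ f}
  mul_mem' {f g} (hf : ContDiff ℝ ∞ f) (hg : ContDiff ℝ ∞ g) :=
    show ContDiff ℝ ∞ (fun x => f x * g x) from hf.mul hg
  add_mem' {f g} (hf : ContDiff ℝ ∞ f) (hg : ContDiff ℝ ∞ g) :=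
    show ContDiff ℝ ∞ (fun x => f x + g x) from hf.add hg
  algebraMap_mem' c := show ContDiff ℝ ∞ (fun _ : X => c) from contDiff_const

variable {X}

lemma Sm.smooth (f : Sm X) : ContDiff ℝ ∞ (f : X → ℝ) := f.2

lemma Sm.diff (f : Sm X) : Differentiable ℝ (f : X → ℝ) := (Sm.smooth f).differentiable (by simp)

/-- Directional derivative of a smooth function. -/
noncomputable def pd (v : X) : Derivation ℝ (Sm X) (Sm X) :=
  Derivation.mk'
    { toFun := fun f => ⟨fun x => fderiv ℝ (f : X → ℝ) x v,
        ((Sm.smooth f).fderiv_right (m := ∞) (by simp)).clm_apply contDiff_const⟩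
      map_add' := fun f g => by
        ext x
        change fderiv ℝ ((f : X → ℝ) + (g : X → ℝ)) x v = fderiv ℝ (f : X → ℝ) x v + fderiv ℝ (g : X → ℝ) x v
        rw [fderiv_add (Sm.diff f x) (Sm.diff g x)]; rfl
      map_smul' := fun c f => by
        ext x
        change fderiv ℝ (c • (f : X → ℝ)) x v = c • fderiv ℝ (f : X → ℝ) x v
        rw [fderiv_const_smul (Sm.diff f x)]; rfl }
    fun f g => by
      ext x
      change fderiv ℝ ((f : X → ℝ) * (g : X → ℝ)) x v =
        (f : X → ℝ) x * fderiv ℝ (g : X → ℝ) x v + (g : X → ℝ) x * fderiv ℝ (f : X → ℝ) x v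
      rw [fderiv_mul (Sm.diff f x) (Sm.diff g x)]; rfl

lemma pd_apply (v : X) (f : Sm X) (x : X) : (pd v f : X → ℝ) x = fderiv ℝ (f : X → ℝ) x v := rfl

lemma pd_comm (v w : X) (f : Sm X) : pd v (pd w f) = pd w (pd v f) := by
  ext x
  have h2 : ContDiffAt ℝ 2 (f : X → ℝ) x := ((Sm.smooth f).of_le (show ((2 : ℕ∞) : WithTop ℕ∞) ≤ ((⊤ : ℕ∞) : WithTop ℕ∞) from
      WithTop.coe_le_coe.2 le_top)).contDiffAt
  have hs := h2.isSymmSndFDerivAt (by simp)
  have hd : DifferentiableAt ℝ (fderiv ℝ (f : X → ℝ)) x :=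
    (((Sm.smooth f).fderiv_right (m := ∞) (by simp)).differentiable (by simp)) x
  change fderiv ℝ (fun y => fderiv ℝ (f : X → ℝ) y w) x v =
    fderiv ℝ (fun y => fderiv ℝ (f : X → ℝ) y v) x w
  rw [fderiv_clm_apply hd (differentiableAt_const _), fderiv_clm_apply hd (differentiableAt_const _)]
  simpa using hs v w

/-- Iterated directional derivatives along a multiset of indices. -/
noncomputable def pdm {κ : Type*} (v : κ → X) (s : Multiset κ) (f : Sm X) : Sm X :=
  iterD (fun a => pd (v a)) (fun _ _ f => pd_comm _ _ f) s f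

end Crest.Agent.R285
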