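import Crest.Agent.R285.Tilt
import Crest.Agent.R285.Sm
import Crest.Agent.R285.ExpFamAux2

/-! Row 285: smoothness of the smoothed potential and the Polchinski equation. -/

set_option autoImplicit false

open MeasureTheory ProbabilityTheory Crest.OracleSampling
open scoped ENNReal NNReal RealInnerProductSpace ContDiff

namespace Crest.Agent.R285

variable {d : ℕ} {α δ : ℝ} {W : E d → ℝ}

lemma expFam_pg_const {X : Type*} [NormedAddCommGroup X] (c : ℝ) : PGrowth fun _ : X => c :=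
  ⟨‖c‖, 0, by simp⟩

lemma expFam_pg_inner (b v : E d) : PGrowth fun x : E d => ⟪x - b, v⟫ := by
  refine ⟨(1 + ‖b‖) * ‖v‖, 1, fun x => (norm_inner_le_norm _ _).trans ?_⟩
  have h1 : ‖x - b‖ ≤ (1 + ‖b‖) * (1 + ‖x‖) := by
    have := norm_sub_le x b
    nlinarith [norm_nonneg x, norm_nonneg b, mul_nonneg (norm_nonneg x) (norm_nonneg b)]
  calc ‖x - b‖ * ‖v‖ ≤ (1 + ‖b‖) * (1 + ‖x‖) * ‖v‖ := by gcongr
    _ = _ := by ring

lemma PGrowth.expFam_mul {X : Type*} [NormedAddCommGroup X] {f g : X → ℝ} (hf : PGrowth f)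
    (hg : PGrowth g) : PGrowth fun x => f x * g x := by
  obtain ⟨C, n, hC⟩ := hf
  obtain ⟨D, m, hD⟩ := hg
  refine ⟨C * D, n + m, fun x => ?_⟩
  rw [norm_mul, pow_add]
  calc ‖f x‖ * ‖g x‖ ≤ (C * (1 + ‖x‖) ^ n) * (D * (1 + ‖x‖) ^ m) :=
        mul_le_mul (hC x) (hD x) (norm_nonneg _) ((norm_nonneg _).trans (hC x))
    _ = _ := by ring

/-- Weighted integrals at precision `cosh² r`. -/
noncomputable def expZ (W : E d → ℝ) (φ : E d → ℝ) (q : ℝ × E d) : ℝ :=
  expK W φ (Real.cosh q.1 ^ 2, q.2)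

lemma expZ_eq (W : E d → ℝ) (φ : E d → ℝ) (q : ℝ × E d) :
    expZ W φ q = ∫ x, expWt W (Real.cosh q.1 ^ 2) q.2 x * φ x := rfl

lemma expFam_cosh_sq_pos (r : ℝ) : 0 < Real.cosh r ^ 2 := pow_pos (Real.cosh_pos r) 2

lemma expFam_one_sub_tanh_sq (r : ℝ) : 1 - Real.tanh r ^ 2 = (Real.cosh r ^ 2)⁻¹ := by
  have h := Real.cosh_pos r
  rw [Real.tanh_eq_sinh_div_cosh, div_pow]
  field_simp
  linarith [Real.cosh_sq r]

lemma integrable_expWt_mul (h : Pot α δ W) {β : ℝ} (hβ : 0 < β) (b : E d) {φ : E d → ℝ}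
    (hφ : Continuous φ) (hg : PGrowth φ) : Integrable fun x => expWt W β b x * φ x :=
  integrable_expWt h hβ b hφ.aestronglyMeasurable hg

lemma contDiff_expZ (h : Pot α δ W) {φ : E d → ℝ} (hφ : AEStronglyMeasurable φ volume)
    (hg : PGrowth φ) : ContDiff ℝ ∞ (expZ W φ) := by
  refine contDiff_iff_contDiffAt.2 fun q => ?_
  have h2 : ContDiffAt ℝ ∞ (fun p : ℝ × E d => (Real.cosh p.1 ^ 2, p.2)) q := by fun_prop
  exact ContDiffAt.comp q (g := expK W φ)
    (contDiffAt_expK h (q := (Real.cosh q.1 ^ 2, q.2)) (expFam_cosh_sq_pos _) hφ hg) h2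

lemma fderiv_expZ (h : Pot α δ W) {φ : E d → ℝ} (hφ : AEStronglyMeasurable φ volume)
    (hg : PGrowth φ) (q v : ℝ × E d) :
    fderiv ℝ (expZ W φ) q v = ∫ x, expWt W (Real.cosh q.1 ^ 2) q.2 x *
      (Real.cosh q.1 ^ 2 * ⟪x - q.2, v.2⟫ -
        v.1 * (Real.cosh q.1 * Real.sinh q.1) * ‖x - q.2‖ ^ 2) * φ x := by
  have h1 := ((contDiffAt_expK h (q := (Real.cosh q.1 ^ 2, q.2)) (expFam_cosh_sq_pos _) hφ
    hg).differentiableAt (by simp)).hasFDerivAt
  have h2 : HasFDerivAt (fun p : ℝ × E d => (Real.cosh p.1 ^ 2, p.2))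
      (((2 * (Real.cosh q.1 * Real.sinh q.1)) • ContinuousLinearMap.fst ℝ ℝ (E d)).prod
        (ContinuousLinearMap.snd ℝ ℝ (E d))) q := by
    refine HasFDerivAt.prodMk ?_ hasFDerivAt_snd
    refine (((hasFDerivAt_fst (𝕜 := ℝ) (p := q)).cosh).pow 2).congr_fderiv ?_
    ext <;> simp [mul_assoc]
  have h3 := (h1.comp q h2).fderiv
  refine (congrArg (fun A : ℝ × E d →L[ℝ] ℝ => A v) h3).trans ?_
  simp only [ContinuousLinearMap.comp_apply]
  rw [fderiv_expK h (q := (Real.cosh q.1 ^ 2, q.2)) (expFam_cosh_sq_pos _) hφ hg]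
  refine integral_congr_ae (Filter.Eventually.of_forall fun x => ?_)
  simp only [ContinuousLinearMap.prod_apply, smul_apply, ContinuousLinearMap.coe_snd',
    ContinuousLinearMap.coe_fst', smul_eq_mul]
  ring

lemma expZ_one_pos (h : Pot α δ W) (q : ℝ × E d) : 0 < expZ W (fun _ => 1) q := by
  have hi := integrable_expWt_mul h (expFam_cosh_sq_pos q.1) q.2 (φ := fun _ => 1)
    continuous_const (expFam_pg_const 1)
  rw [expZ_eq]
  simp only [mul_one] at hi ⊢
  exact integral_exp_pos hi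

lemma lZ_eq (h : Pot α δ W) : lZ W = fun q : ℝ × E d =>
    -((d : ℝ) * Real.log (Real.cosh q.1)) - Real.log (expZ W (fun _ => 1) q) := by
  funext q
  have h1 := expZ_one_pos h q
  have e : expZ W (fun _ => 1) q =
      ∫ x, Real.exp (-(Real.cosh q.1 ^ 2 * ‖x - q.2‖ ^ 2 / 2) - W x) := by
    rw [expZ_eq]; simp only [mul_one, expWt]
  unfold lZ
  rw [← e, Real.log_mul (pow_pos (Real.cosh_pos _) d).ne' h1.ne', Real.log_pow]
  ring

theorem contDiff_lZ (h : Pot α δ W) : ContDiff ℝ ∞ (lZ W) := by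
  rw [lZ_eq h]
  refine ContDiff.sub (ContDiff.neg (contDiff_const.mul ?_)) ?_
  · exact ContDiff.log (by fun_prop) fun q => (Real.cosh_pos _).ne'
  · exact (contDiff_expZ h aestronglyMeasurable_const (expFam_pg_const 1)).log
      fun q => (expZ_one_pos h q).ne'

/-- The smoothed potential as a smooth function. -/
noncomputable def lZs (h : Pot α δ W) : Sm (ℝ × E d) := ⟨lZ W, contDiff_lZ h⟩

/-- The spatial coordinate directions. -/
noncomputable def eb (d : ℕ) (k : Fin d) : ℝ × E d := (0, EuclideanSpace.single k 1)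

lemma fderiv_lZ (h : Pot α δ W) (q v : ℝ × E d) :
    fderiv ℝ (lZ W) q v = -((d : ℝ) * (v.1 * Real.tanh q.1)) -
      fderiv ℝ (expZ W fun _ => 1) q v / expZ W (fun _ => 1) q := by
  have h1 := (((contDiff_expZ h aestronglyMeasurable_const (expFam_pg_const 1)).differentiable
    (by simp)) q).hasFDerivAt.log (expZ_one_pos h q).ne'
  have h2 := ((((hasFDerivAt_fst (𝕜 := ℝ) (p := q)).cosh).log
    (Real.cosh_pos _).ne').const_mul (d : ℝ)).neg
  have h3 := (h2.sub h1).fderiv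
  rw [lZ_eq h]
  refine (congrArg (fun A : ℝ × E d →L[ℝ] ℝ => A v) h3).trans ?_
  simp only [sub_apply, neg_apply, smul_apply, ContinuousLinearMap.coe_fst', smul_eq_mul,
    Real.tanh_eq_sinh_div_cosh]
  ring

lemma fderiv_lZ_space' (h : Pot α δ W) (q : ℝ × E d) (v : E d) :
    fderiv ℝ (lZ W) q (0, v) =
      -(Real.cosh q.1 ^ 2 * (expZ W (fun x => ⟪x - q.2, v⟫) q / expZ W (fun _ => 1) q)) := by
  rw [fderiv_lZ h, fderiv_expZ h aestronglyMeasurable_const (expFam_pg_const 1), expZ_eq W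
    (fun x => ⟪x - q.2, v⟫), ← mul_div_assoc, ← integral_const_mul]
  simp only [zero_mul, mul_zero, neg_zero, zero_sub, sub_zero, mul_one]
  congr 3
  funext x
  ring

lemma integral_nu_eq_expZ (W : E d → ℝ) (φ : E d → ℝ) (q : ℝ × E d) :
    ∫ x, φ x ∂(nu W q.2 (1 - Real.tanh q.1 ^ 2)) = expZ W φ q / expZ W (fun _ => 1) q := by
  unfold nu
  rw [integral_tilted, expZ_eq, expZ_eq, ← integral_div, expFam_one_sub_tanh_sq]
  simp only [← expWt_eq, mul_one, smul_eq_mul]
  congr 1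
  funext x
  ring

theorem fderiv_lZ_space (h : Pot α δ W) (hα : 0 ≤ α) (r : ℝ) (b v : E d) :
    fderiv ℝ (lZ W) (r, b) (0, v) = ⟪mn W b (1 - Real.tanh r ^ 2), v⟫ := by
  have ht : 0 < 1 - Real.tanh r ^ 2 := by
    rw [expFam_one_sub_tanh_sq]; exact inv_pos.2 (expFam_cosh_sq_pos r)
  have := isProb_nu h b ht
  have hi : Integrable (fun x : E d => x) (nu W b (1 - Real.tanh r ^ 2)) :=
    integrable_nu h b ht aestronglyMeasurable_id ⟨1, 1, by simp⟩
  rw [fderiv_lZ_space' h, ← integral_nu_eq_expZ W _ (r, b)]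
  have e : ∫ x, ⟪x - b, v⟫ ∂(nu W b (1 - Real.tanh r ^ 2)) =
      -((1 - Real.tanh r ^ 2) * ⟪mn W b (1 - Real.tanh r ^ 2), v⟫) := by
    simp only [real_inner_comm v]
    have hi' : Integrable (fun x : E d => x - b) (nu W b (1 - Real.tanh r ^ 2)) :=
      hi.sub (integrable_const b)
    rw [integral_inner hi', integral_sub hi (integrable_const b),
      stein h hα b ht]
    simp [inner_smul_right]
  simp only
  rw [e, expFam_one_sub_tanh_sq]
  have := expFam_cosh_sq_pos r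
  field_simp

lemma expZ_inner_shift (h : Pot α δ W) (b₀ v : E d) (q : ℝ × E d) :
    expZ W (fun x => ⟪x - q.2, v⟫) q =
      expZ W (fun x => ⟪x - b₀, v⟫) q - ⟪q.2 - b₀, v⟫ * expZ W (fun _ => 1) q := by
  have i1 := integrable_expWt_mul h (expFam_cosh_sq_pos q.1) q.2 (φ := fun x => ⟪x - b₀, v⟫)
    (by fun_prop) (expFam_pg_inner b₀ v)
  have i2 := (integrable_expWt_mul h (expFam_cosh_sq_pos q.1) q.2 (φ := fun _ => 1)
    continuous_const (expFam_pg_const 1)).const_mul ⟪q.2 - b₀, v⟫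
  rw [expZ_eq, expZ_eq, expZ_eq, ← integral_const_mul, ← integral_sub i1 i2]
  congr 1
  funext x
  simp only [inner_sub_left]
  ring

lemma fderiv_fderiv_lZ (h : Pot α δ W) (q : ℝ × E d) (v : E d) :
    fderiv ℝ (fun p => fderiv ℝ (lZ W) p (0, v)) q (0, v) =
      Real.cosh q.1 ^ 2 * ‖v‖ ^ 2 - (Real.cosh q.1 ^ 2) ^ 2 *
        (expZ W (fun x => ⟪x - q.2, v⟫ * ⟪x - q.2, v⟫) q / expZ W (fun _ => 1) q) +
        fderiv ℝ (lZ W) q (0, v) ^ 2 := by
  have hm : AEStronglyMeasurable (fun x : E d => ⟪x - q.2, v⟫) volume :=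
    Continuous.aestronglyMeasurable (by fun_prop)
  have e : (fun p => fderiv ℝ (lZ W) p (0, v)) = fun p : ℝ × E d =>
      -(Real.cosh p.1 ^ 2 * (expZ W (fun x => ⟪x - q.2, v⟫) p * (expZ W (fun _ => 1) p)⁻¹ -
        innerSL ℝ v (p.2 - q.2))) := by
    funext p
    have := (expZ_one_pos h p).ne'
    rw [fderiv_lZ_space' h, expZ_inner_shift h q.2, innerSL_apply_apply, real_inner_comm]
    field_simp
  have h0 := (((contDiff_expZ h aestronglyMeasurable_const (expFam_pg_const 1)).differentiable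
    (by simp)) q).hasFDerivAt
  have h1 := (((contDiff_expZ h hm (expFam_pg_inner q.2 v)).differentiable (by simp)) q).hasFDerivAt
  have h2 := (hasDerivAt_inv (expZ_one_pos h q).ne').comp_hasFDerivAt q h0
  have h3 := (innerSL ℝ v).hasFDerivAt.comp q ((hasFDerivAt_snd (𝕜 := ℝ) (p := q)).sub_const q.2)
  have h4 := (((((hasFDerivAt_fst (𝕜 := ℝ) (p := q)).cosh).pow 2).mul
    ((h1.mul h2).sub h3)).neg).fderiv
  rw [e]
  refine (congrArg (fun A : ℝ × E d →L[ℝ] ℝ => A (0, v)) h4).trans ?_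
  have e0 : fderiv ℝ (expZ W fun _ => 1) q (0, v) =
      Real.cosh q.1 ^ 2 * expZ W (fun x => ⟪x - q.2, v⟫) q := by
    rw [fderiv_expZ h aestronglyMeasurable_const (expFam_pg_const 1), expZ_eq, ← integral_const_mul]
    congr 1
    funext x
    simp only
    ring
  have e1 : fderiv ℝ (expZ W fun x => ⟪x - q.2, v⟫) q (0, v) =
      Real.cosh q.1 ^ 2 * expZ W (fun x => ⟪x - q.2, v⟫ * ⟪x - q.2, v⟫) q := by
    rw [fderiv_expZ h hm (expFam_pg_inner q.2 v), expZ_eq, ← integral_const_mul]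
    congr 1
    funext x
    simp only
    ring
  have := (expZ_one_pos h q).ne'
  simp only [sub_apply, neg_apply, add_apply, smul_apply, ContinuousLinearMap.coe_fst', smul_eq_mul,
    ContinuousLinearMap.comp_apply, ContinuousLinearMap.coe_snd', e0, e1, Function.comp,
    Pi.mul_apply, Pi.sub_apply, innerSL_apply_apply, real_inner_self_eq_norm_sq, mul_zero,
    fderiv_lZ_space' h, add_zero]
  field_simp
  ring

theorem lZ_pde (h : Pot α δ W) (q : ℝ × E d) :
    fderiv ℝ (lZ W) q (1, 0) = -(Real.tanh q.1 * (1 - Real.tanh q.1 ^ 2)) *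
      ∑ k, ((pd (eb d k) (pd (eb d k) (lZs h)) : _ → ℝ) q - (pd (eb d k) (lZs h) : _ → ℝ) q ^ 2) := by
  have e : ∀ k, (pd (eb d k) (pd (eb d k) (lZs h)) : _ → ℝ) q - (pd (eb d k) (lZs h) : _ → ℝ) q ^ 2 =
      Real.cosh q.1 ^ 2 - (Real.cosh q.1 ^ 2) ^ 2 / expZ W (fun _ => 1) q *
        expZ W (fun x => ⟪x - q.2, EuclideanSpace.single k 1⟫ *
          ⟪x - q.2, EuclideanSpace.single k 1⟫) q := by
    intro k
    have := fderiv_fderiv_lZ h q (EuclideanSpace.single k 1)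
    change fderiv ℝ (fun p => fderiv ℝ (lZ W) p (0, EuclideanSpace.single k 1)) q
      (0, EuclideanSpace.single k 1) - fderiv ℝ (lZ W) q (0, EuclideanSpace.single k 1) ^ 2 = _
    rw [this]
    simp only [PiLp.norm_single, norm_one]
    ring
  have s : ∑ k, expZ W (fun x => ⟪x - q.2, EuclideanSpace.single k 1⟫ *
      ⟪x - q.2, EuclideanSpace.single k 1⟫) q = expZ W (fun x => ‖x - q.2‖ ^ 2) q := by
    simp only [expZ_eq]
    rw [← integral_finsetSum _ fun k _ => integrable_expWt_mul h (expFam_cosh_sq_pos q.1) q.2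
      (by fun_prop) ((expFam_pg_inner q.2 _).expFam_mul (expFam_pg_inner q.2 _))]
    congr 1
    funext x
    rw [← Finset.mul_sum, EuclideanSpace.real_norm_sq_eq]
    congr 1
    refine Finset.sum_congr rfl fun k _ => ?_
    simp [EuclideanSpace.inner_single_right, sq]
  have e0 : fderiv ℝ (expZ W fun _ => 1) q (1, 0) =
      -(Real.cosh q.1 * Real.sinh q.1) * expZ W (fun x => ‖x - q.2‖ ^ 2) q := by
    rw [fderiv_expZ h aestronglyMeasurable_const (expFam_pg_const 1), expZ_eq, ← integral_const_mul]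
    congr 1
    funext x
    simp only [inner_zero_right]
    ring
  simp only [e]
  rw [Finset.sum_sub_distrib, ← Finset.mul_sum, s, fderiv_lZ h, e0, expFam_one_sub_tanh_sq,
    Real.tanh_eq_sinh_div_cosh]
  have := (expZ_one_pos h q).ne'
  have := (Real.cosh_pos q.1).ne'
  simp only [Finset.sum_const, Finset.card_univ, Fintype.card_fin, nsmul_eq_mul]
  field_simp
  ring

end Crest.Agent.R285
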