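import Crest.Agent.R285.Tilt

/-! Row 285: Gaussian computations and disintegrations. -/

set_option autoImplicit false

open MeasureTheory ProbabilityTheory Crest.OracleSampling
open scoped ENNReal NNReal RealInnerProductSpace

namespace Crest.Agent.R285

variable {d : ℕ} {α δ : ℝ} {W : E d → ℝ}

/-- The Gaussian normalising constant. -/
noncomputable def gaussK (d : ℕ) (c : ℝ) : ℝ := (Real.pi / (c / 2)) ^ ((d : ℝ) / 2)

theorem gaussK_pos {c : ℝ} (hc : 0 < c) : 0 < gaussK d c := by
  unfold gaussK; positivity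

theorem gauss_integral {c : ℝ} (hc : 0 < c) (b : E d) :
    ∫ x : E d, Real.exp (-(c * ‖x - b‖ ^ 2 / 2)) = gaussK d c := by
  rw [integral_sub_right_eq_self (fun x : E d => Real.exp (-(c * ‖x‖ ^ 2 / 2))) b]
  have := GaussianFourier.integral_rexp_neg_mul_sq_norm (V := E d) (b := c / 2) (by positivity)
  rw [finrank_euclideanSpace_fin] at this
  rw [gaussK, ← this]
  congr 1
  ext x
  congr 1
  ring

theorem gauss_integrable {c : ℝ} (hc : 0 < c) (b : E d) :
    Integrable fun x : E d => Real.exp (-(c * ‖x - b‖ ^ 2 / 2)) :=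
  Integrable.of_integral_ne_zero (by rw [gauss_integral hc]; exact (gaussK_pos hc).ne')

theorem gauss_integral_one : ∫ x : E d, Real.exp (-‖x‖ ^ 2 / 2) = gaussK d 1 := by
  rw [← gauss_integral one_pos (0 : E d)]
  simp [neg_div]

theorem gauss_integrable_one : Integrable fun x : E d => Real.exp (-‖x‖ ^ 2 / 2) := by
  simpa [neg_div] using gauss_integrable one_pos (0 : E d)

theorem gaussK_cosh (r : ℝ) : Real.cosh r ^ d * gaussK d (Real.cosh r ^ 2) = gaussK d 1 := by
  have h := Real.cosh_pos r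
  have e : Real.cosh r ^ d = (Real.cosh r ^ 2) ^ ((d : ℝ) / 2) := by
    rw [← Real.rpow_natCast, ← Real.rpow_natCast, ← Real.rpow_mul h.le]
    congr 1
    push_cast
    ring
  rw [e, gaussK, gaussK, ← Real.mul_rpow (by positivity) (by positivity)]
  congr 1
  field_simp

theorem gam_eq_tilted : gam d = (volume : Measure (E d)).tilted fun z => -‖z‖ ^ 2 / 2 := by
  have := isProbabilityMeasure_tilted (μ := (volume : Measure (E d))) gauss_integrable_one
  apply Measure.ext_of_charFun
  ext t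
  rw [charFun_stdGaussian, charFun_apply, integral_tilted, gauss_integral_one]
  have h := GaussianFourier.integral_cexp_neg_mul_sq_norm_add (V := E d) (b := 1 / 2) (by norm_num)
    Complex.I t
  have hK : ((gaussK d 1 : ℝ) : ℂ) =
      ((Real.pi : ℂ) / (1 / 2)) ^ ((Module.finrank ℝ (E d) : ℂ) / 2) := by
    rw [finrank_euclideanSpace_fin, gaussK, Complex.ofReal_cpow (by positivity)]
    push_cast
    rfl
  have hK0 : ((gaussK d 1 : ℝ) : ℂ) ≠ 0 := Complex.ofReal_ne_zero.2 (gaussK_pos one_pos).ne'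
  rw [← hK] at h
  have e : ∀ x : E d, (Real.exp (-‖x‖ ^ 2 / 2) / gaussK d 1) • Complex.exp (⟪x, t⟫ * Complex.I) =
      Complex.exp (-(1 / 2) * ‖x‖ ^ 2 + Complex.I * ⟪t, x⟫) / gaussK d 1 := fun x => by
    rw [Complex.exp_add, Complex.real_smul, real_inner_comm]
    push_cast
    rw [mul_comm Complex.I, show -(‖x‖ : ℂ) ^ 2 / 2 = -(1 / 2) * ‖x‖ ^ 2 by ring]
    ring
  simp_rw [e]
  rw [integral_div, h, Complex.I_sq]
  field_simp
  congr 1
  ring

theorem gauss_integral_sq : ∫ ξ, ‖ξ‖ ^ 2 ∂(gam d) = d := by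
  have hi : ∀ i : Fin d, ∫ ξ, (ξ i) ^ 2 ∂(gam d) = 1 ∧ Integrable (fun ξ => (ξ i) ^ 2) (gam d) := by
    intro i
    set L : StrongDual ℝ (E d) := innerSL ℝ (EuclideanSpace.single i (1 : ℝ)) with hL
    have hLa : ∀ ξ : E d, L ξ = ξ i := fun ξ => by simp [hL, EuclideanSpace.inner_single_left]
    have h1 := variance_dual_stdGaussian L
    have h2 : MemLp L 2 (gam d) := IsGaussian.memLp_dual _ L 2 (by simp)
    rw [variance_eq_sub h2, integral_strongDual_stdGaussian] at h1
    have h3 : ‖L‖ = 1 := by simp [hL]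
    refine ⟨?_, ?_⟩
    · simpa [hLa, h3] using h1
    · simpa [hLa] using h2.integrable_sq
  simp_rw [EuclideanSpace.real_norm_sq_eq]
  rw [integral_finsetSum _ fun i _ => (hi i).2]
  simp [fun i => (hi i).1]

theorem lintegral_enorm_gam : ∫⁻ ξ, ‖ξ‖ₑ ∂(gam d) ≤ ENNReal.ofReal √(d : ℝ) := by
  have h2 : MemLp (fun ξ : E d => ‖ξ‖) 2 (gam d) := (IsGaussian.memLp_two_id (μ := gam d)).norm
  have h1 : Integrable (fun ξ : E d => ξ) (gam d) := IsGaussian.integrable_id
  rw [← ofReal_integral_norm_eq_lintegral_enorm h1]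
  refine ENNReal.ofReal_le_ofReal (Real.le_sqrt_of_sq_le ?_)
  have h3 := variance_nonneg (fun ξ : E d => ‖ξ‖) (gam d)
  rw [variance_eq_sub h2] at h3
  have h4 := gauss_integral_sq (d := d)
  simp only [Pi.pow_apply] at h3
  linarith

/-- Sum of independent Gaussians. -/
theorem lintegral_gam_add (a b : ℝ) {f : E d → ℝ≥0∞} (hf : Measurable f) :
    ∫⁻ ξ, ∫⁻ ξ', f (a • ξ + b • ξ') ∂(gam d) ∂(gam d) =
      ∫⁻ ξ, f (√(a ^ 2 + b ^ 2) • ξ) ∂(gam d) := by
  have h : ((gam d).map (a • ·)) ∗ ((gam d).map (b • ·)) =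
      (gam d).map (√(a ^ 2 + b ^ 2) • ·) := by
    apply Measure.ext_of_charFun
    ext t
    simp only [charFun_conv, charFun_map_smul, charFun_stdGaussian, ← Complex.exp_add, norm_smul,
      Real.norm_eq_abs]
    congr 1
    have e : ∀ c : ℝ, ((|c| * ‖t‖ : ℝ) : ℂ) ^ 2 = ((c ^ 2 * ‖t‖ ^ 2 : ℝ) : ℂ) := fun c => by
      rw [← Complex.ofReal_pow, mul_pow, sq_abs]
    rw [e, e, e, Real.sq_sqrt (by positivity)]
    push_cast
    ring
  rw [← lintegral_map hf (by fun_prop), ← h, Measure.lintegral_conv hf,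
    lintegral_map (f := fun x => ∫⁻ y, f (x + y) ∂((gam d).map (b • ·)))
      (Measurable.lintegral_prod_right' (f := fun p : E d × E d => f (p.1 + p.2)) (by fun_prop))
      (by fun_prop)]
  congr 1
  ext ξ
  rw [lintegral_map (f := fun y => f (a • ξ + y)) (by fun_prop) (by fun_prop)]

theorem gauss_weight_le (h : Pot α δ W) (c : ℝ) (b x : E d) :
    Real.exp (-(c * ‖x - b‖ ^ 2 / 2) - W x) ≤ Real.exp (-(c * ‖x - b‖ ^ 2 / 2)) :=
  Real.exp_le_exp.2 (by linarith [h.nonneg x])

theorem gauss_weight_integrable (h : Pot α δ W) {c : ℝ} (hc : 0 < c) (b : E d) :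
    Integrable fun x => Real.exp (-(c * ‖x - b‖ ^ 2 / 2) - W x) := by
  have := h.c2.continuous
  refine (gauss_integrable hc b).mono' (by fun_prop) (Filter.Eventually.of_forall fun x => ?_)
  rw [Real.norm_eq_abs, abs_of_pos (Real.exp_pos _)]
  exact gauss_weight_le h c b x

theorem gauss_pz_weight (h : Pot α δ W) (r : ℝ) (z : E d) :
    Real.exp (-‖z‖ ^ 2 / 2 - lZ W (r, Real.tanh r • z)) =
      Real.exp (-‖z‖ ^ 2 / 2) * Real.cosh r ^ d *
        ∫ x, Real.exp (-(Real.cosh r ^ 2 * ‖x - Real.tanh r • z‖ ^ 2 / 2) - W x) := by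
  have hc := Real.cosh_pos r
  have := integral_exp_pos (gauss_weight_integrable h (c := Real.cosh r ^ 2) (by positivity)
    (Real.tanh r • z))
  rw [lZ, sub_neg_eq_add, Real.exp_add, Real.exp_log (by positivity), mul_assoc]

theorem gauss_pz_weight_le (h : Pot α δ W) (r : ℝ) (z : E d) :
    Real.exp (-‖z‖ ^ 2 / 2 - lZ W (r, Real.tanh r • z)) ≤
      gaussK d 1 * Real.exp (-‖z‖ ^ 2 / 2) := by
  have hc := Real.cosh_pos r
  have hc2 : 0 < Real.cosh r ^ 2 := by positivity
  rw [gauss_pz_weight h, ← gaussK_cosh r, ← gauss_integral hc2 (Real.tanh r • z), mul_assoc,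
    mul_comm]
  refine mul_le_mul_of_nonneg_right (mul_le_mul_of_nonneg_left ?_ (by positivity)) (by positivity)
  exact integral_mono (gauss_weight_integrable h hc2 _) (gauss_integrable hc2 _)
    fun x => gauss_weight_le h _ _ x

theorem gauss_measurable_lZ (h : Pot α δ W) (r : ℝ) :
    Measurable fun z : E d => lZ W (r, Real.tanh r • z) := by
  have := h.c2.continuous
  have h1 : StronglyMeasurable fun z : E d =>
      ∫ x, Real.exp (-(Real.cosh r ^ 2 * ‖x - Real.tanh r • z‖ ^ 2 / 2) - W x) :=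
    StronglyMeasurable.integral_prod_right' (f := fun p : E d × E d =>
      Real.exp (-(Real.cosh r ^ 2 * ‖p.2 - Real.tanh r • p.1‖ ^ 2 / 2) - W p.2))
      (Continuous.stronglyMeasurable (by fun_prop))
  have h2 := h1.measurable
  unfold lZ
  fun_prop

theorem integrable_pz_weight (h : Pot α δ W) (r : ℝ) :
    Integrable fun z : E d => Real.exp (-‖z‖ ^ 2 / 2 - lZ W (r, Real.tanh r • z)) := by
  have := gauss_measurable_lZ h r
  refine (gauss_integrable_one.const_mul (gaussK d 1)).mono' (by fun_prop)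
    (Filter.Eventually.of_forall fun z => ?_)
  rw [Real.norm_eq_abs, abs_of_pos (Real.exp_pos _)]
  exact gauss_pz_weight_le h r z

theorem isProb_pz (h : Pot α δ W) (r : ℝ) : IsProbabilityMeasure (pz W r) :=
  isProbabilityMeasure_tilted (integrable_pz_weight h r)

theorem gauss_tilted_sub_const {X : Type*} [MeasurableSpace X] (μ : Measure X) (f : X → ℝ) (c : ℝ) :
    μ.tilted (fun x => f x - c) = μ.tilted f := by
  simp only [Measure.tilted, Real.exp_sub, integral_div]
  congr 1
  ext x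
  rw [div_div_div_cancel_right₀ (Real.exp_pos c).ne']

theorem pz_zero (h : Pot α δ W) : pz W 0 = gam d := by
  have _ := h
  rw [gam_eq_tilted, pz]
  simp only [Real.tanh_zero, zero_smul]
  exact gauss_tilted_sub_const _ _ _

theorem gauss_integrable_pow (n : ℕ) : Integrable (fun z : E d => (1 + ‖z‖) ^ n) (gam d) := by
  have h0 : MemLp (fun z : E d => ‖z‖) n (gam d) := (IsGaussian.memLp_id (gam d) n (by simp)).norm
  have h1 : MemLp (fun z : E d => 1 + ‖z‖) n (gam d) := (memLp_const (1 : ℝ)).add h0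
  have h2 := h1.integrable_norm_pow'
  refine h2.congr (Filter.Eventually.of_forall fun z => ?_)
  simp only [Real.norm_eq_abs]
  rw [abs_of_pos (by positivity)]

/-- Functions of polynomial growth are integrable for `pp`. -/
theorem integrable_pp (h : Pot α δ W) (r : ℝ) {f : E d × E d → ℝ} (hf : Continuous f)
    (hg : PGrowth f) : Integrable f (pp W r) := by
  obtain ⟨C, n, hC⟩ := hg
  have := isProb_pz h r
  have h1 := gauss_integrable_pow (d := d) n
  have h2 : Integrable (fun z : E d => (1 + ‖z‖) ^ n) (pz W r) := by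
    rw [gam_eq_tilted, integrable_tilted_iff gauss_integrable_one] at h1
    rw [pz, integrable_tilted_iff (integrable_pz_weight h r)]
    have := gauss_measurable_lZ h r
    refine (h1.const_mul (gaussK d 1)).mono' (by fun_prop)
      (Filter.Eventually.of_forall fun z => ?_)
    rw [smul_eq_mul, smul_eq_mul, Real.norm_eq_abs, abs_of_pos (by positivity), ← mul_assoc]
    gcongr
    exact gauss_pz_weight_le h r z
  refine ((h2.mul_prod h1).const_mul |C|).mono' hf.aestronglyMeasurable
    (Filter.Eventually.of_forall fun x => (hC x).trans ?_)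
  rw [← mul_pow]
  refine (mul_le_mul_of_nonneg_right (le_abs_self C) (by positivity)).trans ?_
  gcongr
  rw [Prod.norm_def]
  have a := norm_nonneg x.1
  have b := norm_nonneg x.2
  rcases le_total ‖x.1‖ ‖x.2‖ with hh | hh
  · rw [max_eq_right hh]; nlinarith
  · rw [max_eq_left hh]; nlinarith

/-- `pp` as a tilted Lebesgue measure. -/
theorem pp_eq_tilted (h : Pot α δ W) (r : ℝ) :
    pp W r = ((volume : Measure (E d)).prod (volume : Measure (E d))).tilted
      fun x => -‖x.1‖ ^ 2 / 2 - ‖x.2‖ ^ 2 / 2 - lZ W (r, Real.tanh r • x.1) := by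
  have hm := gauss_measurable_lZ h r
  have e : ∀ x : E d × E d, Real.exp (-‖x.1‖ ^ 2 / 2 - ‖x.2‖ ^ 2 / 2 - lZ W (r, Real.tanh r • x.1)) =
      Real.exp (-‖x.1‖ ^ 2 / 2 - lZ W (r, Real.tanh r • x.1)) * Real.exp (-‖x.2‖ ^ 2 / 2) :=
    fun x => by rw [← Real.exp_add]; congr 1; ring
  rw [pp, pz, gam_eq_tilted]
  simp only [Measure.tilted, e]
  rw [prod_withDensity (by fun_prop) (by fun_prop),
    integral_prod_mul (fun z : E d => Real.exp (-‖z‖ ^ 2 / 2 - lZ W (r, Real.tanh r • z)))
      (fun z : E d => Real.exp (-‖z‖ ^ 2 / 2))]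
  congr 1
  ext x
  rw [← ENNReal.ofReal_mul (div_nonneg (Real.exp_pos _).le
    (integral_nonneg fun _ => (Real.exp_pos _).le)), div_mul_div_comm]

theorem gauss_measurable_tilted {φ : E d → E d → ℝ} (hφ : Measurable (Function.uncurry φ))
    {f : E d → ℝ≥0∞} (hf : Measurable f) :
    Measurable fun b => ∫⁻ x, f x ∂((volume : Measure (E d)).tilted (φ b)) := by
  simp only [lintegral_tilted]
  have h1 : Measurable fun b => ∫ x, Real.exp (φ b x) :=
    (StronglyMeasurable.integral_prod_right' (f := fun p : E d × E d => Real.exp (φ p.1 p.2))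
      (Real.measurable_exp.comp hφ).stronglyMeasurable).measurable
  exact Measurable.lintegral_prod_right' (f := fun p : E d × E d =>
    ENNReal.ofReal (Real.exp (φ p.1 p.2) / ∫ x, Real.exp (φ p.1 x)) * f p.2)
    ((((Real.measurable_exp.comp hφ).div (h1.comp measurable_fst)).ennreal_ofReal).mul
      (hf.comp measurable_snd))

theorem measurable_lintegral_nu (hW : Continuous W) (t : ℝ) {f : E d → ℝ≥0∞} (hf : Measurable f) :
    Measurable fun b => ∫⁻ x, f x ∂(nu W b t) :=
  gauss_measurable_tilted (φ := fun b x => -‖x - b‖ ^ 2 / (2 * t) - W x)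
    (Continuous.measurable (by unfold Function.uncurry; fun_prop)) hf

theorem gauss_bayes {φ : E d → E d → ℝ} (hφ : Measurable (Function.uncurry φ))
    (hi : ∀ b, Integrable fun x => Real.exp (φ b x)) {a : E d → ℝ} (ha : Measurable a)
    (ha0 : ∀ b, 0 ≤ a b) {f : E d → ℝ≥0∞} (hf : Measurable f) :
    ∫⁻ b, ENNReal.ofReal (a b * ∫ x, Real.exp (φ b x)) *
        ∫⁻ x, f x ∂((volume : Measure (E d)).tilted (φ b)) =
      ∫⁻ x, (∫⁻ b, ENNReal.ofReal (a b * Real.exp (φ b x))) * f x := by
  have hm : Measurable fun p : E d × E d => ENNReal.ofReal (a p.1 * Real.exp (φ p.1 p.2)) :=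
    ((ha.comp measurable_fst).mul (Real.measurable_exp.comp hφ)).ennreal_ofReal
  calc _ = ∫⁻ b, ∫⁻ x, ENNReal.ofReal (a b * Real.exp (φ b x)) * f x := by
        congr 1
        ext b
        have hI := integral_exp_pos (hi b)
        rw [lintegral_tilted, ← lintegral_const_mul' _ _ ENNReal.ofReal_ne_top]
        congr 1
        ext x
        rw [← mul_assoc, ← ENNReal.ofReal_mul (mul_nonneg (ha0 b) hI.le)]
        congr 2
        field_simp
    _ = ∫⁻ x, ∫⁻ b, ENNReal.ofReal (a b * Real.exp (φ b x)) * f x :=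
        lintegral_lintegral_swap (hm.mul (hf.comp measurable_snd)).aemeasurable
    _ = _ := by
        congr 1
        ext x
        exact lintegral_mul_const _ (hm.comp measurable_prodMk_right)

theorem gauss_square (r : ℝ) (x z : E d) :
    ‖z‖ ^ 2 + Real.cosh r ^ 2 * ‖x - Real.tanh r • z‖ ^ 2 =
      Real.cosh r ^ 2 * ‖z - Real.tanh r • x‖ ^ 2 + ‖x‖ ^ 2 := by
  have h : Real.cosh r ^ 2 * (1 - Real.tanh r ^ 2) = 1 := by
    have := Real.cosh_pos r
    rw [Real.tanh_eq_sinh_div_cosh]
    field_simp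
    exact Real.cosh_sq_sub_sinh_sq r
  simp only [norm_sub_sq_real, norm_smul, mul_pow, Real.norm_eq_abs, sq_abs, inner_smul_right,
    real_inner_comm x z]
  linear_combination (‖x‖ ^ 2 - ‖z‖ ^ 2) * h

/-- Disintegration of the tilted Gaussian along an intermediate scale. -/
theorem lintegral_nu_disint (h : Pot α δ W) (r : ℝ) {f : E d → ℝ≥0∞} (hf : Measurable f) :
    ∫⁻ z, ∫⁻ x, f x ∂(nu W (Real.tanh r • z) (1 - Real.tanh r ^ 2)) ∂(pz W r) =
      ∫⁻ x, f x ∂(nu W 0 1) := by
  have hW := h.c2.continuous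
  have hc := Real.cosh_pos r
  have hc2 : 0 < Real.cosh r ^ 2 := by positivity
  have ht : 1 - Real.tanh r ^ 2 = (Real.cosh r ^ 2)⁻¹ := by
    rw [Real.tanh_eq_sinh_div_cosh]
    field_simp
    exact Real.cosh_sq_sub_sinh_sq r
  have hnu : ∀ z : E d, nu W (Real.tanh r • z) (1 - Real.tanh r ^ 2) = volume.tilted
      fun x => -(Real.cosh r ^ 2 * ‖x - Real.tanh r • z‖ ^ 2 / 2) - W x := fun z => by
    rw [nu, ht]
    congr 1
    ext x
    field_simp
  set Z := ∫ z : E d, Real.exp (-‖z‖ ^ 2 / 2 - lZ W (r, Real.tanh r • z)) with hZ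
  have hZ0 : 0 < Z := integral_exp_pos (integrable_pz_weight h r)
  have key : ∀ f : E d → ℝ≥0∞, Measurable f →
      ∫⁻ z, ∫⁻ x, f x ∂(nu W (Real.tanh r • z) (1 - Real.tanh r ^ 2)) ∂(pz W r) =
      ∫⁻ x, ENNReal.ofReal (gaussK d 1 / Z * Real.exp (-(1 * ‖x - 0‖ ^ 2 / 2) - W x)) * f x := by
    intro f hf
    have := gauss_bayes
      (φ := fun z x => -(Real.cosh r ^ 2 * ‖x - Real.tanh r • z‖ ^ 2 / 2) - W x)
      (Continuous.measurable (by unfold Function.uncurry; fun_prop))
      (fun z => gauss_weight_integrable h hc2 _)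
      (a := fun z => Real.exp (-‖z‖ ^ 2 / 2) * Real.cosh r ^ d / Z) (by fun_prop)
      (fun z => by positivity) hf
    rw [pz, lintegral_tilted, ← hZ]
    simp only [hnu, gauss_pz_weight h, mul_div_right_comm _ _ Z] at this ⊢
    rw [this]
    congr 1
    ext x
    congr 1
    have e : ∀ z : E d, Real.exp (-‖z‖ ^ 2 / 2) / Z * Real.cosh r ^ d *
        Real.exp (-(Real.cosh r ^ 2 * ‖x - Real.tanh r • z‖ ^ 2 / 2) - W x) =
        (Real.cosh r ^ d / Z * Real.exp (-(1 * ‖x - 0‖ ^ 2 / 2) - W x)) *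
          Real.exp (-(Real.cosh r ^ 2 * ‖z - Real.tanh r • x‖ ^ 2 / 2)) := fun z => by
      have e1 : Real.exp (-‖z‖ ^ 2 / 2) *
          Real.exp (-(Real.cosh r ^ 2 * ‖x - Real.tanh r • z‖ ^ 2 / 2) - W x) =
          Real.exp (-(1 * ‖x - 0‖ ^ 2 / 2) - W x) *
          Real.exp (-(Real.cosh r ^ 2 * ‖z - Real.tanh r • x‖ ^ 2 / 2)) := by
        rw [← Real.exp_add, ← Real.exp_add, sub_zero]
        congr 1
        linear_combination (-1 / 2) * gauss_square r x z
      linear_combination (Real.cosh r ^ d / Z) * e1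
    simp only [e]
    rw [← ofReal_integral_eq_lintegral_ofReal ((gauss_integrable hc2 _).const_mul _)
      (Filter.Eventually.of_forall fun z => by positivity), integral_const_mul,
      gauss_integral hc2, ← gaussK_cosh r]
    congr 1
    ring
  have hi0 := gauss_weight_integrable h one_pos (0 : E d)
  have hI0 := integral_exp_pos hi0
  have hK := gaussK_pos (d := d) one_pos
  have h1 := key (fun _ => 1) measurable_const
  have hp : ∀ z : E d, IsProbabilityMeasure (nu W (Real.tanh r • z) (1 - Real.tanh r ^ 2)) :=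
    fun z => by rw [hnu]; exact isProbabilityMeasure_tilted (gauss_weight_integrable h hc2 _)
  have := isProb_pz h r
  simp only [lintegral_const, measure_univ, mul_one] at h1
  rw [← ofReal_integral_eq_lintegral_ofReal (hi0.const_mul _)
    (Filter.Eventually.of_forall fun z => by positivity), integral_const_mul, eq_comm,
    ENNReal.ofReal_eq_one] at h1
  have hnu0 : nu W 0 1 = volume.tilted fun x => -(1 * ‖x - 0‖ ^ 2 / 2) - W x := by
    rw [nu]
    congr 1
    ext x
    ring
  rw [key f hf, hnu0, lintegral_tilted]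
  congr 1
  ext x
  congr 2
  rw [eq_div_iff hI0.ne']
  linear_combination Real.exp (-(1 * ‖x - 0‖ ^ 2 / 2) - W x) * h1

theorem gauss_change {η : ℝ} (hη : 0 < η) : ∃ κ : ℝ, 0 < κ ∧ ∀ (x : E d) (g : E d → ℝ≥0∞),
    Measurable g → ∫⁻ ξ, g (x + √η • ξ) ∂(gam d) =
      ∫⁻ b, ENNReal.ofReal (κ * Real.exp (-‖x - b‖ ^ 2 / (2 * η))) * g b := by
  have hs : 0 < √η := Real.sqrt_pos.2 hη
  have hK := gaussK_pos (d := d) one_pos
  refine ⟨(√η ^ d)⁻¹ / gaussK d 1, by positivity, fun x g hg => ?_⟩
  set H : E d → ℝ≥0∞ :=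
    fun b => ENNReal.ofReal (Real.exp (-‖x - b‖ ^ 2 / (2 * η)) / gaussK d 1) * g b with hH
  have hHm : Measurable H := by rw [hH]; fun_prop
  rw [gam_eq_tilted, lintegral_tilted, gauss_integral_one]
  have e : ∀ ξ : E d, ENNReal.ofReal (Real.exp (-‖ξ‖ ^ 2 / 2) / gaussK d 1) * g (x + √η • ξ) =
      H (x + √η • ξ) := fun ξ => by
    simp only [hH, sub_add_cancel_left, norm_neg, norm_smul, mul_pow, Real.norm_eq_abs, sq_abs,
      Real.sq_sqrt hη.le]
    congr 4
    field_simp
  simp only [e]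
  rw [← lintegral_map (f := fun u => H (x + u)) (g := (√η • ·)) (by fun_prop) (by fun_prop),
    Measure.map_addHaar_smul _ hs.ne', lintegral_smul_measure, lintegral_add_left_eq_self H x,
    finrank_euclideanSpace_fin, smul_eq_mul, ← lintegral_const_mul' _ _ ENNReal.ofReal_ne_top]
  congr 1
  ext b
  rw [hH, ← mul_assoc, ← ENNReal.ofReal_mul (abs_nonneg _), abs_of_pos (by positivity)]
  congr 2
  ring

/-- Invariance of the target under the proximal step. -/
theorem lintegral_target_prox {V : E d → ℝ} (hV : Admissible d V) {η : ℝ} (hη : 0 < η)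
    {f : E d → ℝ≥0∞} (hf : Measurable f) :
    ∫⁻ x, ∫⁻ ξ, ∫⁻ y, f y ∂(nu V (x + √η • ξ) η) ∂(gam d) ∂(target d V) =
      ∫⁻ x, f x ∂(target d V) := by
  have h := pot_of_admissible hV
  have hW := h.c2.continuous
  obtain ⟨κ, hκ, hc⟩ := gauss_change (d := d) hη
  have hg := measurable_lintegral_nu hW η hf
  have hi : ∀ b : E d, Integrable fun x => Real.exp (-‖x - b‖ ^ 2 / (2 * η) - V x) := fun b => by
    refine (gauss_weight_integrable h (c := η⁻¹) (by positivity) b).congr
      (Filter.Eventually.of_forall fun x => ?_)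
    simp only
    congr 2
    field_simp
  have hb := gauss_bayes (φ := fun b x => -‖x - b‖ ^ 2 / (2 * η) - V x)
    (Continuous.measurable (by unfold Function.uncurry; fun_prop)) hi (a := fun _ => κ)
    measurable_const (fun _ => hκ.le) hf
  have e : ∀ x b : E d, ENNReal.ofReal (κ * Real.exp (-‖x - b‖ ^ 2 / (2 * η) - V x)) =
      ENNReal.ofReal (Real.exp (-V x)) *
        ENNReal.ofReal (κ * Real.exp (-‖x - b‖ ^ 2 / (2 * η))) := fun x b => by
    rw [← ENNReal.ofReal_mul (Real.exp_pos _).le, sub_eq_add_neg, Real.exp_add]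
    congr 1
    ring
  have hd : Measurable fun x => ENNReal.ofReal (Real.exp (-V x)) := by fun_prop
  simp only [target, lintegral_smul_measure]
  congr 1
  rw [lintegral_withDensity_eq_lintegral_mul_non_measurable _ hd
      (Filter.Eventually.of_forall fun _ => ENNReal.ofReal_lt_top),
    lintegral_withDensity_eq_lintegral_mul_non_measurable _ hd
      (Filter.Eventually.of_forall fun _ => ENNReal.ofReal_lt_top)]
  simp only [Pi.mul_apply]
  calc _ = ∫⁻ x, ∫⁻ b, ENNReal.ofReal (κ * Real.exp (-‖x - b‖ ^ 2 / (2 * η) - V x)) *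
          ∫⁻ y, f y ∂(nu V b η) := by
        congr 1
        ext x
        rw [hc x _ hg, ← lintegral_const_mul' _ _ ENNReal.ofReal_ne_top]
        simp only [e, mul_assoc]
    _ = ∫⁻ b, ∫⁻ x, ENNReal.ofReal (κ * Real.exp (-‖x - b‖ ^ 2 / (2 * η) - V x)) *
          ∫⁻ y, f y ∂(nu V b η) := by
        refine lintegral_lintegral_swap (Measurable.aemeasurable ?_)
        exact (Measurable.ennreal_ofReal (Continuous.measurable (by fun_prop))).mul
          (hg.comp measurable_snd)
    _ = ∫⁻ b, ENNReal.ofReal (κ * ∫ x, Real.exp (-‖x - b‖ ^ 2 / (2 * η) - V x)) *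
          ∫⁻ y, f y ∂(nu V b η) := by
        congr 1
        ext b
        rw [lintegral_mul_const _ (by fun_prop), ← integral_const_mul,
          ofReal_integral_eq_lintegral_ofReal ((hi b).const_mul κ)
            (Filter.Eventually.of_forall fun z => by positivity)]
    _ = _ := by
        refine hb.trans ?_
        congr 1
        ext x
        have h1 := hc x (fun _ => 1) measurable_const
        simp only [lintegral_const, measure_univ, mul_one] at h1
        simp only [e]
        rw [lintegral_const_mul' _ _ ENNReal.ofReal_ne_top, ← h1, mul_one]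

end Crest.Agent.R285
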