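import Crest.Agent.R285.DA2Def
import Crest.Agent.R285.Cumul
import Crest.Agent.R285.Gauss

/-! Row 285: the concrete differential algebra. -/

set_option autoImplicit false

open MeasureTheory ProbabilityTheory Crest.OracleSampling
open scoped ENNReal NNReal RealInnerProductSpace ContDiff

namespace Crest.Agent.R285

open PoincareAux

variable {d : ℕ} {δ : ℝ} {W : E d → ℝ}

/-- The space of `(r, z, g, a)`. -/
abbrev Sp (d : ℕ) := ℝ × E d × E d × E d

/-- Directions of the position derivatives. -/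
noncomputable def pv (d : ℕ) : Fin d ⊕ Fin d → Sp d
  | .inl i => (0, EuclideanSpace.single i 1, 0, 0)
  | .inr i => (0, 0, EuclideanSpace.single i 1, 0)

/-- Directions of the tilt derivatives. -/
noncomputable def tv (d : ℕ) : Fin d ⊕ Fin d → Sp d
  | .inl i => (0, 0, 0, EuclideanSpace.single i 1)
  | .inr _ => 0

/-- The coordinates. -/
def xv (d : ℕ) : Fin d ⊕ Fin d → Sp d → ℝ
  | .inl i => fun q => q.2.1 i
  | .inr i => fun q => q.2.2.1 i

/-- The symplectic matrix. -/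
def jc (d : ℕ) : Fin d ⊕ Fin d → Fin d ⊕ Fin d → ℝ
  | .inl i, .inr j => if i = j then 1 else 0
  | .inr i, .inl j => if i = j then -1 else 0
  | .inl _, .inl _ => 0
  | .inr _, .inr _ => 0

theorem contDiff_tanh : ContDiff ℝ ∞ Real.tanh := by
  have e : Real.tanh = fun x => Real.sinh x / Real.cosh x := funext Real.tanh_eq_sinh_div_cosh
  rw [e]
  exact Real.contDiff_sinh.div Real.contDiff_cosh fun x => (Real.cosh_pos x).ne'

theorem hasDerivAt_tanh (r : ℝ) : HasDerivAt Real.tanh (1 - Real.tanh r ^ 2) r := by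
  have h := (Real.hasDerivAt_sinh r).fun_div (Real.hasDerivAt_cosh r) (Real.cosh_pos r).ne'
  have e : Real.tanh = fun x => Real.sinh x / Real.cosh x := funext Real.tanh_eq_sinh_div_cosh
  have e2 : 1 - Real.tanh r ^ 2 =
      (Real.cosh r * Real.cosh r - Real.sinh r * Real.sinh r) / Real.cosh r ^ 2 := by
    have := Real.cosh_pos r
    rw [Real.tanh_eq_sinh_div_cosh]
    field_simp
  rw [e2, e]
  exact h

/-- The substitution `(r, z, g, a) ↦ (r, tanh r • z + a)`. -/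
noncomputable def FI1_lmap (d : ℕ) (q : Sp d) : ℝ × E d := (q.1, Real.tanh q.1 • q.2.1 + q.2.2.2)

lemma FI1_contDiff_lmap : ContDiff ℝ ∞ (FI1_lmap d) := by
  unfold FI1_lmap
  have h := contDiff_tanh
  fun_prop

lemma FI1_fderiv_lmap (q v : Sp d) : fderiv ℝ (FI1_lmap d) q v =
    (v.1, (v.1 * (1 - Real.tanh q.1 ^ 2)) • q.2.1 + Real.tanh q.1 • v.2.1 + v.2.2.2) := by
  have h1 : HasFDerivAt (fun q : Sp d => q.1) _ q := hasFDerivAt_fst (𝕜 := ℝ)
  have h2 : HasFDerivAt (fun q : Sp d => q.2.1) _ q := (hasFDerivAt_snd (𝕜 := ℝ)).fst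
  have h3 : HasFDerivAt (fun q : Sp d => q.2.2.2) _ q := 
    (hasFDerivAt_snd (𝕜 := ℝ) (p := q)).snd.snd
  have h4 := (hasDerivAt_tanh q.1).comp_hasFDerivAt q h1
  have h5 := h1.prodMk ((h4.fun_smul h2).fun_add h3)
  have h6 : HasFDerivAt (FI1_lmap d) _ q := h5
  rw [h6.fderiv]
  simp [mul_comm, add_comm]

/-- Pull-back of smooth functions along `FI1_lmap`. -/
noncomputable def FI1_lift (f : Sm (ℝ × E d)) : Sm (Sp d) :=
  ⟨fun q => (f : ℝ × E d → ℝ) (FI1_lmap d q), (Sm.smooth f).comp FI1_contDiff_lmap⟩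

lemma FI1_lift_apply (f : Sm (ℝ × E d)) (q : Sp d) :
    (FI1_lift f : Sp d → ℝ) q = (f : ℝ × E d → ℝ) (FI1_lmap d q) := rfl

lemma FI1_pd_lift (f : Sm (ℝ × E d)) (v q : Sp d) :
    (pd v (FI1_lift f) : Sp d → ℝ) q = fderiv ℝ (f : ℝ × E d → ℝ) (FI1_lmap d q)
      (v.1, (v.1 * (1 - Real.tanh q.1 ^ 2)) • q.2.1 + Real.tanh q.1 • v.2.1 + v.2.2.2) := by
  rw [pd_apply, ← FI1_fderiv_lmap]
  have : (FI1_lift f : Sp d → ℝ) = (f : ℝ × E d → ℝ) ∘ FI1_lmap d := rfl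
  rw [this, fderiv_comp q (Sm.diff f _) (FI1_contDiff_lmap.differentiable (by simp) q)]
  rfl

lemma FI1_tv_lift (f : Sm (ℝ × E d)) (i : Fin d) :
    pd (tv d (.inl i)) (FI1_lift f) = FI1_lift (pd (eb d i) f) := by
  ext q
  rw [FI1_pd_lift, FI1_lift_apply, pd_apply]
  simp [tv, eb]

lemma FI1_pd_zero (F : Sm (Sp d)) : pd (0 : Sp d) F = 0 := by
  ext q
  rw [pd_apply]
  simp

lemma FI1_fderiv_tanh (q v : Sp d) :
    fderiv ℝ (fun q : Sp d => Real.tanh q.1) q v = v.1 * (1 - Real.tanh q.1 ^ 2) := by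
  have h1 : HasFDerivAt (fun q : Sp d => q.1) _ q := hasFDerivAt_fst (𝕜 := ℝ)
  have h4 : HasFDerivAt (fun q : Sp d => Real.tanh q.1) _ q :=
    (hasDerivAt_tanh q.1).comp_hasFDerivAt q h1
  rw [h4.fderiv]
  simp [mul_comm]

/-- The coordinates as continuous linear maps. -/
noncomputable def FI1_xL (d : ℕ) : Fin d ⊕ Fin d → Sp d →L[ℝ] ℝ
  | .inl i => (EuclideanSpace.proj i : E d →L[ℝ] ℝ).comp
      ((ContinuousLinearMap.fst ℝ _ _).comp (ContinuousLinearMap.snd ℝ _ _))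
  | .inr i => (EuclideanSpace.proj i : E d →L[ℝ] ℝ).comp
      ((ContinuousLinearMap.fst ℝ _ _).comp
        ((ContinuousLinearMap.snd ℝ _ _).comp (ContinuousLinearMap.snd ℝ _ _)))

lemma FI1_xv_eq (a : Fin d ⊕ Fin d) : xv d a = FI1_xL d a := by
  cases a <;> rfl

lemma FI1_fderiv_xv (a : Fin d ⊕ Fin d) (q v : Sp d) : fderiv ℝ (xv d a) q v = xv d a v := by
  rw [FI1_xv_eq, ContinuousLinearMap.fderiv]

lemma FI1_expand (L : ℝ × E d →L[ℝ] ℝ) (z : E d) : L (0, z) = ∑ i, z i * L (eb d i) := by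
  have : ((0 : ℝ), z) = ∑ i, z i • eb d i := by
    ext j
    · simp [eb, Prod.fst_sum]
    · simp [eb, Prod.snd_sum, Pi.single_apply]
  rw [this, map_sum]
  simp

/-- The potential as a function of `(r, z, g, a)`. -/
noncomputable def phiS (h : Pot 0 δ W) : Sm (Sp d) :=
  ⟨fun q => lZ W (q.1, Real.tanh q.1 • q.2.1 + q.2.2.2), by
    exact (contDiff_lZ h).comp FI1_contDiff_lmap⟩

/-- The function `tanh r`. -/
noncomputable def rhoS (d : ℕ) : Sm (Sp d) :=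
  ⟨fun q => Real.tanh q.1, by
    exact contDiff_tanh.comp contDiff_fst⟩

/-- The coordinates as smooth functions. -/
noncomputable def xS (d : ℕ) (a : Fin d ⊕ Fin d) : Sm (Sp d) :=
  ⟨xv d a, by
    change ContDiff ℝ ∞ (xv d a)
    rw [FI1_xv_eq]
    exact (FI1_xL d a).contDiff⟩

lemma FI1_phiS_eq (h : Pot 0 δ W) : phiS h = FI1_lift (lZs h) := rfl

lemma FI1_p_phi (h : Pot 0 δ W) (a : Fin d ⊕ Fin d) :
    pd (pv d a) (phiS h) = rhoS d * pd (tv d a) (phiS h) := by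
  ext q
  change _ = Real.tanh q.1 * (pd (tv d a) (phiS h) : Sp d → ℝ) q
  rw [FI1_phiS_eq, FI1_pd_lift, FI1_pd_lift]
  cases a with
  | inl i =>
    rw [← smul_eq_mul (Real.tanh q.1), ← map_smul]
    simp [pv, tv]
  | inr i =>
    have e : ((0 : ℝ), (0 : E d)) = 0 := rfl
    simp [pv, tv, e]

lemma FI1_dr_phi (h : Pot 0 δ W) :
    pd (1, 0, 0, 0) (phiS h) = (1 - rhoS d ^ 2) * (∑ a, xS d a * pd (tv d a) (phiS h) -
      rhoS d * ∑ a, (pd (tv d a) (pd (tv d a) (phiS h)) - pd (tv d a) (phiS h) ^ 2)) := by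
  have h0 : ∀ (i : Fin d) (F : Sm (Sp d)), pd (tv d (.inr i)) F = 0 := fun i F => FI1_pd_zero F
  simp only [Fintype.sum_sum_type, h0, FI1_phiS_eq, FI1_tv_lift, mul_zero, Finset.sum_const_zero,
    add_zero, ne_eq, OfNat.ofNat_ne_zero, not_false_eq_true, zero_pow, sub_self]
  ext q
  rw [FI1_pd_lift]
  have e : (((1 : ℝ), (0 : E d), (0 : E d), (0 : E d)).1,
      (((1 : ℝ), (0 : E d), (0 : E d), (0 : E d)).1 * (1 - Real.tanh q.1 ^ 2)) • q.2.1 +
        Real.tanh q.1 • ((1 : ℝ), (0 : E d), (0 : E d), (0 : E d)).2.1 +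
          ((1 : ℝ), (0 : E d), (0 : E d), (0 : E d)).2.2.2) =
      ((1 : ℝ), (0 : E d)) + (1 - Real.tanh q.1 ^ 2) • ((0 : ℝ), q.2.1) := by simp
  rw [e, map_add, map_smul, FI1_expand]
  have e2 := lZ_pde h (FI1_lmap d q)
  have e3 : ((lZs h : Sm (ℝ × E d)) : ℝ × E d → ℝ) = lZ W := rfl
  rw [e3, e2]
  simp only [Subalgebra.coe_mul, Subalgebra.coe_sub, Subalgebra.coe_one, Subalgebra.coe_pow,
    AddSubmonoidClass.coe_finsetSum, Pi.mul_apply, Pi.sub_apply, Pi.one_apply, Pi.pow_apply,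
    Finset.sum_apply, FI1_lift_apply, smul_eq_mul]
  have e4 : ∀ i, (pd (eb d i) (lZs h) : ℝ × E d → ℝ) (FI1_lmap d q) =
      fderiv ℝ (lZ W) (FI1_lmap d q) (eb d i) := fun i => rfl
  have e5 : (rhoS d : Sp d → ℝ) q = Real.tanh q.1 := rfl
  have e6 : (FI1_lmap d q).1 = q.1 := rfl
  have e7 : ∀ i, (xS d (.inl i) : Sp d → ℝ) q = q.2.1 i := fun i => rfl
  simp only [e4, e5, e6, e7]
  ring

lemma FI1_pd_rho (v : Sp d) (hv : v.1 = 0) : pd v (rhoS d) = 0 := by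
  ext q
  change fderiv ℝ (fun q : Sp d => Real.tanh q.1) q v = 0
  rw [FI1_fderiv_tanh, hv, zero_mul]

lemma FI1_pd_x (v : Sp d) (a : Fin d ⊕ Fin d) :
    pd v (xS d a) = algebraMap ℝ (Sm (Sp d)) (xv d a v) := by
  ext q
  exact FI1_fderiv_xv a q v

/-- The concrete differential algebra. -/
@[reducible] noncomputable def dalg (h : Pot 0 δ W) : DAlg where
  I := Fin d ⊕ Fin d
  A := Sm (Sp d)
  p a := pd (pv d a)
  t a := pd (tv d a)
  dr := pd (1, 0, 0, 0)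
  pp _ _ f := pd_comm _ _ f
  pt _ _ f := pd_comm _ _ f
  tt _ _ f := pd_comm _ _ f
  pdr _ f := pd_comm _ _ f
  tdr _ f := pd_comm _ _ f
  φ := phiS h
  ρ := rhoS d
  x := xS d
  p_φ := FI1_p_phi h
  dr_φ := FI1_dr_phi h
  dr_ρ := by
    ext q
    change fderiv ℝ (fun q : Sp d => Real.tanh q.1) q (1, 0, 0, 0) = 1 - Real.tanh q.1 ^ 2
    rw [FI1_fderiv_tanh, one_mul]
  p_ρ := by
    intro a
    apply FI1_pd_rho
    cases a <;> rfl
  t_ρ := by
    intro a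
    apply FI1_pd_rho
    cases a <;> rfl
  p_x := by
    intro a b
    rw [FI1_pd_x]
    rcases a with a | a <;> rcases b with b | b <;> simp [xv, pv, eq_comm]
  t_x := by
    intro a b
    rw [FI1_pd_x]
    rcases a with a | a <;> rcases b with b | b <;> simp [xv, tv]
  dr_x := by
    intro a
    rw [FI1_pd_x]
    rcases a with a | a <;> simp [xv]
  Jc := jc d
  Jc_anti := by
    intro a b
    rcases a with a | a <;> rcases b with b | b <;> simp only [jc, neg_zero] <;>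
      by_cases hab : a = b <;> simp [hab, Ne.symm]
  Jc_le := by
    intro f
    simp [Fintype.sum_sum_type, jc, add_comm]

theorem dalg_t_inr (h : Pot 0 δ W) (i : Fin d) (F : Sm (Sp d)) : (dalg h).t (.inr i) F = 0 :=
  FI1_pd_zero F

theorem dalg_u_inl (h : Pot 0 δ W) (i : Fin d) (r : ℝ) (z g : E d) :
    ((dalg h).u (.inl i) : Sp d → ℝ) (r, z, g, 0) = uu W r z i := by
  change (pd (tv d (.inl i)) (phiS h) : Sp d → ℝ) (r, z, g, 0) = _
  rw [FI1_phiS_eq, FI1_tv_lift, FI1_lift_apply, pd_apply]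
  change fderiv ℝ (lZ W) (r, Real.tanh r • z + 0) (0, EuclideanSpace.single i 1) = _
  rw [fderiv_lZ_space h le_rfl, add_zero, EuclideanSpace.inner_single_right]
  simp [uu]

lemma FI1_T_map (h : Pot 0 δ W) (s : Multiset (Fin d)) :
    (dalg h).T (s.map Sum.inl) = FI1_lift (pdm (eb d) s (lZs h)) := by
  induction s using Multiset.induction_on with
  | empty => simp [DAlg.T, pdm, FI1_phiS_eq]
  | cons a s ih =>
    rw [Multiset.map_cons, DAlg.T_cons, ih]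
    simp only [pdm, iterD_cons]
    exact FI1_tv_lift _ _

theorem flat_dalg : ∃ c : ℕ → ℝ, (∀ n, 0 ≤ c n) ∧
    ∀ (d : ℕ) (δ : ℝ) (W : E d → ℝ) (h : Pot 0 δ W), 0 ≤ δ → ∀ (q : Sp d) (σ : Type) [Finite σ],
      Flat (c (Nat.card σ) * δ * Real.cosh q.1 ^ (2 * Nat.card σ))
        fun i : σ → Fin d ⊕ Fin d => ((dalg h).T (ms i) : Sp d → ℝ) q := by
  obtain ⟨c, hc, H⟩ := flat_lZ
  refine ⟨c, hc, fun d δ W h hδ q σ _ => ?_⟩
  refine Flat.extend Sum.inl Sum.inl_injective (H d δ W h hδ (FI1_lmap d q) σ) _ ?_ ?_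
  · intro i
    rw [ms_map, FI1_T_map, FI1_lift_apply]
  · rintro i ⟨a, ha⟩
    obtain ⟨j, hj⟩ : ∃ j, i a = Sum.inr j := by
      rcases hi : i a with j | j
      · exact absurd ⟨j, hi.symm⟩ ha
      · exact ⟨j, rfl⟩
    obtain ⟨s, hs⟩ := Multiset.exists_cons_of_mem ((mem_ms i (Sum.inr j)).2 ⟨a, hj⟩)
    rw [hs, DAlg.T_cons, dalg_t_inr]
    rfl

/-- Functions bounded uniformly for `|r| ≤ R`. -/
def FI1_Bd (R : ℝ) (F : Sm (Sp d)) : Prop :=
  ∃ C : ℝ, 0 ≤ C ∧ ∀ r, |r| ≤ R → ∀ x : E d × E d, |(F : Sp d → ℝ) (r, x.1, x.2, 0)| ≤ C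

/-- Functions of linear growth, uniformly for `|r| ≤ R`. -/
def FI1_Lin (R : ℝ) (F : Sm (Sp d)) : Prop :=
  ∃ C : ℝ, 0 ≤ C ∧ ∀ r, |r| ≤ R → ∀ x : E d × E d,
    |(F : Sp d → ℝ) (r, x.1, x.2, 0)| ≤ C * (1 + ‖x‖)

section Growth

variable {R : ℝ} {F K : Sm (Sp d)}

lemma FI1_Bd.add (hF : FI1_Bd R F) (hK : FI1_Bd R K) : FI1_Bd R (F + K) := by
  obtain ⟨C, hC, h1⟩ := hF
  obtain ⟨C', hC', h2⟩ := hK
  exact ⟨C + C', by positivity, fun r hr x =>
    (abs_add_le _ _).trans (add_le_add (h1 r hr x) (h2 r hr x))⟩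

lemma FI1_Bd.mul (hF : FI1_Bd R F) (hK : FI1_Bd R K) : FI1_Bd R (F * K) := by
  obtain ⟨C, hC, h1⟩ := hF
  obtain ⟨C', hC', h2⟩ := hK
  exact ⟨C * C', by positivity, fun r hr x =>
    (abs_mul _ _).trans_le (mul_le_mul (h1 r hr x) (h2 r hr x) (abs_nonneg _) hC)⟩

lemma FI1_Bd.const (c : ℝ) : FI1_Bd R (algebraMap ℝ (Sm (Sp d)) c) :=
  ⟨|c|, abs_nonneg _, fun _ _ _ => le_rfl⟩

lemma FI1_Bd.smul (hF : FI1_Bd R F) (c : ℝ) : FI1_Bd R (c • F) := by
  rw [Algebra.smul_def]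
  exact (FI1_Bd.const c).mul hF

lemma FI1_Bd.sum {κ : Type*} (s : Finset κ) {G : κ → Sm (Sp d)} (hG : ∀ a, FI1_Bd R (G a)) :
    FI1_Bd R (∑ a ∈ s, G a) := by
  refine Finset.sum_induction G (FI1_Bd R) (fun _ _ => FI1_Bd.add) ?_ fun a _ => hG a
  simpa using FI1_Bd.const (d := d) (R := R) 0

lemma FI1_Bd.lin (hF : FI1_Bd R F) : FI1_Lin R F := by
  obtain ⟨C, hC, h1⟩ := hF
  exact ⟨C, hC, fun r hr x => (h1 r hr x).trans
    (le_mul_of_one_le_right hC (le_add_of_nonneg_right (norm_nonneg _)))⟩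

lemma FI1_Lin.add (hF : FI1_Lin R F) (hK : FI1_Lin R K) : FI1_Lin R (F + K) := by
  obtain ⟨C, hC, h1⟩ := hF
  obtain ⟨C', hC', h2⟩ := hK
  exact ⟨C + C', by positivity, fun r hr x =>
    (abs_add_le _ _).trans ((add_le_add (h1 r hr x) (h2 r hr x)).trans_eq (add_mul _ _ _).symm)⟩

lemma FI1_Lin.mul (hF : FI1_Lin R F) (hK : FI1_Bd R K) : FI1_Lin R (F * K) := by
  obtain ⟨C, hC, h1⟩ := hF
  obtain ⟨C', hC', h2⟩ := hK
  exact ⟨C * C', by positivity, fun r hr x =>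
    (abs_mul _ _).trans_le ((mul_le_mul (h1 r hr x) (h2 r hr x) (abs_nonneg _)
      (by positivity)).trans_eq (by ring))⟩

lemma FI1_Lin.smul (hF : FI1_Lin R F) (c : ℝ) : FI1_Lin R (c • F) := by
  rw [Algebra.smul_def, mul_comm]
  exact hF.mul (FI1_Bd.const c)

lemma FI1_Lin.sub (hF : FI1_Lin R F) (hK : FI1_Lin R K) : FI1_Lin R (F - K) := by
  rw [sub_eq_add_neg, ← neg_one_smul ℝ K]
  exact hF.add (hK.smul _)

lemma FI1_Lin.sum {κ : Type*} (s : Finset κ) {G : κ → Sm (Sp d)} (hG : ∀ a, FI1_Lin R (G a)) :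
    FI1_Lin R (∑ a ∈ s, G a) := by
  refine Finset.sum_induction G (FI1_Lin R) (fun _ _ => FI1_Lin.add) ?_ fun a _ => hG a
  simpa using (FI1_Bd.const (d := d) (R := R) 0).lin

lemma FI1_Bd.rho : FI1_Bd R (rhoS d) := ⟨1, zero_le_one, fun r _ _ => Poincare_abs_tanh r⟩

lemma FI1_abs_xv_le (a : Fin d ⊕ Fin d) (r : ℝ) (x : E d × E d) :
    |xv d a (r, x.1, x.2, 0)| ≤ ‖x‖ := by
  rcases a with a | a
  · exact (PiLp.norm_apply_le x.1 a).trans (norm_fst_le x)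
  · exact (PiLp.norm_apply_le x.2 a).trans (norm_snd_le x)

lemma FI1_Lin.x (a : Fin d ⊕ Fin d) : FI1_Lin R (xS d a) :=
  ⟨1, zero_le_one, fun r _ x => (FI1_abs_xv_le a r x).trans (by linarith)⟩

lemma FI1_MM_nonneg (W : E d → ℝ) : 0 ≤ MM W := by
  unfold MM
  positivity

lemma FI1_abs_u_le (h : Pot 0 δ W) (hδ : 0 ≤ δ) (hδ' : δ ≤ 1 / 2) (a : Fin d ⊕ Fin d) (r : ℝ)
    (x : E d × E d) :
    |((dalg h).u a : Sp d → ℝ) (r, x.1, x.2, 0)| ≤ (4 + 5 * MM W) * (1 + ‖x‖) := by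
  have hM := FI1_MM_nonneg W
  rcases a with a | a
  · rw [dalg_u_inl]
    have h1 : |uu W r x.1 a| ≤ ‖uu W r x.1‖ := PiLp.norm_apply_le (uu W r x.1) a
    have h2 := uu_sub_le h hδ hδ' r x.1
    have h3 := norm_sub_norm_le (uu W r x.1) (mn W 0 1)
    have h4 : ‖mn W 0 1‖ ≤ MM W := le_add_of_nonneg_left (Real.sqrt_nonneg _)
    have h5 := norm_fst_le x
    have h6 := norm_nonneg x.1
    have h7 : 8 * δ * (‖x.1‖ + MM W) ≤ 4 * (‖x.1‖ + MM W) :=
      mul_le_mul_of_nonneg_right (by linarith) (by positivity)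
    have h8 : 0 ≤ MM W * ‖x‖ := by positivity
    nlinarith
  · rw [DAlg.u, dalg_t_inr]
    change |(0 : ℝ)| ≤ _
    rw [abs_zero]
    positivity

lemma FI1_Lin.u (h : Pot 0 δ W) (hδ : 0 ≤ δ) (hδ' : δ ≤ 1 / 2) (a : Fin d ⊕ Fin d) :
    FI1_Lin R ((dalg h).u a) :=
  ⟨4 + 5 * MM W, by have := FI1_MM_nonneg W; positivity, fun r _ x => FI1_abs_u_le h hδ hδ' a r x⟩

lemma FI1_Bd.T (h : Pot 0 δ W) (hδ : 0 ≤ δ) {σ : Type} [Finite σ] [Nontrivial σ]
    (i : σ → Fin d ⊕ Fin d) : FI1_Bd R ((dalg h).T (ms i)) := by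
  obtain ⟨c, hc, H⟩ := flat_dalg
  have hc' := hc (Nat.card σ)
  refine ⟨c (Nat.card σ) * δ * Real.cosh R ^ (2 * Nat.card σ), by positivity, fun r hr x => ?_⟩
  refine ((H d δ W h hδ (r, x.1, x.2, 0) σ).abs_le i).trans ?_
  rw [abs_of_nonneg (by positivity)]
  have : Real.cosh r ≤ Real.cosh R := Real.cosh_le_cosh.2 (hr.trans (le_abs_self R))
  have h0 := Real.cosh_pos r
  change c (Nat.card σ) * δ * Real.cosh r ^ (2 * Nat.card σ) ≤ _
  gcongr

lemma FI1_Bd.H (h : Pot 0 δ W) (hδ : 0 ≤ δ) (a b : Fin d ⊕ Fin d) :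
    FI1_Bd R ((dalg h).H a b) := by
  have := FI1_Bd.T (R := R) h hδ (σ := Option Unit) (fun o => o.elim a fun _ => b)
  rwa [ms_option, ms_unique, DAlg.T_two] at this

lemma FI1_Bd.pH (h : Pot 0 δ W) (hδ : 0 ≤ δ) (a b c : Fin d ⊕ Fin d) :
    FI1_Bd R ((dalg h).p a ((dalg h).H b c)) := by
  have := FI1_Bd.T (R := R) h hδ (σ := Option (Option Unit))
    (fun o => o.elim a fun o' => o'.elim b fun _ => c)
  rw [ms_option, ms_option, ms_unique] at this
  rw [← DAlg.T_two, DAlg.p_T]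
  exact FI1_Bd.rho.mul this

lemma FI1_Bd.chi (h : Pot 0 δ W) : FI1_Bd R (dalg h).χ := by
  have : (dalg h).χ = algebraMap ℝ (Sm (Sp d)) 1 + (-1 : ℝ) • (rhoS d * rhoS d) := by
    simp only [DAlg.χ, map_one, neg_smul, one_smul]
    ring
  rw [this]
  exact (FI1_Bd.const 1).add ((FI1_Bd.rho.mul FI1_Bd.rho).smul _)

lemma FI1_Lin.vec (h : Pot 0 δ W) (hδ : 0 ≤ δ) (hδ' : δ ≤ 1 / 2) (μ l κ : ℝ)
    (b : Fin d ⊕ Fin d) : FI1_Lin R ((dalg h).vec μ l κ b) := by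
  have hJ : ∀ a, FI1_Bd R ((dalg h).J l κ a b) := fun a =>
    (FI1_Bd.const _).add (((FI1_Bd.chi h).mul ((FI1_Bd.sum _ fun c => (FI1_Bd.H h hδ a c).smul _).add
      (FI1_Bd.sum _ fun c => (FI1_Bd.H h hδ c b).smul _))).smul κ)
  have hpJ : ∀ a, FI1_Bd R ((dalg h).p a ((dalg h).J l κ a b)) := fun a => by
    rw [DAlg.J, map_add, Derivation.map_algebraMap, zero_add, Derivation.map_smul, DAlg.p_χ_mul,
      map_add, map_sum, map_sum]
    simp only [Derivation.map_smul]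
    exact ((FI1_Bd.chi h).mul ((FI1_Bd.sum _ fun c => (FI1_Bd.pH h hδ a a c).smul _).add
      (FI1_Bd.sum _ fun c => (FI1_Bd.pH h hδ a c b).smul _))).smul κ
  have hS : ∀ a, FI1_Lin R ((dalg h).Sc a) := fun a => by
    rw [DAlg.Sc, mul_comm]
    exact (FI1_Lin.x a).add ((FI1_Lin.u h hδ hδ' a).mul FI1_Bd.rho)
  rw [DAlg.vec, mul_comm]
  exact (FI1_Lin.sum _ fun a => ((hS a).mul (hJ a)).sub (hpJ a).lin).sub
    (((FI1_Lin.u h hδ hδ' b).mul (FI1_Bd.chi h)).smul μ)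

end Growth

/-- The vector fields have linear growth (with a constant depending on everything). -/
theorem vec_growth (h : Pot 0 δ W) (hδ : 0 ≤ δ) (hδ' : δ ≤ 1 / 2) (μ l κ R : ℝ) :
    ∃ C : ℝ, ∀ r, |r| ≤ R → ∀ (x : E d × E d) (b : Fin d ⊕ Fin d),
      |((dalg h).vec μ l κ b : Sp d → ℝ) (r, x.1, x.2, 0)| ≤ C * (1 + ‖x‖) := by
  choose C hC H using fun b => FI1_Lin.vec (R := R) h hδ hδ' μ l κ b
  refine ⟨∑ b, C b, fun r hr x b => (H b r hr x).trans ?_⟩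
  exact mul_le_mul_of_nonneg_right
    (Finset.single_le_sum (fun b _ => hC b) (Finset.mem_univ b)) (by positivity)

/-- The slice at parameter `r`. -/
def FI1_emb (r : ℝ) (x : E d × E d) : Sp d := (r, x.1, x.2, 0)

lemma FI1_contDiff_emb (r : ℝ) : ContDiff ℝ ∞ (FI1_emb (d := d) r) := by
  unfold FI1_emb
  fun_prop

lemma FI1_fderiv_emb (r : ℝ) (x v : E d × E d) :
    fderiv ℝ (FI1_emb r) x v = (0, v.1, v.2, 0) := by
  have h1 : HasFDerivAt (fun x : E d × E d => x.1) _ x := hasFDerivAt_fst (𝕜 := ℝ)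
  have h2 : HasFDerivAt (fun x : E d × E d => x.2) _ x := hasFDerivAt_snd (𝕜 := ℝ)
  have h3 : HasFDerivAt (FI1_emb r) _ x := (hasFDerivAt_const r x).prodMk
    (h1.prodMk (h2.prodMk (hasFDerivAt_const (0 : E d) x)))
  rw [h3.fderiv]
  simp

lemma FI1_diff_slice (F : Sm (Sp d)) (r : ℝ) :
    Differentiable ℝ fun x : E d × E d => (F : Sp d → ℝ) (FI1_emb r x) :=
  (Sm.diff F).comp ((FI1_contDiff_emb r).differentiable (by simp))

lemma FI1_fderiv_slice (F : Sm (Sp d)) (r : ℝ) (x v : E d × E d) :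
    fderiv ℝ (fun x : E d × E d => (F : Sp d → ℝ) (FI1_emb r x)) x v =
      (pd (0, v.1, v.2, 0) F : Sp d → ℝ) (FI1_emb r x) := by
  rw [pd_apply, ← FI1_fderiv_emb r x v]
  have : (fun x : E d × E d => (F : Sp d → ℝ) (FI1_emb r x)) = (F : Sp d → ℝ) ∘ FI1_emb r := rfl
  rw [this, fderiv_comp x (Sm.diff F _) ((FI1_contDiff_emb r).differentiable (by simp) x)]
  rfl

/-- The subalgebra of functions of polynomial growth on a slice. -/
def FI1_PG (d : ℕ) (r : ℝ) : Subalgebra ℝ (Sm (Sp d)) where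
  carrier := {F | PGrowth fun x : E d × E d => (F : Sp d → ℝ) (FI1_emb r x)}
  mul_mem' hF hK := pg_mul hF hK
  add_mem' hF hK := pg_add hF hK
  algebraMap_mem' c := pg_const c

lemma FI1_integrable (h : Pot 0 δ W) {r : ℝ} {F : Sm (Sp d)} (hF : F ∈ FI1_PG d r) :
    Integrable (fun x : E d × E d => (F : Sp d → ℝ) (FI1_emb r x)) (pp W r) :=
  integrable_pp h r (FI1_diff_slice F r).continuous hF

lemma FI1_exists_Ex (h : Pot 0 δ W) (r : ℝ) : ∃ Ex : Sm (Sp d) →ₗ[ℝ] ℝ,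
    ∀ F ∈ FI1_PG d r, Ex F = ∫ x, (F : Sp d → ℝ) (FI1_emb r x) ∂(pp W r) := by
  let f : Subalgebra.toSubmodule (FI1_PG d r) →ₗ[ℝ] ℝ :=
    { toFun := fun F => ∫ x, ((F : Sm (Sp d)) : Sp d → ℝ) (FI1_emb r x) ∂(pp W r)
      map_add' := fun F K => integral_add (FI1_integrable h F.2) (FI1_integrable h K.2)
      map_smul' := fun c F => integral_smul c _ }
  obtain ⟨g, hg⟩ := f.exists_extend
  exact ⟨g, fun F hF => LinearMap.congr_fun hg ⟨F, hF⟩⟩

lemma FI1_x_mem (r : ℝ) (a : Fin d ⊕ Fin d) : xS d a ∈ FI1_PG d r :=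
  ⟨1, 1, fun x => (FI1_abs_xv_le a r x).trans (by simp)⟩

lemma FI1_u_mem (h : Pot 0 δ W) (hδ : 0 ≤ δ) (hδ' : δ ≤ 1 / 2) (r : ℝ) (a : Fin d ⊕ Fin d) :
    (dalg h).u a ∈ FI1_PG d r :=
  ⟨4 + 5 * MM W, 1, fun x => (FI1_abs_u_le h hδ hδ' a r x).trans (by simp)⟩

lemma FI1_rho_mem (r : ℝ) : rhoS d ∈ FI1_PG d r :=
  ⟨1, 0, fun _ => (Poincare_abs_tanh r).trans (by simp)⟩

lemma FI1_p_psi (D : DAlg) (b : D.I) :
    D.p b (-((2 : ℝ)⁻¹ • ∑ a, D.x a ^ 2) - D.φ) = -D.Sc b := by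
  have : D.p b (∑ a, D.x a ^ 2) = (2 : ℝ) • D.x b := by
    simp [map_sum, D.p_x, two_smul]
  rw [map_sub, map_neg, Derivation.map_smul, this, smul_smul, D.p_φ, DAlg.Sc, DAlg.u]
  norm_num; ring

lemma FI1_ibp (h : Pot 0 δ W) (hδ : 0 ≤ δ) (hδ' : δ ≤ 1 / 2) (r : ℝ) (a : Fin d ⊕ Fin d)
    (F : Sm (Sp d)) (hF : F ∈ FI1_PG d r) (hF' : (dalg h).p a F ∈ FI1_PG d r) :
    ∫ x, ((dalg h).dl a F : Sp d → ℝ) (FI1_emb r x) ∂(pp W r) = 0 := by
  set ψ : Sm (Sp d) := -((2 : ℝ)⁻¹ • ∑ a, (dalg h).x a ^ 2) - (dalg h).φ with hψ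
  have hψe : (fun x : E d × E d => -‖x.1‖ ^ 2 / 2 - ‖x.2‖ ^ 2 / 2 - lZ W (r, Real.tanh r • x.1)) =
      fun x => (ψ : Sp d → ℝ) (FI1_emb r x) := by
    ext x
    have e1 : (((∑ a, xS d a ^ 2 : Sm (Sp d))) : Sp d → ℝ) (FI1_emb r x) =
        ‖x.1‖ ^ 2 + ‖x.2‖ ^ 2 := by
      simp only [Fintype.sum_sum_type, Subalgebra.coe_add, AddSubmonoidClass.coe_finsetSum,
        Subalgebra.coe_pow, Pi.add_apply, Finset.sum_apply, Pi.pow_apply,
        EuclideanSpace.real_norm_sq_eq]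
      rfl
    change _ = -((2 : ℝ)⁻¹ * (((∑ a, xS d a ^ 2 : Sm (Sp d))) : Sp d → ℝ) (FI1_emb r x)) -
      lZ W (r, Real.tanh r • x.1 + 0)
    rw [e1, add_zero]
    ring
  have hpp : pp W r = ((volume : Measure (E d)).prod (volume : Measure (E d))).tilted
      fun x => (ψ : Sp d → ℝ) (FI1_emb r x) := by rw [pp_eq_tilted h r, hψe]
  have hw : Integrable (fun x : E d × E d => Real.exp ((ψ : Sp d → ℝ) (FI1_emb r x)))
      ((volume : Measure (E d)).prod (volume : Measure (E d))) := by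
    by_contra hn
    have h1 := isProb_pz h r
    have h2 : IsProbabilityMeasure (pp W r) := by unfold pp; infer_instance
    have h3 := h2.measure_univ
    rw [hpp, tilted_of_not_integrable hn] at h3
    simp at h3
  have hI : ∀ G ∈ FI1_PG d r, Integrable (fun x : E d × E d => (G : Sp d → ℝ) (FI1_emb r x) *
      Real.exp ((ψ : Sp d → ℝ) (FI1_emb r x)))
      ((volume : Measure (E d)).prod (volume : Measure (E d))) := fun G hG => by
    have := FI1_integrable h hG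
    rw [hpp, integrable_tilted_iff hw] at this
    simpa only [smul_eq_mul, mul_comm] using this
  obtain ⟨v, hv⟩ : ∃ v : E d × E d, pv d a = (0, v.1, v.2, 0) := by
    rcases a with a | a
    · exact ⟨(EuclideanSpace.single a 1, 0), rfl⟩
    · exact ⟨(0, EuclideanSpace.single a 1), rfl⟩
  have hS : (dalg h).Sc a ∈ FI1_PG d r :=
    add_mem (FI1_x_mem r a) (mul_mem (FI1_rho_mem r) (FI1_u_mem h hδ hδ' r a))
  have hd1 : ∀ x, fderiv ℝ (fun x : E d × E d => (F : Sp d → ℝ) (FI1_emb r x)) x v =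
      ((dalg h).p a F : Sp d → ℝ) (FI1_emb r x) := fun x => by
    rw [FI1_fderiv_slice, ← hv]
  have hd2 : ∀ x, fderiv ℝ (fun x : E d × E d => Real.exp ((ψ : Sp d → ℝ) (FI1_emb r x))) x v =
      -(((dalg h).Sc a : Sp d → ℝ) (FI1_emb r x) * Real.exp ((ψ : Sp d → ℝ) (FI1_emb r x))) :=
    fun x => by
    rw [fderiv_exp (FI1_diff_slice ψ r x)]
    have e : (pd (pv d a) ψ : Sm (Sp d)) = -(dalg h).Sc a := FI1_p_psi (dalg h) a
    rw [smul_apply, FI1_fderiv_slice, ← hv, e]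
    simp [mul_comm]
  have i1 := hI _ hF'
  have i2 := hI _ (mul_mem hS hF)
  have key := integral_mul_fderiv_eq_neg_fderiv_mul_of_integrable
    (μ := (volume : Measure (E d)).prod (volume : Measure (E d)))
    (f := fun x : E d × E d => (F : Sp d → ℝ) (FI1_emb r x))
    (g := fun x : E d × E d => Real.exp ((ψ : Sp d → ℝ) (FI1_emb r x))) (v := v)
    (by simpa only [hd1] using i1)
    (by
      simp only [hd2]
      refine i2.neg.congr (Filter.Eventually.of_forall fun x => ?_)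
      simp only [Pi.neg_apply, Subalgebra.coe_mul, Pi.mul_apply]
      ring)
    (hI _ hF) (fun x _ => FI1_diff_slice F r x) (fun x _ => (FI1_diff_slice ψ r x).exp)
  simp only [hd1, hd2] at key
  rw [hpp, integral_tilted]
  have e : ∀ x : E d × E d, (Real.exp ((ψ : Sp d → ℝ) (FI1_emb r x)) /
      ∫ x, Real.exp ((ψ : Sp d → ℝ) (FI1_emb r x))
        ∂((volume : Measure (E d)).prod (volume : Measure (E d)))) •
      ((dalg h).dl a F : Sp d → ℝ) (FI1_emb r x) =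
      (∫ x, Real.exp ((ψ : Sp d → ℝ) (FI1_emb r x))
        ∂((volume : Measure (E d)).prod (volume : Measure (E d))))⁻¹ *
      ((((dalg h).Sc a * F : Sm (Sp d)) : Sp d → ℝ) (FI1_emb r x) *
          Real.exp ((ψ : Sp d → ℝ) (FI1_emb r x)) -
        ((dalg h).p a F : Sp d → ℝ) (FI1_emb r x) * Real.exp ((ψ : Sp d → ℝ) (FI1_emb r x))) :=
    fun x => by
    simp only [DAlg.dl, smul_eq_mul, Subalgebra.coe_sub, Pi.sub_apply]
    ring
  simp only [e]
  rw [integral_const_mul, integral_sub i2 i1]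
  have e2 : ∫ x, (((dalg h).Sc a * F : Sm (Sp d)) : Sp d → ℝ) (FI1_emb r x) *
      Real.exp ((ψ : Sp d → ℝ) (FI1_emb r x))
        ∂((volume : Measure (E d)).prod (volume : Measure (E d))) =
      -∫ x, (F : Sp d → ℝ) (FI1_emb r x) * -(((dalg h).Sc a : Sp d → ℝ) (FI1_emb r x) *
        Real.exp ((ψ : Sp d → ℝ) (FI1_emb r x)))
        ∂((volume : Measure (E d)).prod (volume : Measure (E d))) := by
    rw [← integral_neg]
    refine integral_congr_ae (Filter.Eventually.of_forall fun x => ?_)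
    simp only [Subalgebra.coe_mul, Pi.mul_apply]
    ring
  rw [e2, key]
  simp

lemma FI1_norm_mn_sq_le (h : Pot 0 δ W) (b : E d) {t : ℝ} (ht : 0 < t) :
    ENNReal.ofReal (‖mn W b t‖ ^ 2) ≤ ∫⁻ x, ENNReal.ofReal (‖gradient W x‖ ^ 2) ∂(nu W b t) := by
  have hM : MP fun x => ‖gradient W x‖ :=
    ⟨h.contDiff_gradient.continuous.norm.measurable, pg_norm (h.pgrowth_gradient le_rfl)⟩
  rw [← ofReal_integral_eq_lintegral_ofReal ((hM.pow 2).int h b ht)
    (Filter.Eventually.of_forall fun x => by positivity)]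
  refine ENNReal.ofReal_le_ofReal ?_
  have h1 : ‖mn W b t‖ ≤ ∫ x, ‖gradient W x‖ ∂(nu W b t) := norm_integral_le_integral_norm _
  have h2 := var_eq h b ht hM
  have h3 : 0 ≤ ∫ x, (‖gradient W x‖ - ∫ y, ‖gradient W y‖ ∂(nu W b t)) ^ 2 ∂(nu W b t) :=
    integral_nonneg fun x => by positivity
  have h4 := pow_le_pow_left₀ (norm_nonneg _) h1 2
  linarith

lemma FI1_Ex_u (h : Pot 0 δ W) (hδ : 0 ≤ δ) (hδ' : δ ≤ 1 / 2) (r : ℝ) :
    ∫ x, ((∑ a, (dalg h).u a ^ 2 : Sm (Sp d)) : Sp d → ℝ) (FI1_emb r x) ∂(pp W r) ≤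
      (2 * MM W) ^ 2 := by
  have hm : (∑ a, (dalg h).u a ^ 2 : Sm (Sp d)) ∈ FI1_PG d r :=
    sum_mem fun a _ => pow_mem (FI1_u_mem h hδ hδ' r a) 2
  have hi := FI1_integrable h hm
  have e : ∀ x : E d × E d, ((∑ a, (dalg h).u a ^ 2 : Sm (Sp d)) : Sp d → ℝ) (FI1_emb r x) =
      ‖uu W r x.1‖ ^ 2 := fun x => by
    have h0 : ∀ i, (dalg h).u (.inr i) = 0 := fun i => dalg_t_inr h i _
    simp only [Fintype.sum_sum_type, h0, ne_eq, OfNat.ofNat_ne_zero, not_false_eq_true, zero_pow,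
      Finset.sum_const_zero, add_zero, AddSubmonoidClass.coe_finsetSum, Subalgebra.coe_pow,
      Finset.sum_apply, Pi.pow_apply, EuclideanSpace.real_norm_sq_eq]
    exact Finset.sum_congr rfl fun i _ => by rw [← dalg_u_inl h i r x.1 x.2]; rfl
  simp only [e] at hi ⊢
  have hc : Continuous (uu W r) := cont_lip (uu_lip h hδ r)
  have hp := isProb_pz h r
  have hM : MP fun x => ‖gradient W x‖ :=
    ⟨h.contDiff_gradient.continuous.norm.measurable, pg_norm (h.pgrowth_gradient le_rfl)⟩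
  rw [← ENNReal.ofReal_le_ofReal_iff (by positivity), ofReal_integral_eq_lintegral_ofReal hi
    (Filter.Eventually.of_forall fun x => by positivity), pp,
    lintegral_prod _ (by fun_prop)]
  simp only [lintegral_const, measure_univ, mul_one]
  calc ∫⁻ z, ENNReal.ofReal (‖uu W r z‖ ^ 2) ∂(pz W r)
      ≤ ∫⁻ z, ∫⁻ x, ENNReal.ofReal (‖gradient W x‖ ^ 2)
          ∂(nu W (Real.tanh r • z) (1 - Real.tanh r ^ 2)) ∂(pz W r) :=
        lintegral_mono fun z => FI1_norm_mn_sq_le h _ (Poincare_tanh_pos r)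
    _ = ∫⁻ x, ENNReal.ofReal (‖gradient W x‖ ^ 2) ∂(nu W 0 1) :=
        lintegral_nu_disint h r (hM.pow 2).1.ennreal_ofReal
    _ = ENNReal.ofReal (∫ x, ‖gradient W x‖ ^ 2 ∂(nu W 0 1)) :=
        (ofReal_integral_eq_lintegral_ofReal ((hM.pow 2).int h 0 one_pos)
          (Filter.Eventually.of_forall fun x => by positivity)).symm
    _ ≤ _ := by
        refine ENNReal.ofReal_le_ofReal ((integral_norm_grad_sq_le h le_rfl hδ 0 one_pos).trans ?_)
        have h1 : (√(d : ℝ)) ^ 2 = d := Real.sq_sqrt (Nat.cast_nonneg d)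
        have h2 := Real.sqrt_nonneg (d : ℝ)
        have h3 := norm_nonneg (mn W 0 1)
        have h4 : δ ^ 2 ≤ 1 := by nlinarith
        have h5 : δ ^ 2 * 1 * d ≤ d := by
          have : (0 : ℝ) ≤ d := Nat.cast_nonneg d
          nlinarith
        unfold MM
        nlinarith [mul_nonneg h2 h3]

theorem exists_setup : ∃ c : ℕ → ℝ, (∀ n, 0 ≤ c n) ∧
    ∀ (d : ℕ) (δ : ℝ) (W : E d → ℝ) (h : Pot 0 δ W), 0 < δ → δ ≤ 1 / 2 → ∀ r : ℝ,
      ∃ S : Setup c (dalg h), S.Λ = Real.cosh r ∧ S.δ = δ ∧ S.M = 2 * MM W ∧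
        ∀ F ∈ S.PG, Integrable (fun x : E d × E d => (F : Sp d → ℝ) (r, x.1, x.2, 0)) (pp W r) ∧
          S.Ex F = ∫ x, (F : Sp d → ℝ) (r, x.1, x.2, 0) ∂(pp W r) := by
  obtain ⟨c, hc, H⟩ := flat_dalg
  refine ⟨c, hc, fun d δ W h hδ hδ' r => ?_⟩
  obtain ⟨Ex, hEx⟩ := FI1_exists_Ex h r
  have hp := isProb_pz h r
  have hpp : IsProbabilityMeasure (pp W r) := by unfold pp; infer_instance
  refine ⟨{ Pt := E d × E d
            ev := fun x => (Pi.evalAlgHom ℝ (fun _ : Sp d => ℝ) (FI1_emb r x)).comp (Sm (Sp d)).val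
            PG := FI1_PG d r
            Ex := Ex
            Ex_nonneg := fun F hF h0 => by
              rw [hEx F hF]
              exact integral_nonneg h0
            Ex_one := by
              rw [hEx 1 (one_mem _)]
              simp
            ibp := fun a F hF hF' => by
              have hS : (dalg h).Sc a ∈ FI1_PG d r :=
                add_mem (FI1_x_mem r a) (mul_mem (FI1_rho_mem r) (FI1_u_mem h hδ.le hδ' r a))
              rw [hEx ((dalg h).dl a F) (sub_mem (mul_mem hS hF) hF')]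
              exact FI1_ibp h hδ.le hδ' r a F hF hF'
            x_mem := FI1_x_mem r
            u_mem := FI1_u_mem h hδ.le hδ' r
            bdd_mem := fun F B hB => ⟨B, 0, fun x => (hB x).trans (by simp)⟩
            Λ := Real.cosh r
            δ := δ
            M := 2 * MM W
            one_le_Λ := Real.one_le_cosh r
            δ_pos := hδ
            δ_le := by linarith
            card_le := by
              have h1 : (√(d : ℝ)) ^ 2 = d := Real.sq_sqrt (Nat.cast_nonneg d)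
              have h2 := Real.sqrt_nonneg (d : ℝ)
              have h3 := norm_nonneg (mn W 0 1)
              have h4 : (0 : ℝ) ≤ d := Nat.cast_nonneg d
              simp only [Fintype.card_sum, Fintype.card_fin, Nat.cast_add, MM]
              nlinarith [mul_nonneg h2 h3]
            Ex_u := by
              rw [hEx _ (sum_mem fun a _ => pow_mem (FI1_u_mem h hδ.le hδ' r a) 2)]
              exact FI1_Ex_u h hδ.le hδ' r
            ρ_le := fun _ => Poincare_abs_tanh r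
            flat := fun x σ _ => H d δ W h hδ.le (FI1_emb r x) σ }, rfl, rfl, rfl, ?_⟩
  exact fun F hF => ⟨FI1_integrable h hF, hEx F hF⟩

end Crest.Agent.R285
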