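import Crest.Agent.R285.DA1

/-! Row 285: explicit form of the vector fields for a symplectic splitting of the indices. -/

set_option autoImplicit false

namespace Crest.Agent.R285

namespace DAlg

variable {S : DAlg}

lemma fi2_G_smul (μ l κ c : ℝ) (F : S.A) : S.G μ l κ (c • F) = c • S.G μ l κ F := by
  simp only [G, Derivation.map_smul, mul_smul_comm, ← Finset.smul_sum, smul_add, smul_comm μ c]

lemma fi2_iter_smul (μ l κ c : ℝ) (j : ℕ) (F : S.A) :
    (S.G μ l κ)^[j] (c • F) = c • (S.G μ l κ)^[j] F := by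
  induction j with
  | zero => rfl
  | succ j ih => rw [Function.iterate_succ_apply', Function.iterate_succ_apply', ih, fi2_G_smul]

lemma fi2_G_kappa (κ : ℝ) (F : S.A) : S.G 0 0 κ F = κ • S.G 0 0 1 F := by
  simp only [G, vec, J, zero_mul, map_zero, zero_add, zero_smul, sub_zero, one_smul, dl_smul,
    ← Finset.smul_sum, smul_mul_assoc]

/-- A symplectic splitting of the index set, the second half carrying no tilt derivative. -/
structure Split (S : DAlg) {ι : Type} [Fintype ι] [DecidableEq ι] (a b : ι → S.I) : Prop where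
  sum : ∀ f : S.I → S.A, ∑ c, f c = ∑ i, f (a i) + ∑ i, f (b i)
  aa : ∀ i j, S.Jc (a i) (a j) = 0
  bb : ∀ i j, S.Jc (b i) (b j) = 0
  ab : ∀ i j, S.Jc (a i) (b j) = if i = j then 1 else 0
  ba : ∀ i j, S.Jc (b i) (a j) = if i = j then -1 else 0
  t_b : ∀ i F, S.t (b i) F = 0

namespace Split

variable {ι : Type} [Fintype ι] [DecidableEq ι] {a b : ι → S.I} (h : S.Split a b)
include h

lemma u_b (i : ι) : S.u (b i) = 0 := h.t_b _ _

lemma H_b (i : ι) (c : S.I) : S.H (b i) c = 0 := h.t_b _ _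

lemma H_b' (i : ι) (c : S.I) : S.H c (b i) = 0 := by rw [H_symm, h.H_b]

lemma p_b_H (i : ι) (c c' : S.I) : S.p (b i) (S.H c c') = 0 := by
  rw [← T_two, p_T, T_cons, h.t_b, mul_zero]

lemma J_aa (l κ : ℝ) (i j : ι) : S.J l κ (a i) (a j) = 0 := by
  simp [J, h.sum, h.aa, h.H_b, h.H_b']

lemma J_bb (l κ : ℝ) (i j : ι) : S.J l κ (b i) (b j) = 0 := by
  simp [J, h.sum, h.bb, h.H_b, h.H_b']

lemma J_ab (l κ : ℝ) (i j : ι) : S.J l κ (a i) (b j) =
    (if i = j then l • (1 : S.A) else 0) + κ • (S.χ * S.H (a i) (a j)) := by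
  by_cases e : i = j <;>
    simp [J, h.sum, h.ab, h.bb, h.H_b', e, Algebra.algebraMap_eq_smul_one]

lemma J_ba (l κ : ℝ) (i j : ι) : S.J l κ (b i) (a j) =
    -((if i = j then l • (1 : S.A) else 0) + κ • (S.χ * S.H (a i) (a j))) := by
  rw [J_anti, h.J_ab, H_symm]
  simp only [eq_comm]

lemma vec_a (μ l κ : ℝ) (j : ι) : S.vec μ l κ (a j) =
    -(μ • (S.χ * S.u (a j))) - l • S.x (b j) - κ • (S.χ * ∑ i, S.H (a j) (a i) * S.x (b i)) := by
  have e : ∀ i, S.dl (b i) (S.J l κ (b i) (a j)) =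
      -((if i = j then l • S.x (b i) else 0) + κ • (S.χ * (S.H (a j) (a i) * S.x (b i)))) := by
    intro i
    rw [h.J_ba, dl, Sc, h.u_b, H_symm (a i)]
    by_cases e : i = j
    · simp only [e, if_true, map_neg, map_add, Derivation.map_smul, p_χ_mul, h.p_b_H,
        Derivation.map_one_eq_zero, mul_neg, mul_add, mul_smul_comm]
      simp only [mul_zero, smul_zero, add_zero, neg_zero, sub_zero, mul_one]
      congr 3
      ring
    · simp only [e, if_false, map_neg, zero_add, Derivation.map_smul, p_χ_mul, h.p_b_H,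
        mul_neg, mul_smul_comm]
      simp only [mul_zero, smul_zero, add_zero, neg_zero, sub_zero]
      congr 2
      ring
  rw [vec, h.sum]
  simp only [h.J_aa, dl_zero, e, Finset.sum_const_zero, zero_add, Finset.sum_neg_distrib,
    Finset.sum_add_distrib, Finset.sum_ite_eq', Finset.mem_univ, if_true, ← Finset.smul_sum,
    ← Finset.mul_sum]
  abel

lemma vec_b (μ l κ : ℝ) (j : ι) : S.vec μ l κ (b j) =
    l • (S.x (a j) + S.ρ * S.u (a j)) + κ • S.DD (S.u (a j)) := by
  have e : ∀ i, S.dl (a i) (S.J l κ (a i) (b j)) =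
      (if i = j then l • S.Sc (a i) else 0) + κ • S.dl (a i) (S.χ * S.H (a i) (a j)) := by
    intro i
    rw [h.J_ab, dl_add, dl_smul]
    by_cases e : i = j
    · simp [e, dl]
    · simp [e, dl_zero]
  rw [vec, h.sum, DD_u, h.sum]
  simp only [h.J_bb, dl_zero, e, Finset.sum_const_zero, add_zero, Finset.sum_add_distrib,
    Finset.sum_ite_eq', Finset.mem_univ, if_true, ← Finset.smul_sum, h.u_b, h.H_b, mul_zero,
    smul_zero, sub_zero, Sc]

lemma G_u (μ l κ : ℝ) (j : ι) : S.G μ l κ (S.u (a j)) =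
    μ • S.DD (S.u (a j)) - l • (S.ρ * ∑ i, S.H (a j) (a i) * S.x (b i)) +
      κ • S.G 0 0 1 (S.u (a j)) := by
  simp only [G, DD, h.sum, p_u, h.H_b, mul_zero, Finset.sum_const_zero, add_zero, h.vec_a,
    zero_smul, neg_zero, sub_zero, zero_sub, one_smul, zero_add, smul_sub, Finset.mul_sum,
    Finset.smul_sum]
  rw [sub_sub, sub_add, sub_eq_add_neg (μ • _), ← Finset.sum_add_distrib,
    ← Finset.sum_sub_distrib, ← Finset.sum_neg_distrib]
  congr 1
  refine Finset.sum_congr rfl fun i _ => ?_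
  rw [H_symm (a j) (a i)]
  rw [← Finset.smul_sum]
  simp only [Algebra.smul_def]
  ring

end Split

end DAlg

end Crest.Agent.R285
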