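import Crest.Agent.R285.FI1
import Crest.Agent.R285.FI2Aux
import Crest.Agent.R285.Flow

/-! Row 285: evaluation of the differential algebra along flows. -/

set_option autoImplicit false

open MeasureTheory ProbabilityTheory Crest.OracleSampling
open scoped ENNReal NNReal RealInnerProductSpace ContDiff

namespace Crest.Agent.R285

variable {d : ℕ} {δ : ℝ} {W : E d → ℝ}

/-- Evaluation at a point. -/
noncomputable def fi2ev (q : Sp d) : Sm (Sp d) →ₐ[ℝ] ℝ := (Pi.evalAlgHom ℝ (fun _ => ℝ) q).comp (Sm (Sp d)).val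

lemma fi2ev_apply (q : Sp d) (F : Sm (Sp d)) : fi2ev q F = (F : Sp d → ℝ) q := rfl

/-- A family of smooth functions as a vector field. -/
def vecE (F : Fin d → Sm (Sp d)) (r : ℝ) (x : E d × E d) : E d :=
  WithLp.toLp 2 fun i => (F i : Sp d → ℝ) (r, x.1, x.2, 0)

@[simp] lemma vecE_apply (F : Fin d → Sm (Sp d)) (r : ℝ) (x : E d × E d) (i : Fin d) :
    vecE F r x i = fi2ev (r, x.1, x.2, 0) (F i) := rfl

/-- A family of smooth functions as a pair of vector fields. -/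
def pairE (F : Fin d ⊕ Fin d → Sm (Sp d)) (r : ℝ) (x : E d × E d) : E d × E d :=
  (vecE (fun i => F (.inl i)) r x, vecE (fun i => F (.inr i)) r x)

lemma fi2_split (h : Pot 0 δ W) : (dalg h).Split (Sum.inl : Fin d → _) Sum.inr where
  sum f := Fintype.sum_sum_type f
  aa _ _ := rfl
  bb _ _ := rfl
  ab _ _ := rfl
  ba _ _ := rfl
  t_b := dalg_t_inr h

lemma contDiff_vecE (F : Fin d → Sm (Sp d)) :
    ContDiff ℝ ∞ fun q : ℝ × E d × E d => vecE F q.1 q.2 :=
  contDiff_euclidean.2 fun i => (Sm.smooth (F i)).comp (f := fun q : ℝ × E d × E d =>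
    ((q.1, q.2.1, q.2.2, 0) : Sp d)) (by fun_prop)

lemma contDiff_pairE (F : Fin d ⊕ Fin d → Sm (Sp d)) :
    ContDiff ℝ ∞ fun q : ℝ × E d × E d => pairE F q.1 q.2 :=
  (contDiff_vecE _).prodMk (contDiff_vecE _)

lemma continuous_vecE (F : Fin d → Sm (Sp d)) (r : ℝ) : Continuous (vecE F r) :=
  (contDiff_vecE F).continuous.comp (f := fun x => (r, x)) (by fun_prop)

lemma continuous_pairE (F : Fin d ⊕ Fin d → Sm (Sp d)) (r : ℝ) : Continuous (pairE F r) :=
  (continuous_vecE _ r).prodMk (continuous_vecE _ r)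

lemma norm_pairE_sq_le (F : Fin d ⊕ Fin d → Sm (Sp d)) (r : ℝ) (x : E d × E d) :
    ‖pairE F r x‖ ^ 2 ≤ fi2ev (r, x.1, x.2, 0) (∑ b, F b ^ 2) := by
  have h1 : ∀ G : Fin d → Sm (Sp d), ‖vecE G r x‖ ^ 2 = ∑ i, fi2ev (r, x.1, x.2, 0) (G i) ^ 2 :=
    fun G => by simp [EuclideanSpace.norm_sq_eq]
  have h2 : ∀ G : Fin d → Sm (Sp d), 0 ≤ ∑ i, fi2ev (r, x.1, x.2, 0) (G i) ^ 2 :=
    fun G => Finset.sum_nonneg fun _ _ => sq_nonneg _
  simp only [map_add, map_sum, map_pow, Fintype.sum_sum_type]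
  rw [Prod.norm_def]
  rcases le_total ‖(pairE F r x).1‖ ‖(pairE F r x).2‖ with h | h
  · rw [max_eq_right h]
    exact (h1 _).le.trans (le_add_of_nonneg_left (h2 _))
  · rw [max_eq_left h]
    exact (h1 _).le.trans (le_add_of_nonneg_right (h2 _))

lemma fi2_dir (μ : ℝ) (v : E d × E d) : ((μ, v.1, v.2, 0) : Sp d) =
    μ • ((1, 0, 0, 0) : Sp d) + (∑ i, v.1 i • pv d (.inl i) + ∑ i, v.2 i • pv d (.inr i)) := by
  have e : ∀ w : E d, ∑ i, w i • EuclideanSpace.single i (1 : ℝ) = w := fun w => by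
    simpa using (EuclideanSpace.basisFun (Fin d) ℝ).sum_repr w
  refine Prod.ext ?_ (Prod.ext ?_ (Prod.ext ?_ ?_)) <;>
    simp [pv, Prod.fst_sum, Prod.snd_sum, e]

lemma fi2_fderiv_G (h : Pot 0 δ W) (μ l κ r : ℝ) (x : E d × E d) (F : Sm (Sp d)) :
    fderiv ℝ (F : Sp d → ℝ) (r, x.1, x.2, 0)
      (μ, (pairE ((dalg h).vec μ l κ) r x).1, (pairE ((dalg h).vec μ l κ) r x).2, 0) =
      fi2ev (r, x.1, x.2, 0) ((dalg h).G μ l κ F) := by
  rw [fi2_dir μ, DAlg.G, (fi2_split h).sum]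
  simp only [map_add, map_smul, map_sum, map_mul]
  rfl

lemma fi2_chain (h : Pot 0 δ W) {μ l κ r₀ τ : ℝ} {s : Set ℝ} {γ : ℝ → E d × E d}
    (hγ : HasDerivWithinAt γ (pairE ((dalg h).vec μ l κ) (r₀ + μ * τ) (γ τ)) s τ)
    (F : Sm (Sp d)) :
    HasDerivWithinAt (fun t => fi2ev (r₀ + μ * t, (γ t).1, (γ t).2, 0) F)
      (fi2ev (r₀ + μ * τ, (γ τ).1, (γ τ).2, 0) ((dalg h).G μ l κ F)) s τ := by
  rw [← fi2_fderiv_G]
  have h1 : HasDerivWithinAt (fun t => r₀ + μ * t) μ s τ := by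
    simpa using (((hasDerivAt_id τ).const_mul μ).const_add r₀).hasDerivWithinAt
  have h2 : HasDerivWithinAt (fun t => ((r₀ + μ * t, (γ t).1, (γ t).2, 0) : Sp d))
      (μ, (pairE ((dalg h).vec μ l κ) (r₀ + μ * τ) (γ τ)).1,
        (pairE ((dalg h).vec μ l κ) (r₀ + μ * τ) (γ τ)).2, 0) s τ := by
    have h3 : HasDerivWithinAt (fun t => (γ t).1)
        (pairE ((dalg h).vec μ l κ) (r₀ + μ * τ) (γ τ)).1 s τ :=
      (ContinuousLinearMap.fst ℝ (E d) (E d)).hasFDerivAt.comp_hasDerivWithinAt τ hγ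
    have h4 : HasDerivWithinAt (fun t => (γ t).2)
        (pairE ((dalg h).vec μ l κ) (r₀ + μ * τ) (γ τ)).2 s τ :=
      (ContinuousLinearMap.snd ℝ (E d) (E d)).hasFDerivAt.comp_hasDerivWithinAt τ hγ
    have h5 : HasDerivWithinAt (fun _ : ℝ => (0 : E d)) 0 s τ := hasDerivWithinAt_const _ _ _
    exact h1.prodMk (h3.prodMk (h4.prodMk h5))
  exact (Sm.diff F _).hasFDerivAt.comp_hasDerivWithinAt τ h2

lemma fi2_chain_vec (h : Pot 0 δ W) {μ l κ r₀ τ : ℝ} {s : Set ℝ} {γ : ℝ → E d × E d}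
    (hγ : HasDerivWithinAt γ (pairE ((dalg h).vec μ l κ) (r₀ + μ * τ) (γ τ)) s τ)
    (F : Fin d → Sm (Sp d)) :
    HasDerivWithinAt (fun t => vecE F (r₀ + μ * t) (γ t))
      (vecE (fun i => (dalg h).G μ l κ (F i)) (r₀ + μ * τ) (γ τ)) s τ :=
  (PiLp.continuousLinearEquiv 2 ℝ fun _ : Fin d => ℝ).symm.hasFDerivAt.comp_hasDerivWithinAt τ
    (hasDerivWithinAt_pi.2 fun i => fi2_chain h hγ (F i))

lemma fi2_chain_pair (h : Pot 0 δ W) {μ l κ r₀ τ : ℝ} {s : Set ℝ} {γ : ℝ → E d × E d}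
    (hγ : HasDerivWithinAt γ (pairE ((dalg h).vec μ l κ) (r₀ + μ * τ) (γ τ)) s τ)
    (F : Fin d ⊕ Fin d → Sm (Sp d)) :
    HasDerivWithinAt (fun t => pairE F (r₀ + μ * t) (γ t))
      (pairE (fun i => (dalg h).G μ l κ (F i)) (r₀ + μ * τ) (γ τ)) s τ :=
  (fi2_chain_vec h hγ _).prodMk (fi2_chain_vec h hγ _)

/-- The divergence of a pair of vector fields. -/
lemma fi2_trace (F : Fin d ⊕ Fin d → Sm (Sp d)) (r : ℝ) (x : E d × E d) :
    LinearMap.trace ℝ (E d × E d) (fderiv ℝ (pairE F r) x : E d × E d →ₗ[ℝ] E d × E d) =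
      fi2ev (r, x.1, x.2, 0) (∑ b, pd (pv d b) (F b)) := by
  have hd : DifferentiableAt ℝ (pairE F r) x :=
    (((contDiff_pairE F).comp (f := fun x => (r, x)) (by fun_prop)).differentiable (by simp)) x
  have key : ∀ (L : E d × E d →L[ℝ] ℝ) (K : Sm (Sp d)),
      (∀ y, L (pairE F r y) = (K : Sp d → ℝ) (r, y.1, y.2, 0)) → ∀ v : E d × E d,
      L (fderiv ℝ (pairE F r) x v) = fderiv ℝ (K : Sp d → ℝ) (r, x.1, x.2, 0) (0, v.1, v.2, 0) := by
    intro L K hL v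
    have h1 := L.hasFDerivAt.comp x hd.hasFDerivAt
    have h2 : HasFDerivAt (fun y : E d × E d => ((r, y.1, y.2, 0) : Sp d))
        ((0 : E d × E d →L[ℝ] ℝ).prod ((ContinuousLinearMap.fst ℝ _ _).prod
          ((ContinuousLinearMap.snd ℝ _ _).prod 0))) x :=
      (hasFDerivAt_const _ _).prodMk (hasFDerivAt_fst.prodMk (hasFDerivAt_snd.prodMk
        (hasFDerivAt_const _ _)))
    have h3 := (Sm.diff K _).hasFDerivAt.comp x h2
    have h4 : (L : E d × E d → ℝ) ∘ pairE F r =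
        (K : Sp d → ℝ) ∘ fun y : E d × E d => ((r, y.1, y.2, 0) : Sp d) := funext hL
    rw [h4] at h1
    exact congrArg (fun A : E d × E d →L[ℝ] ℝ => A v) (h1.unique h3)
  let B := (EuclideanSpace.basisFun (Fin d) ℝ).toBasis.prod (EuclideanSpace.basisFun (Fin d) ℝ).toBasis
  rw [LinearMap.trace_eq_matrix_trace ℝ B, Matrix.trace, map_sum]
  refine Finset.sum_congr rfl fun b _ => ?_
  rw [Matrix.diag_apply, LinearMap.toMatrix_apply, fi2ev_apply, pd_apply]
  rcases b with i | i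
  · have := key ((EuclideanSpace.proj i).comp (ContinuousLinearMap.fst ℝ _ _)) (F (.inl i))
      (fun _ => rfl) (B (.inl i))
    simpa [B, pv, Module.Basis.prod_apply] using this
  · have := key ((EuclideanSpace.proj i).comp (ContinuousLinearMap.snd ℝ _ _)) (F (.inr i))
      (fun _ => rfl) (B (.inr i))
    simpa [B, pv, Module.Basis.prod_apply] using this

/-- The log-density. -/
noncomputable def logd (h : Pot 0 δ W) : Sm (Sp d) :=
  -((2 : ℝ)⁻¹ • ∑ a, (dalg h).x a ^ 2) - (dalg h).φ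

lemma logd_apply (h : Pot 0 δ W) (r : ℝ) (x : E d × E d) :
    (logd h : Sp d → ℝ) (r, x.1, x.2, 0) =
      -‖x.1‖ ^ 2 / 2 - ‖x.2‖ ^ 2 / 2 - lZ W (r, Real.tanh r • x.1) := by
  rw [← fi2ev_apply, logd, (fi2_split h).sum]
  simp only [map_sub, map_neg, map_smul, map_add, map_sum, map_pow]
  have e1 : ∀ i, fi2ev (r, x.1, x.2, 0) ((dalg h).x (.inl i)) = x.1 i := fun _ => rfl
  have e2 : ∀ i, fi2ev (r, x.1, x.2, 0) ((dalg h).x (.inr i)) = x.2 i := fun _ => rfl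
  have e3 : fi2ev (r, x.1, x.2, 0) (dalg h).φ = lZ W (r, Real.tanh r • x.1 + 0) := rfl
  simp only [e1, e2, e3, add_zero, EuclideanSpace.norm_sq_eq, Real.norm_eq_abs, sq_abs,
    smul_eq_mul]
  ring

lemma fi2_smul_eq {X : Type*} [MeasurableSpace X] {ν : Measure X} {a b : ℝ≥0∞}
    (ha : IsProbabilityMeasure (a • ν)) (hb : IsProbabilityMeasure (b • ν)) : a • ν = b • ν := by
  have h1 : a * ν Set.univ = 1 := ha.measure_univ
  have h2 : b * ν Set.univ = 1 := hb.measure_univ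
  have : a = b := by
    calc a = a * (b * ν Set.univ) := by rw [h2, mul_one]
      _ = b * (a * ν Set.univ) := mul_left_comm _ _ _
      _ = b := by rw [h1, mul_one]
  rw [this]

lemma fi2_tilted {X : Type*} [MeasurableSpace X] (ν : Measure X) (f : X → ℝ) :
    ∃ c : ℝ≥0∞, ν.tilted f = c • ν.withDensity fun x => ENNReal.ofReal (Real.exp (f x)) := by
  refine ⟨ENNReal.ofReal (∫ x, Real.exp (f x) ∂ν)⁻¹, ?_⟩
  rw [← withDensity_smul' _ _ ENNReal.ofReal_ne_top, Measure.tilted]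
  congr 1
  funext x
  rw [Pi.smul_apply, smul_eq_mul, ← ENNReal.ofReal_mul
    (inv_nonneg.2 (integral_nonneg fun _ => (Real.exp_pos _).le)), div_eq_inv_mul]

lemma isProb_pp (h : Pot 0 δ W) (r : ℝ) : IsProbabilityMeasure (pp W r) := by
  have := isProb_pz h r
  unfold pp
  infer_instance

/-- The flows. -/
lemma fi2_flow (h : Pot 0 δ W) (hδ : 0 ≤ δ) (hδ' : δ ≤ 1 / 2) (μ l κ r₀ : ℝ) {T : ℝ}
    (hT : 0 ≤ T) :
    ∃ Ψ : ℝ → E d × E d → E d × E d, Measurable (Function.uncurry Ψ) ∧ (∀ x, Ψ 0 x = x) ∧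
      (∀ x, ∀ τ ∈ Set.Icc 0 T, HasDerivWithinAt (fun s => Ψ s x)
        (pairE ((dalg h).vec μ l κ) (r₀ + μ * τ) (Ψ τ x)) (Set.Icc 0 T) τ) ∧
      ∀ τ ∈ Set.Icc 0 T, (pp W r₀).map (Ψ τ) = pp W (r₀ + μ * τ) := by
  obtain ⟨C, hC⟩ := vec_growth h hδ hδ' μ l κ (|r₀| + |μ| * T)
  have two : (2 : WithTop ℕ∞) ≤ ((⊤ : ℕ∞) : WithTop ℕ∞) :=
    WithTop.coe_le_coe.2 (le_top (a := (2 : ℕ∞)))
  have hA : ContDiff ℝ ∞ fun q : ℝ × E d × E d => ((r₀ + μ * q.1, q.2.1, q.2.2, 0) : Sp d) := by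
    fun_prop
  have key := exists_transport_flow
    ((volume : Measure (E d)).prod (volume : Measure (E d)))
    (fun q => pairE ((dalg h).vec μ l κ) (r₀ + μ * q.1) q.2)
    (fun q => Real.exp ((logd h : Sp d → ℝ) (r₀ + μ * q.1, q.2.1, q.2.2, 0)))
    (((contDiff_pairE _).comp (f := fun q : ℝ × E d × E d => (r₀ + μ * q.1, q.2))
      (by fun_prop)).of_le two)
    (((Sm.smooth (logd h)).comp hA).exp.of_le two) (fun _ => (Real.exp_pos _).le) hT
    (C := √(d + d) * |C|)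
  refine Exists.elim (key (fun τ hτ x => ?_) (fun τ _ x => ?_)) fun Ψ ⟨h1, h2, h3, h4⟩ => ?_
  rotate_left 2
  · refine ⟨Ψ, h1, h2, h3, fun τ hτ => ?_⟩
    have hm : Measurable (Ψ τ) := h1.comp measurable_prodMk_left
    have e := h4 τ hτ
    simp only [logd_apply, mul_zero, add_zero] at e
    obtain ⟨c₀, e₀⟩ := fi2_tilted ((volume : Measure (E d)).prod (volume : Measure (E d)))
      fun x => -‖x.1‖ ^ 2 / 2 - ‖x.2‖ ^ 2 / 2 - lZ W (r₀, Real.tanh r₀ • x.1)
    obtain ⟨c₁, e₁⟩ := fi2_tilted ((volume : Measure (E d)).prod (volume : Measure (E d)))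
      fun x => -‖x.1‖ ^ 2 / 2 - ‖x.2‖ ^ 2 / 2 - lZ W (r₀ + μ * τ, Real.tanh (r₀ + μ * τ) • x.1)
    rw [← pp_eq_tilted h] at e₀ e₁
    have p₀ := isProb_pp h r₀
    have p₁ := isProb_pp h (r₀ + μ * τ)
    have p₂ : IsProbabilityMeasure ((pp W r₀).map (Ψ τ)) :=
      Measure.isProbabilityMeasure_map hm.aemeasurable
    rw [e₀, Measure.map_smul, e] at p₂
    rw [e₁] at p₁
    rw [e₀, e₁, Measure.map_smul, e]
    exact fi2_smul_eq p₂ p₁
  · have hr : |r₀ + μ * τ| ≤ |r₀| + |μ| * T := by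
      refine (abs_add_le _ _).trans ?_
      rw [abs_mul, abs_of_nonneg hτ.1]
      gcongr
      exact hτ.2
    refine (pow_le_pow_iff_left₀ (norm_nonneg _) (by positivity) two_ne_zero).1
      ((norm_pairE_sq_le _ _ _).trans ?_)
    rw [map_sum, mul_assoc, mul_pow, Real.sq_sqrt (by positivity)]
    refine (Finset.sum_le_card_nsmul _ _ ((|C| * (1 + ‖x‖)) ^ 2) fun b _ => ?_).trans (by simp)
    rw [map_pow, ← sq_abs]
    refine pow_le_pow_left₀ (abs_nonneg _) ((hC _ hr x b).trans ?_) 2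
    gcongr
    exact le_abs_self _
  · have hA' : HasFDerivAt (fun q : ℝ × E d × E d => ((r₀ + μ * q.1, q.2.1, q.2.2, 0) : Sp d))
        ((μ • ContinuousLinearMap.fst ℝ ℝ (E d × E d)).prod
          (((ContinuousLinearMap.fst ℝ _ _).comp (ContinuousLinearMap.snd ℝ _ _)).prod
          (((ContinuousLinearMap.snd ℝ _ _).comp (ContinuousLinearMap.snd ℝ _ _)).prod 0)))
        (τ, x) :=
      ((hasFDerivAt_fst.const_mul μ).const_add r₀).prodMk
        ((hasFDerivAt_fst.comp _ hasFDerivAt_snd).prodMk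
          ((hasFDerivAt_snd.comp _ hasFDerivAt_snd).prodMk (hasFDerivAt_const _ _)))
    have hp := ((Sm.diff (logd h) _).hasFDerivAt.comp (τ, x) hA').exp
    have hc := congrArg (fi2ev (r₀ + μ * τ, x.1, x.2, 0)) (DAlg.continuity (S := dalg h) μ l κ)
    rw [map_add, map_zero, ← fi2_fderiv_G] at hc
    have ht := fi2_trace ((dalg h).vec μ l κ) (r₀ + μ * τ) x
    have hp' : fderiv ℝ (fun q : ℝ × E d × E d =>
        Real.exp ((logd h : Sp d → ℝ) (r₀ + μ * q.1, q.2.1, q.2.2, 0))) (τ, x) = _ := hp.fderiv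
    rw [hp']
    simp only [smul_apply, ContinuousLinearMap.comp_apply,
      ContinuousLinearMap.prod_apply, ContinuousLinearMap.coe_fst', ContinuousLinearMap.coe_snd',
      smul_eq_mul, mul_one, zero_apply, Function.comp_apply]
    rw [← mul_add]
    refine mul_eq_zero_of_right _ ?_
    rw [show (fun y => pairE ((dalg h).vec μ l κ) (r₀ + μ * τ) y) =
      pairE ((dalg h).vec μ l κ) (r₀ + μ * τ) from rfl, ht]
    exact hc

lemma fi2_L1_le {X Y : Type*} [MeasurableSpace X] [NormedAddCommGroup Y] (ν : Measure X)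
    [IsProbabilityMeasure ν] {g : X → Y} {s : X → ℝ} (hs : Integrable s ν)
    (hg : ∀ x, ‖g x‖ ^ 2 ≤ s x) {K : ℝ} (hK : 0 ≤ K) (h : ∫ x, s x ∂ν ≤ K ^ 2) :
    ∫⁻ x, ‖g x‖ₑ ∂ν ≤ ENNReal.ofReal K := by
  have hs0 : ∀ x, 0 ≤ s x := fun x => (sq_nonneg _).trans (hg x)
  rcases hK.eq_or_lt with rfl | hK
  · have h0 : ∫ x, s x ∂ν = 0 := le_antisymm (by simpa using h) (integral_nonneg hs0)
    rw [integral_eq_zero_iff_of_nonneg hs0 hs] at h0
    rw [lintegral_congr_ae (g := fun _ => 0)]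
    · simp
    · filter_upwards [h0] with x hx
      have h1 := hg x
      rw [show s x = 0 from hx] at h1
      have : ‖g x‖ = 0 := by nlinarith [norm_nonneg (g x)]
      simp [norm_eq_zero.1 this]
  · have hi : Integrable (fun x => (s x / K + K) / 2) ν :=
      ((hs.div_const K).add (integrable_const K)).div_const 2
    calc ∫⁻ x, ‖g x‖ₑ ∂ν ≤ ∫⁻ x, ENNReal.ofReal ((s x / K + K) / 2) ∂ν := by
          refine lintegral_mono fun x => ?_
          rw [← ofReal_norm]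
          refine ENNReal.ofReal_le_ofReal ?_
          have h1 : ‖g x‖ ^ 2 / K ≤ s x / K := by gcongr; exact hg x
          have h2 : 2 * ‖g x‖ - K ≤ ‖g x‖ ^ 2 / K := by
            rw [le_div_iff₀ hK]; nlinarith [sq_nonneg (‖g x‖ - K)]
          linarith
      _ = ENNReal.ofReal (∫ x, (s x / K + K) / 2 ∂ν) :=
          (ofReal_integral_eq_lintegral_ofReal hi (Filter.Eventually.of_forall fun x => by
            have := hs0 x
            positivity)).symm
      _ ≤ ENNReal.ofReal K := by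
          refine ENNReal.ofReal_le_ofReal ?_
          rw [integral_div, integral_add (hs.div_const K) (integrable_const K), integral_div]
          have h1 : (∫ x, s x ∂ν) / K ≤ K := by rw [div_le_iff₀ hK]; nlinarith
          simp only [integral_const, probReal_univ, smul_eq_mul, one_mul]
          linarith

end Crest.Agent.R285
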