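import Crest.Agent.R285.OuterAux

/-! Row 285: the proximal sampler and the conversion to total variation. -/

set_option autoImplicit false

open MeasureTheory ProbabilityTheory Crest.OracleSampling
open scoped ENNReal NNReal

namespace Crest.Agent.R285

theorem outer_base (d : ℕ) :
    Sam d 0 Unit (fun V _ => target d V) (fun _ _ => 7 * √(d : ℝ)) := by
  refine ⟨Unit, inferInstance, Measure.dirac (), inferInstance, fun _ _ => 0,
    Comp.pure (fun _ => 0) measurable_const, fun V hV x L f hf => ?_⟩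
  have := outer_isProb_target hV
  rw [lintegral_const, measure_univ, mul_one]
  calc f 0 = ∫⁻ _y, f 0 ∂(target d V) := by rw [lintegral_const, measure_univ, mul_one]
    _ ≤ ∫⁻ y, (f y + L * ‖y‖ₑ) ∂(target d V) := by
        refine lintegral_mono fun y => ?_
        have := hf 0 y
        rwa [edist_zero_left] at this
    _ = ∫⁻ y, f y ∂(target d V) + L * ∫⁻ y, ‖y‖ₑ ∂(target d V) := by
        rw [lintegral_add_right _ (by fun_prop), lintegral_const_mul _ (by fun_prop)]
    _ ≤ _ := by gcongr; exact outer_moment hV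

theorem outer_step {d q m : ℕ} {η ε w : ℝ} (hη : 0 < η) (hη' : η ≤ 1 / 2) (hε : 0 ≤ ε)
    (hε' : ε ≤ η / 4) (hw : 0 ≤ w)
    (hS : Sam d q (E d) (fun V y => nu V y η) (fun _ y => ε * (√(d : ℝ) + ‖y‖)))
    (h : Sam d m Unit (fun V _ => target d V) (fun _ _ => w)) :
    Sam d (m + q) Unit (fun V _ => target d V)
      (fun _ _ => 9 * ε * √(d : ℝ) + (1 - η / 4) * w) := by
  have hS' := hS.comap (X' := Unit × E d × E d) (g := fun p => p.2.1 + √η • p.2.2) (by fun_prop)
  have hd : 0 ≤ √(d : ℝ) := Real.sqrt_nonneg _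
  have hη1 : √η ≤ 1 := Real.sqrt_le_one.2 (by linarith)
  have key := Sam.bind2 (T' := fun V _ => target d V) (e' := fun _ _ => 9 * ε * √(d : ℝ)) h hS'
    (Real.toNNReal (1 - η / 4)) (fun _ _ _ => hw) (fun _ _ _ => by positivity) ?_ ?_
  · refine key.mono le_rfl (fun _ _ _ => rfl) fun _ _ _ => le_of_eq ?_
    rw [Real.coe_toNNReal _ (by linarith)]
  · intro V hV x L f hf g y y'
    have h1 := lipE_mean (pot_of_admissible hV) zero_le_one hη hf (y + √η • g) (y' + √η • g)
    have e1 : edist (y + √η • g) (y' + √η • g) = edist y y' := edist_add_right _ _ _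
    rw [e1] at h1
    have h2 : ENNReal.ofReal (ε * (√(d : ℝ) + ‖y + √η • g‖)) ≤
        ENNReal.ofReal (ε * (√(d : ℝ) + ‖y' + √η • g‖)) + ENNReal.ofReal ε * edist y y' := by
      rw [edist_dist, ← ENNReal.ofReal_mul hε, ← ENNReal.ofReal_add (by positivity) (by positivity)]
      refine ENNReal.ofReal_le_ofReal ?_
      have h3 : ‖y + √η • g‖ ≤ ‖y' + √η • g‖ + dist y y' := by
        rw [dist_eq_norm]
        calc ‖y + √η • g‖ = ‖(y' + √η • g) + (y - y')‖ := by congr 1; abel
          _ ≤ _ := norm_add_le _ _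
      nlinarith
    have h4 : ENNReal.ofReal (1 + η * 1)⁻¹ + ENNReal.ofReal ε ≤ ENNReal.ofReal (1 - η / 4) := by
      rw [← ENNReal.ofReal_add (by positivity) hε]
      refine ENNReal.ofReal_le_ofReal ?_
      have h5 : (1 + η * 1)⁻¹ ≤ 1 - η / 2 := by
        rw [inv_le_iff_one_le_mul₀ (by positivity)]
        nlinarith
      linarith
    beta_reduce at h1 ⊢
    calc ∫⁻ w, f w ∂(nu V (y + √η • g) η) +
          L * ENNReal.ofReal (ε * (√(d : ℝ) + ‖y + √η • g‖))
        ≤ (∫⁻ w, f w ∂(nu V (y' + √η • g) η) +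
            (L * Real.toNNReal (1 + η * 1)⁻¹ : ℝ≥0) * edist y y') +
          L * (ENNReal.ofReal (ε * (√(d : ℝ) + ‖y' + √η • g‖)) +
            ENNReal.ofReal ε * edist y y') := by gcongr
      _ = (∫⁻ w, f w ∂(nu V (y' + √η • g) η) +
            L * ENNReal.ofReal (ε * (√(d : ℝ) + ‖y' + √η • g‖))) +
          L * (ENNReal.ofReal (1 + η * 1)⁻¹ + ENNReal.ofReal ε) * edist y y' := by
          rw [ENNReal.coe_mul]
          change _ + (L : ℝ≥0∞) * ENNReal.ofReal (1 + η * 1)⁻¹ * _ + _ = _
          ring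
      _ ≤ (∫⁻ w, f w ∂(nu V (y' + √η • g) η) +
            L * ENNReal.ofReal (ε * (√(d : ℝ) + ‖y' + √η • g‖))) +
          L * ENNReal.ofReal (1 - η / 4) * edist y y' := by gcongr
      _ = _ := by rw [ENNReal.coe_mul]; rfl
  · intro V hV x L f hf
    have := outer_isProb_target hV
    have h1 : ∀ y g : E d, ENNReal.ofReal (ε * (√(d : ℝ) + ‖y + √η • g‖)) ≤
        ENNReal.ofReal ε * (ENNReal.ofReal √(d : ℝ) + ‖y‖ₑ + ‖g‖ₑ) := by
      intro y g
      rw [← ofReal_norm, ← ofReal_norm, ← ENNReal.ofReal_add hd (norm_nonneg _),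
        ← ENNReal.ofReal_add (by positivity) (norm_nonneg _), ← ENNReal.ofReal_mul hε]
      refine ENNReal.ofReal_le_ofReal ?_
      have h3 : ‖y + √η • g‖ ≤ ‖y‖ + ‖g‖ := by
        refine (norm_add_le _ _).trans ?_
        rw [norm_smul, Real.norm_eq_abs, abs_of_nonneg (Real.sqrt_nonneg _)]
        have := mul_le_mul_of_nonneg_right hη1 (norm_nonneg g)
        linarith
      nlinarith
    beta_reduce
    calc ∫⁻ y, ∫⁻ g, (∫⁻ w, f w ∂(nu V (y + √η • g) η) +
          L * ENNReal.ofReal (ε * (√(d : ℝ) + ‖y + √η • g‖))) ∂(gam d) ∂(target d V)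
        ≤ ∫⁻ y, (∫⁻ g, ∫⁻ w, f w ∂(nu V (y + √η • g) η) ∂(gam d) +
          L * (ENNReal.ofReal ε * (ENNReal.ofReal √(d : ℝ) + ‖y‖ₑ + ENNReal.ofReal √(d : ℝ))))
            ∂(target d V) := by
          refine lintegral_mono fun y => ?_
          calc _ ≤ ∫⁻ g, (∫⁻ w, f w ∂(nu V (y + √η • g) η) +
                L * (ENNReal.ofReal ε * (ENNReal.ofReal √(d : ℝ) + ‖y‖ₑ + ‖g‖ₑ))) ∂(gam d) := by
                refine lintegral_mono fun g => ?_
                gcongr
                exact h1 y g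
            _ ≤ _ := by
                rw [lintegral_add_right _ (by fun_prop), lintegral_const_mul _ (by fun_prop),
                  lintegral_const_mul _ (by fun_prop), lintegral_add_left (by fun_prop),
                  lintegral_const, measure_univ, mul_one]
                gcongr
                exact lintegral_enorm_gam
      _ = ∫⁻ y, f y ∂(target d V) + L * (ENNReal.ofReal ε * (ENNReal.ofReal √(d : ℝ) +
            ∫⁻ y, ‖y‖ₑ ∂(target d V) + ENNReal.ofReal √(d : ℝ))) := by
          rw [lintegral_add_right _ (by fun_prop), lintegral_target_prox hV hη hf.measurable,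
            lintegral_const_mul _ (by fun_prop), lintegral_const_mul _ (by fun_prop),
            lintegral_add_right _ (by fun_prop), lintegral_add_left (by fun_prop),
            lintegral_const, measure_univ, mul_one]
      _ ≤ ∫⁻ y, f y ∂(target d V) + L * (ENNReal.ofReal ε * (ENNReal.ofReal √(d : ℝ) +
            ENNReal.ofReal (7 * √(d : ℝ)) + ENNReal.ofReal √(d : ℝ))) := by
          gcongr
          exact outer_moment hV
      _ = _ := by
          rw [← ENNReal.ofReal_add hd (by positivity), ← ENNReal.ofReal_add (by positivity) hd,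
            ← ENNReal.ofReal_mul hε]
          congr 3
          ring

theorem outer_iter {d q : ℕ} {η ε : ℝ} (hη : 0 < η) (hη' : η ≤ 1 / 2) (hε : 0 ≤ ε)
    (hε' : ε ≤ η / 4)
    (hS : Sam d q (E d) (fun V y => nu V y η) (fun _ y => ε * (√(d : ℝ) + ‖y‖))) (n : ℕ) :
    Sam d (n * q) Unit (fun V _ => target d V)
      (fun _ _ => (1 - η / 4) ^ n * (7 * √(d : ℝ)) + 36 * ε * √(d : ℝ) / η) := by
  have hd : 0 ≤ √(d : ℝ) := Real.sqrt_nonneg _
  have h0 : 0 ≤ 1 - η / 4 := by linarith
  induction n with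
  | zero =>
    refine (outer_base d).mono (Nat.zero_le _) (fun _ _ _ => rfl) fun _ _ _ => ?_
    have : 0 ≤ 36 * ε * √(d : ℝ) / η := by positivity
    simp only [pow_zero, one_mul]; linarith
  | succ n ih =>
    refine (outer_step hη hη' hε hε' (by positivity) hS ih).mono (by rw [Nat.succ_mul])
      (fun _ _ _ => rfl) fun _ _ _ => le_of_eq ?_
    field_simp
    ring

theorem outer_tv {d m : ℕ} {w : ℝ} (hd : 1 ≤ d)
    (hw : 1280 * d * √(d : ℝ) * w ≤ 1 / 20)
    (h : Sam d m Unit (fun V _ => target d V) (fun _ _ => w)) :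
    ∃ A : QueryAlg d m, ∀ V, Admissible d V → Succeeds A V := by
  obtain ⟨Ω, mΩ, μ, hμ, F, hF, hFe⟩ := h
  have hd1 : (1 : ℝ) ≤ d := by exact_mod_cast hd
  have hs1 : 1 ≤ √(d : ℝ) := Real.one_le_sqrt.2 hd1
  have hss : √(d : ℝ) * √(d : ℝ) = d := Real.mul_self_sqrt (by linarith)
  set τ : ℝ := 1 / (320 * d) with hτ
  have hτ0 : 0 < τ := by positivity
  have hC := (hF.comap (X' := Ω × E d) (g := fun p => ((), p.1)) (by fun_prop)).bind
    (Comp.pure (d := d) (fun p : (Ω × E d) × E d => p.2 + τ • p.1.2) (by fun_prop))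
  obtain ⟨A, hA⟩ := hC.exists_alg (μ.prod (gam d))
  refine ⟨A, fun V hV => ?_⟩
  have := outer_isProb_target hV
  have hm := hC.measurable hV
  have hP : IsProbabilityMeasure (outputLaw A V) := by
    rw [hA V]; exact Measure.isProbabilityMeasure_map hm.aemeasurable
  have key : ∀ B : Set (E d), MeasurableSet B →
      outputLaw A V B ≤ target d V B + ENNReal.ofReal (1 / 10) := by
    intro B hB
    let ind : E d → ℝ≥0∞ := B.indicator 1
    have hind : Measurable ind := measurable_one.indicator hB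
    have hind1 : ∀ x, ind x ≤ 1 := fun x => Set.indicator_le_self' (fun _ _ => zero_le) x
    let φ : E d → ℝ≥0∞ := fun x => ∫⁻ ξ, ind (x + τ • ξ) ∂(gam d)
    have hφ : LipE (Real.toNNReal (1280 * d * √(d : ℝ))) φ := by
      intro x y
      have h1 := outer_shift_gam (τ⁻¹ • (x - y)) (f := fun ξ => ind (y + τ • ξ)) (by fun_prop)
        (fun _ => hind1 _)
      have e1 : ∀ ξ : E d, y + τ • (ξ + τ⁻¹ • (x - y)) = x + τ • ξ := by
        intro ξ
        rw [smul_add, smul_smul, mul_inv_cancel₀ hτ0.ne', one_smul]; abel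
      simp only [e1] at h1
      refine h1.trans ?_
      change φ y + _ ≤ φ y + ENNReal.ofReal (1280 * d * √(d : ℝ)) * _
      rw [edist_eq_enorm_sub, enorm_smul, ← mul_assoc, Real.enorm_eq_ofReal (by positivity),
        ← ENNReal.ofReal_mul (by positivity)]
      have h2 : 2 * (√(d : ℝ) + 1) * τ⁻¹ ≤ 1280 * d * √(d : ℝ) := by
        rw [hτ, one_div, inv_inv]
        nlinarith
      exact add_le_add_right (mul_le_mul_left (ENNReal.ofReal_le_ofReal h2) _) _
    have h1 : outputLaw A V B = ∫⁻ ω, φ (F V ((), ω)) ∂μ := by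
      rw [hA V, ← lintegral_indicator_one hB, lintegral_map hind hm]
      exact lintegral_prod _ (hind.comp hm).aemeasurable
    have h2 := hFe V hV () _ φ hφ
    have h3 : ∫⁻ y, φ y ∂(target d V) ≤ target d V B + ENNReal.ofReal (1 / 20) := by
      calc ∫⁻ y, φ y ∂(target d V) = ∫⁻ ξ, ∫⁻ y, ind (y + τ • ξ) ∂(target d V) ∂(gam d) :=
            lintegral_lintegral_swap (by fun_prop)
        _ ≤ ∫⁻ ξ, (target d V B + ENNReal.ofReal (2 * (7 * √(d : ℝ) + 1) * τ) * ‖ξ‖ₑ)
              ∂(gam d) := by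
            refine lintegral_mono fun ξ => (outer_shift_target hV (τ • ξ) hind hind1).trans
              (le_of_eq ?_)
            rw [lintegral_indicator_one hB, enorm_smul, ← mul_assoc, Real.enorm_eq_ofReal hτ0.le,
              ← ENNReal.ofReal_mul (by positivity)]
        _ ≤ target d V B +
              ENNReal.ofReal (2 * (7 * √(d : ℝ) + 1) * τ) * ENNReal.ofReal √(d : ℝ) := by
            rw [lintegral_add_left (by fun_prop), lintegral_const, measure_univ, mul_one,
              lintegral_const_mul _ (by fun_prop)]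
            gcongr
            exact lintegral_enorm_gam
        _ ≤ _ := by
            rw [← ENNReal.ofReal_mul (by positivity)]
            gcongr
            have e : 2 * (7 * √(d : ℝ) + 1) * τ * √(d : ℝ)
                = (14 * (√(d : ℝ) * √(d : ℝ)) + 2 * √(d : ℝ)) / (320 * d) := by
              rw [hτ]; ring
            rw [e, div_le_iff₀ (by positivity)]
            nlinarith
    rw [h1]
    refine h2.trans ?_
    beta_reduce
    calc ∫⁻ y, φ y ∂(target d V) +
          (Real.toNNReal (1280 * d * √(d : ℝ)) : ℝ≥0∞) * ENNReal.ofReal w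
        ≤ (target d V B + ENNReal.ofReal (1 / 20)) + ENNReal.ofReal (1 / 20) := by
          gcongr
          change ENNReal.ofReal (1280 * d * √(d : ℝ)) * _ ≤ _
          rw [← ENNReal.ofReal_mul (by positivity)]
          exact ENNReal.ofReal_le_ofReal hw
      _ = _ := by
          rw [add_assoc, ← ENNReal.ofReal_add (by norm_num) (by norm_num)]
          norm_num
  have key' : ∀ B : Set (E d), MeasurableSet B →
      (outputLaw A V).real B ≤ (target d V).real B + 1 / 10 := by
    intro B hB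
    have h1 := ENNReal.toReal_mono (by finiteness) (key B hB)
    rwa [ENNReal.toReal_add (by finiteness) (by finiteness),
      ENNReal.toReal_ofReal (by norm_num)] at h1
  intro B hB
  have h1 := key' B hB
  have h2 := key' Bᶜ hB.compl
  rw [probReal_compl_eq_one_sub hB, probReal_compl_eq_one_sub hB] at h2
  change |(outputLaw A V).real B - (target d V).real B| ≤ _
  rw [abs_le]
  constructor <;> linarith

theorem outer : ∃ c : ℝ, 0 < c ∧ ∀ (d q n : ℕ) (η ε : ℝ), 1 ≤ d → 0 < η → η ≤ 1 / 2 → 0 ≤ ε →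
    ε * (d : ℝ) ^ 2 ≤ c * η → (1 - η / 4) ^ n * (d : ℝ) ^ 2 ≤ c →
    Sam d q (E d) (fun V y => nu V y η) (fun _ y => ε * (√(d : ℝ) + ‖y‖)) →
    ∃ A : QueryAlg d (n * q), ∀ V, Admissible d V → Succeeds A V := by
  refine ⟨1 / 2000000, by norm_num, fun d q n η ε hd hη hη' hε h1 h2 hS => ?_⟩
  have hd1 : (1 : ℝ) ≤ d := by exact_mod_cast hd
  have hss : √(d : ℝ) * √(d : ℝ) = d := Real.mul_self_sqrt (by linarith)
  have h0 : 0 ≤ 1 - η / 4 := by linarith
  have hε' : ε ≤ η / 4 := by
    have : ε * 1 ≤ ε * (d : ℝ) ^ 2 := by gcongr; nlinarith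
    linarith
  refine outer_tv hd ?_ (outer_iter hη hη' hε hε' hS n)
  have h3 : ε * (d : ℝ) ^ 2 / η ≤ 1 / 2000000 := by rw [div_le_iff₀ hη]; exact h1
  have e : 1280 * d * √(d : ℝ) * ((1 - η / 4) ^ n * (7 * √(d : ℝ)) + 36 * ε * √(d : ℝ) / η)
      = 1280 * (7 * ((1 - η / 4) ^ n * (d * (√(d : ℝ) * √(d : ℝ)))) +
        36 * (ε * (d * (√(d : ℝ) * √(d : ℝ))) / η)) := by ring
  rw [e, hss, ← sq]
  linarith

end Crest.Agent.R285
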