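import Crest.Agent.R285.Rec
import Crest.Agent.R285.CT
import Crest.Agent.R285.Outer

/-! Row 285: assembly. -/

set_option autoImplicit false

open MeasureTheory ProbabilityTheory Crest.OracleSampling
open scoped ENNReal NNReal

namespace Crest.Agent.R285

theorem inner_sampler (A : ℕ) : ∃ δ₁ : ℝ, 0 < δ₁ ∧ ∀ δ₀ : ℝ, 0 < δ₀ → δ₀ ≤ δ₁ → ∀ d : ℕ,
    ∃ q : ℕ, (q : ℝ) ≤ δ₀⁻¹ ∧
      Sam d q (E d) (fun V y => nu V y (δ₀ / 2)) fun _ y => δ₀ ^ A * (√(d : ℝ) + ‖y‖) := by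
  obtain ⟨k, hk, h1⟩ := exists_par A
  obtain ⟨C, N, hC, h2⟩ := circuit k hk
  obtain ⟨δ₁, hδ₁, h3⟩ := h1 C N hC
  refine ⟨δ₁, hδ₁, fun δ₀ h0 h0' d => ?_⟩
  obtain ⟨M, h, Q, e0, hM, hh, hCh, eR, hP, hnx, hε, hU, hη⟩ := h3 δ₀ h0 h0'
  obtain ⟨q, hq, hS⟩ := rec_core Q d
    (eR ▸ h2 d M Q.nx h Q.Λ Q.P Q.εd hM hh hCh (eR ▸ Q.Λ_ge) hP hnx hε)
  refine ⟨q, hq.trans hU, hS.mono le_rfl (fun _ _ _ => by rw [e0]) fun _ _ y => ?_⟩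
  exact mul_le_mul_of_nonneg_right hη (by positivity)

theorem final : ∀ ε : ℝ, 0 < ε → ∃ C : ℝ, ∀ d : ℕ, 2 ≤ d →
    ∃ (q : ℕ) (A : QueryAlg d q), (q : ℝ) ≤ C * (d : ℝ) ^ ε ∧
      ∀ V : E d → ℝ, Admissible d V → Succeeds A V := by
  intro ε hε
  obtain ⟨B, hB⟩ : ∃ B : ℕ, 6 / ε ≤ B := exists_nat_ge _
  obtain ⟨δ₁, hδ₁, hin⟩ := inner_sampler (B + 2)
  obtain ⟨c, hc, hout⟩ := outer
  have hlim := tendsto_rpow_mul_exp_neg_mul_atTop_nhds_zero (B : ℝ) (1 / 8) (by norm_num)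
  obtain ⟨x₁, hx₁⟩ := Filter.eventually_atTop.1 (hlim.eventually (ge_mem_nhds hc))
  obtain ⟨x₀, hx₀⟩ : ∃ x₀ : ℝ, x₀ = max (max 1 x₁) (max δ₁⁻¹ (2 / c)) := ⟨_, rfl⟩
  have hx₀1 : 1 ≤ x₀ := hx₀ ▸ (le_max_left _ _).trans (le_max_left _ _)
  refine ⟨2 * (x₀ ^ 3 + 1), fun d hd => ?_⟩
  have hd1 : (1 : ℝ) ≤ d := by exact_mod_cast (by omega : 1 ≤ d)
  have hd0 : (0 : ℝ) < d := by linarith
  obtain ⟨x, hx⟩ : ∃ x : ℝ, x = max x₀ ((d : ℝ) ^ (ε / 3)) := ⟨_, rfl⟩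
  have hxx₀ : x₀ ≤ x := hx ▸ le_max_left _ _
  have hxd : (d : ℝ) ^ (ε / 3) ≤ x := hx ▸ le_max_right _ _
  have hx1 : 1 ≤ x := hx₀1.trans hxx₀
  have hx0 : 0 < x := by linarith
  have hxx₁ : x₁ ≤ x := le_trans (hx₀ ▸ (le_max_right _ _).trans (le_max_left _ _)) hxx₀
  have hxδ : δ₁⁻¹ ≤ x := le_trans (hx₀ ▸ (le_max_left _ _).trans (le_max_right _ _)) hxx₀
  have hxc : 2 / c ≤ x := le_trans (hx₀ ▸ (le_max_right _ _).trans (le_max_right _ _)) hxx₀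
  have hd2 : (d : ℝ) ^ 2 ≤ x ^ B := by
    calc (d : ℝ) ^ 2 = (d : ℝ) ^ (2 : ℝ) := by norm_cast
      _ ≤ (d : ℝ) ^ (ε / 3 * B) := by
          refine Real.rpow_le_rpow_of_exponent_le hd1 ?_
          rw [div_le_iff₀ hε] at hB
          linarith
      _ = ((d : ℝ) ^ (ε / 3)) ^ B := by rw [Real.rpow_mul hd0.le, Real.rpow_natCast]
      _ ≤ x ^ B := by gcongr
  obtain ⟨q, hq, hS⟩ := hin x⁻¹ (by positivity) ((inv_le_comm₀ hx0 hδ₁).2 hxδ) d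
  rw [inv_inv] at hq
  have hxi : x⁻¹ ≤ 1 := inv_le_one_of_one_le₀ hx1
  have hxi0 : 0 < x⁻¹ := by positivity
  obtain ⟨A, hA⟩ := hout d q ⌈x ^ 2⌉₊ (x⁻¹ / 2) (x⁻¹ ^ (B + 2)) (by omega) (by positivity)
    (by linarith) (by positivity) (by
      calc x⁻¹ ^ (B + 2) * (d : ℝ) ^ 2 ≤ x⁻¹ ^ (B + 2) * x ^ B := by gcongr
        _ = x⁻¹ * x⁻¹ * (x⁻¹ * x) ^ B := by rw [mul_pow]; ring
        _ = x⁻¹ * x⁻¹ := by rw [inv_mul_cancel₀ hx0.ne', one_pow, mul_one]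
        _ ≤ (c / 2) * x⁻¹ := by
            gcongr
            rw [inv_le_comm₀ hx0 (by positivity), inv_div]
            exact hxc
        _ = c * (x⁻¹ / 2) := by ring) (by
      have h1 : 1 - x⁻¹ / 2 / 4 ≤ Real.exp (-(x⁻¹ / 8)) := by
        have := Real.add_one_le_exp (-(x⁻¹ / 8))
        linarith
      have h2 : (1 - x⁻¹ / 2 / 4) ^ ⌈x ^ 2⌉₊ ≤ Real.exp (-(1 / 8) * x) := by
        calc (1 - x⁻¹ / 2 / 4) ^ ⌈x ^ 2⌉₊ ≤ Real.exp (-(x⁻¹ / 8)) ^ ⌈x ^ 2⌉₊ :=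
              pow_le_pow_left₀ (by linarith) h1 _
          _ = Real.exp (⌈x ^ 2⌉₊ * -(x⁻¹ / 8)) := (Real.exp_nat_mul _ _).symm
          _ ≤ Real.exp (-(1 / 8) * x) := by
              refine Real.exp_le_exp.2 ?_
              have h3 : x ^ 2 * (x⁻¹ / 8) ≤ ⌈x ^ 2⌉₊ * (x⁻¹ / 8) := by
                gcongr
                exact Nat.le_ceil _
              have h4 : x ^ 2 * (x⁻¹ / 8) = 1 / 8 * x := by field_simp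
              linarith
      have h5 := hx₁ x hxx₁
      rw [Real.rpow_natCast] at h5
      calc (1 - x⁻¹ / 2 / 4) ^ ⌈x ^ 2⌉₊ * (d : ℝ) ^ 2 ≤ Real.exp (-(1 / 8) * x) * x ^ B := by
            gcongr
        _ ≤ c := by rw [mul_comm]; exact h5) hS
  refine ⟨_, A, ?_, hA⟩
  have hn : (⌈x ^ 2⌉₊ : ℝ) ≤ 2 * x ^ 2 := by
    have h1 := Nat.ceil_lt_add_one (a := x ^ 2) (by positivity)
    have h2 : 1 ≤ x ^ 2 := one_le_pow₀ hx1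
    linarith
  have hdε : 1 ≤ (d : ℝ) ^ ε := Real.one_le_rpow hd1 hε.le
  have hx3 : x ^ 3 ≤ (x₀ ^ 3 + 1) * (d : ℝ) ^ ε := by
    have h0 : 0 ≤ x₀ ^ 3 := by positivity
    rcases le_total x₀ ((d : ℝ) ^ (ε / 3)) with h | h
    · rw [hx, max_eq_right h, ← Real.rpow_natCast, ← Real.rpow_mul hd0.le,
        show ε / 3 * ((3 : ℕ) : ℝ) = ε by push_cast; ring]
      nlinarith
    · rw [hx, max_eq_left h]
      nlinarith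
  calc ((⌈x ^ 2⌉₊ * q : ℕ) : ℝ) = ⌈x ^ 2⌉₊ * q := by push_cast; ring
    _ ≤ (2 * x ^ 2) * x := by gcongr
    _ = 2 * x ^ 3 := by ring
    _ ≤ 2 * (x₀ ^ 3 + 1) * (d : ℝ) ^ ε := by linarith

end Crest.Agent.R285
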