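import Crest.Agent.R285.Defs

/-! Row 285: circuits built from evaluations of the mean force. -/

set_option autoImplicit false

open Crest.OracleSampling

namespace Crest.Agent.R285

/-- Force fields. -/
abbrev UF (d : ℕ) := ℝ → E d → E d

/-- Functionals of a force field and of a pair `(z, g)`. -/
abbrev Fn (d : ℕ) := UF d → E d × E d → E d

/-- Parameters of a class of circuits. -/
structure NP where
  R : ℝ
  A : ℝ
  A' : ℝ
  Mx : ℝ
  δ : ℝ
  nx : ℕ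

/-- Linear combinations (total weight `m`, at most `n` terms) of values of the force field at
points which are again of this form. -/
inductive NL (d : ℕ) (P : NP) : ℝ → ℕ → Fn d → Prop
  | zero : NL d P 0 0 fun _ _ => 0
  | add {m m' : ℝ} {n n' : ℕ} {F F' : Fn d} : NL d P m n F → NL d P m' n' F' →
      NL d P (m + m') (n + n') fun u x => F u x + F' u x
  | smul {m : ℝ} {n : ℕ} {F : Fn d} (c : ℝ) : NL d P m n F →
      NL d P (|c| * m) n fun u x => c • F u x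
  | mono {m m' : ℝ} {n n' : ℕ} {F : Fn d} : NL d P m n F → m ≤ m' → n ≤ n' → NL d P m' n' F
  | app (r α β : ℝ) {F : Fn d} : 0 ≤ r → r ≤ P.R → |α| + |β| ≤ P.A → NL d P P.Mx P.nx F →
      (∀ W : E d → ℝ, Pot 0 P.δ W → ∀ x : E d × E d,
        ‖α • x.1 + β • x.2 + F (uu W) x‖ ≤ P.A' * (‖x‖ + MM W)) →
      NL d P 1 1 fun u x => u r (α • x.1 + β • x.2 + F u x)

theorem NL.nonneg {d : ℕ} {P : NP} {m : ℝ} {n : ℕ} {F : Fn d} (h : NL d P m n F) : 0 ≤ m := by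
  induction h with
  | zero => exact le_rfl
  | add _ _ h h' => exact add_nonneg h h'
  | smul c _ h => exact mul_nonneg (abs_nonneg c) h
  | mono _ h _ h' => exact h'.trans h
  | app => exact zero_le_one

/-- The properties of the circuit used by the recursion. -/
def Circ (d : ℕ) (R P εd : ℝ) (nx : ℕ) : Prop :=
  ∀ κ K δ : ℝ, 0 ≤ κ → κ ≤ K → 0 < K → 0 < δ → (1 + K) * δ * P ≤ 1 →
    ∃ Fz Fs : Fn d, NL d ⟨R + 1, P, P, (1 + K) * P, δ, nx⟩ ((1 + K) * P) nx Fz ∧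
      NL d ⟨R + 1, P, P, (1 + K) * P, δ, nx⟩ (κ / K * P) nx Fs ∧
      ∀ W : E d → ℝ, Pot 0 δ W →
        (∀ x, ‖x.1 + Fz (uu W) x‖ ≤ P * (‖x‖ + MM W)) ∧
        (∀ x y, ‖Fz (uu W) x - Fz (uu W) y‖ ≤ ‖x - y‖) ∧
        (∀ x y, ‖Fs (uu W) x - Fs (uu W) y‖ ≤ δ * P * ‖x - y‖) ∧
        ∃ Ψ : E d × E d → E d × E d, Measurable Ψ ∧ ((gam d).prod (gam d)).map Ψ = pp W R ∧
          ∫⁻ x, ‖x.1 + Fz (uu W) x - (Ψ x).1‖ₑ ∂((gam d).prod (gam d)) ≤
            ENNReal.ofReal (εd * MM W) ∧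
          ∫⁻ x, ‖x.2 + κ • (uu W R (x.1 + Fz (uu W) x) + Fs (uu W) x) -
              (κ • mn W 0 1 + (Ψ x).2)‖ₑ ∂((gam d).prod (gam d)) ≤
            ENNReal.ofReal (κ * δ * εd * MM W)

end Crest.Agent.R285
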