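import Crest.Agent.R285.Comp
import Crest.Agent.R285.Poincare

/-! Row 285: the target law, its first moment and its behaviour under translations. -/

set_option autoImplicit false

open MeasureTheory ProbabilityTheory Crest.OracleSampling
open scoped ENNReal NNReal

namespace Crest.Agent.R285

variable {d : ℕ}

theorem outer_lower {V : E d → ℝ} (hV : Admissible d V) (x : E d) : ‖x‖ ^ 2 / 4 ≤ V x := by
  have h := pot_of_admissible hV
  have h1 := h.midpoint x 0
  have h2 := h.nonneg ((1 / 2 : ℝ) • x + (1 / 2 : ℝ) • (0 : E d))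
  rw [hV.2.1, sub_zero] at h1
  linarith

theorem outer_incr {V : E d → ℝ} (hV : Admissible d V) (x v : E d) :
    V (x + v) - V x ≤ 2 * (‖x‖ + ‖v‖) * ‖v‖ := by
  have hd : Differentiable ℝ V := hV.1.differentiable (by norm_num)
  have h := (convex_closedBall (0 : E d) (‖x‖ + ‖v‖)).norm_image_sub_le_of_norm_fderiv_le
    (f := V) (C := 2 * (‖x‖ + ‖v‖)) (x := x) (y := x + v) (fun z _ => hd z)
    (fun z hz => by
      have h1 := norm_gradient_le_of_admissible hV z
      have h2 : ‖gradient V z‖ = ‖fderiv ℝ V z‖ := by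
        unfold gradient; exact LinearIsometryEquiv.norm_map _ _
      have h3 : ‖z‖ ≤ ‖x‖ + ‖v‖ := mem_closedBall_zero_iff.1 hz
      linarith)
    (mem_closedBall_zero_iff.2 (by linarith [norm_nonneg v]))
    (mem_closedBall_zero_iff.2 (norm_add_le x v))
  rw [add_sub_cancel_left, Real.norm_eq_abs] at h
  exact (le_abs_self _).trans h

/-- The unnormalised Gibbs measure. -/
noncomputable def outerDens (U : E d → ℝ) : Measure (E d) :=
  (volume : Measure (E d)).withDensity fun x => ENNReal.ofReal (Real.exp (-U x))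

theorem outer_exp_le {U : E d → ℝ}
    (hinc : ∀ x v, U (x + v) - U x ≤ 2 * (‖x‖ + ‖v‖) * ‖v‖) (x v : E d) :
    Real.exp (-U x) ≤ Real.exp (-U (x + v)) + Real.exp (-U x) * (2 * (‖x‖ + 1) * ‖v‖) := by
  have hx := norm_nonneg x
  have hv := norm_nonneg v
  have h0 := Real.exp_pos (-U x)
  have h1 := Real.exp_pos (-U (x + v))
  by_cases h : ‖v‖ ≤ 1
  · have h2 := hinc x v
    have h3 : U (x + v) - U x ≤ 2 * (‖x‖ + 1) * ‖v‖ := h2.trans (by gcongr)
    have h4 : Real.exp (-U (x + v)) = Real.exp (-U x) * Real.exp (-(U (x + v) - U x)) := by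
      rw [← Real.exp_add]; congr 1; ring
    have h5 := Real.add_one_le_exp (-(U (x + v) - U x))
    rw [h4]
    nlinarith
  · have h2 : 1 ≤ 2 * (‖x‖ + 1) * ‖v‖ := by nlinarith
    nlinarith

theorem outer_shift_dens {U : E d → ℝ} (hU : Continuous U)
    (hinc : ∀ x v, U (x + v) - U x ≤ 2 * (‖x‖ + ‖v‖) * ‖v‖) (v : E d) {f : E d → ℝ≥0∞}
    (hf : Measurable f) (hf1 : ∀ x, f x ≤ 1) :
    ∫⁻ x, f (x + v) ∂(outerDens U) ≤
      ∫⁻ x, f x ∂(outerDens U) + ∫⁻ x, 2 * (‖x‖ₑ + 1) * ‖v‖ₑ ∂(outerDens U) := by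
  have hρ : Measurable fun x => ENNReal.ofReal (Real.exp (-U x)) := by fun_prop
  unfold outerDens
  rw [lintegral_withDensity_eq_lintegral_mul _ hρ (by fun_prop),
    lintegral_withDensity_eq_lintegral_mul _ hρ hf,
    lintegral_withDensity_eq_lintegral_mul _ hρ (by fun_prop),
    ← lintegral_add_right_eq_self (μ := (volume : Measure (E d)))
      ((fun x => ENNReal.ofReal (Real.exp (-U x))) * f) v,
    ← lintegral_add_right _ (by fun_prop)]
  refine lintegral_mono fun x => ?_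
  simp only [Pi.mul_apply]
  have h1 : ENNReal.ofReal (Real.exp (-U x)) ≤ ENNReal.ofReal (Real.exp (-U (x + v))) +
      ENNReal.ofReal (Real.exp (-U x)) * (2 * (‖x‖ₑ + 1) * ‖v‖ₑ) := by
    refine (ENNReal.ofReal_le_ofReal (outer_exp_le hinc x v)).trans (le_of_eq ?_)
    rw [ENNReal.ofReal_add (by positivity) (by positivity), ENNReal.ofReal_mul (by positivity),
      ENNReal.ofReal_mul (by positivity), ENNReal.ofReal_mul (by positivity),
      ENNReal.ofReal_add (by positivity) (by positivity), ofReal_norm,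
      ofReal_norm]
    simp
  calc ENNReal.ofReal (Real.exp (-U x)) * f (x + v)
      ≤ (ENNReal.ofReal (Real.exp (-U (x + v))) +
        ENNReal.ofReal (Real.exp (-U x)) * (2 * (‖x‖ₑ + 1) * ‖v‖ₑ)) * f (x + v) := by gcongr
    _ = ENNReal.ofReal (Real.exp (-U (x + v))) * f (x + v) +
        ENNReal.ofReal (Real.exp (-U x)) * (2 * (‖x‖ₑ + 1) * ‖v‖ₑ) * f (x + v) := by rw [add_mul]
    _ ≤ ENNReal.ofReal (Real.exp (-U (x + v))) * f (x + v) +
        ENNReal.ofReal (Real.exp (-U x)) * (2 * (‖x‖ₑ + 1) * ‖v‖ₑ) * 1 := by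
          gcongr; exact hf1 _
    _ = _ := by rw [mul_one]

theorem outer_shift {U : E d → ℝ} (hU : Continuous U)
    (hinc : ∀ x v, U (x + v) - U x ≤ 2 * (‖x‖ + ‖v‖) * ‖v‖) {μ : Measure (E d)}
    [IsProbabilityMeasure μ] {c : ℝ≥0∞} (hμ : μ = c • outerDens U) {m : ℝ} (hm0 : 0 ≤ m)
    (hm : ∫⁻ x, ‖x‖ₑ ∂μ ≤ ENNReal.ofReal m) (v : E d) {f : E d → ℝ≥0∞}
    (hf : Measurable f) (hf1 : ∀ x, f x ≤ 1) :
    ∫⁻ x, f (x + v) ∂μ ≤ ∫⁻ x, f x ∂μ + ENNReal.ofReal (2 * (m + 1)) * ‖v‖ₑ := by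
  have h1 : ∫⁻ x, f (x + v) ∂μ ≤ ∫⁻ x, f x ∂μ + ∫⁻ x, 2 * (‖x‖ₑ + 1) * ‖v‖ₑ ∂μ := by
    rw [hμ, lintegral_smul_measure, lintegral_smul_measure, lintegral_smul_measure,
      smul_eq_mul, smul_eq_mul, smul_eq_mul, ← mul_add]
    gcongr
    exact outer_shift_dens hU hinc v hf hf1
  refine h1.trans ?_
  gcongr
  rw [lintegral_mul_const _ (by fun_prop), lintegral_const_mul _ (by fun_prop),
    lintegral_add_right _ (by fun_prop), lintegral_const, measure_univ, mul_one,
    ENNReal.ofReal_mul (by positivity), ENNReal.ofReal_add hm0 (by positivity)]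
  simp only [ENNReal.ofReal_ofNat, ENNReal.ofReal_one]
  gcongr

theorem outer_target_eq (V : E d → ℝ) :
    target d V = (outerDens V Set.univ)⁻¹ • outerDens V := rfl

theorem outer_pot_zero : Pot 0 0 (fun _ : E d => (0 : ℝ)) :=
  ⟨contDiff_const, fun _ => le_rfl, fun x h => by
    rw [iteratedFDeriv_const_of_ne (by norm_num)]; simp⟩

theorem outer_lintegral_dens_lt_top {V : E d → ℝ} (hV : Admissible d V) {g : E d → ℝ}
    (hg : Continuous g) (hg' : PGrowth g) : ∫⁻ x, ‖g x‖ₑ ∂(outerDens V) < ∞ := by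
  have hVc : Continuous V := hV.1.continuous
  have h1 := (integrable_weight outer_pot_zero (0 : E d) (t := 2) (by norm_num)
    hg.aestronglyMeasurable hg').2
  unfold outerDens
  rw [lintegral_withDensity_eq_lintegral_mul _ (by fun_prop) (by fun_prop)]
  refine lt_of_le_of_lt (lintegral_mono fun x => ?_) h1
  simp only [Pi.mul_apply, smul_eq_mul, enorm_mul]
  gcongr
  rw [Real.enorm_eq_ofReal (Real.exp_pos _).le]
  refine ENNReal.ofReal_le_ofReal (Real.exp_le_exp.2 ?_)
  have := outer_lower hV x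
  simp only [sub_zero]
  linarith

theorem outer_dens_univ_lt_top {V : E d → ℝ} (hV : Admissible d V) :
    outerDens V Set.univ < ∞ := by
  have := outer_lintegral_dens_lt_top hV (g := fun _ => (1 : ℝ)) continuous_const
    ⟨1, 0, fun x => by simp⟩
  simpa using this

theorem outer_dens_univ_ne_zero {V : E d → ℝ} (hV : Admissible d V) :
    outerDens V Set.univ ≠ 0 := by
  have hVc : Continuous V := hV.1.continuous
  unfold outerDens
  rw [withDensity_apply _ MeasurableSet.univ, Measure.restrict_univ]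
  intro h
  rw [lintegral_eq_zero_iff (by fun_prop)] at h
  obtain ⟨x, hx⟩ := h.exists
  simp only [Pi.zero_apply, ENNReal.ofReal_eq_zero] at hx
  exact absurd (Real.exp_pos _) (not_lt.2 hx)

theorem outer_isProb_target {V : E d → ℝ} (hV : Admissible d V) :
    IsProbabilityMeasure (target d V) := by
  constructor
  rw [outer_target_eq, Measure.smul_apply, smul_eq_mul]
  exact ENNReal.inv_mul_cancel (outer_dens_univ_ne_zero hV) (outer_dens_univ_lt_top hV).ne

theorem outer_moment_lt_top {V : E d → ℝ} (hV : Admissible d V) :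
    ∫⁻ x, ‖x‖ₑ ∂(target d V) < ∞ := by
  rw [outer_target_eq, lintegral_smul_measure, smul_eq_mul]
  refine ENNReal.mul_lt_top (ENNReal.inv_lt_top.2 (pos_iff_ne_zero.2 (outer_dens_univ_ne_zero hV))) ?_
  have := outer_lintegral_dens_lt_top hV (g := fun x => ‖x‖) continuous_norm
    ⟨1, 1, fun x => by simp⟩
  simpa using this

theorem outer_lipE_enorm : LipE 1 (fun x : E d => ‖x‖ₑ) := by
  intro x y
  simp only [ENNReal.coe_one, one_mul, edist_eq_enorm_sub]
  calc ‖x‖ₑ = ‖y + (x - y)‖ₑ := by rw [add_sub_cancel]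
    _ ≤ _ := enorm_add_le _ _

theorem outer_nu_moment {V : E d → ℝ} (hV : Admissible d V) :
    ∫⁻ x, ‖x‖ₑ ∂(nu V 0 (1 / 4)) ≤ ENNReal.ofReal √(d : ℝ) := by
  have h := pot_of_admissible hV
  have h1 := integral_norm_sub_le h zero_le_one (0 : E d) (t := 1 / 4) (by norm_num)
  have h2 := mn_sub_grad h zero_le_one zero_le_two (0 : E d) (t := 1 / 4) (by norm_num)
  rw [hV.2.2.1, sub_zero] at h2
  have h3 : √(1 / 4 * (d : ℝ)) = √(d : ℝ) / 2 := by
    rw [show (1 / 4 * (d : ℝ)) = d / 2 ^ 2 by ring, Real.sqrt_div' _ (by positivity),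
      Real.sqrt_sq (by norm_num)]
  rw [h3] at h1 h2
  simp only [sub_zero] at h1
  have hi : Integrable (fun x : E d => ‖x‖) (nu V 0 (1 / 4)) :=
    integrable_nu h 0 (by norm_num) continuous_norm.aestronglyMeasurable ⟨1, 1, fun x => by simp⟩
  have h4 := ofReal_integral_eq_lintegral_ofReal hi (Filter.Eventually.of_forall fun x => norm_nonneg x)
  simp only [ofReal_norm] at h4
  rw [← h4]
  exact ENNReal.ofReal_le_ofReal (by linarith)

theorem outer_moment {V : E d → ℝ} (hV : Admissible d V) :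
    ∫⁻ x, ‖x‖ₑ ∂(target d V) ≤ ENNReal.ofReal (7 * √(d : ℝ)) := by
  have h := pot_of_admissible hV
  have := outer_isProb_target hV
  have h1 := lintegral_target_prox hV (η := 1 / 4) (by norm_num) (f := fun x => ‖x‖ₑ)
    (by fun_prop)
  have h2 := lipE_mean h zero_le_one (t := 1 / 4) (by norm_num) outer_lipE_enorm
  have hs : √(1 / 4 : ℝ) = 1 / 2 := by
    rw [show (1 / 4 : ℝ) = (1 / 2) ^ 2 by norm_num, Real.sqrt_sq (by norm_num)]
  have hc : (((1 : ℝ≥0) * Real.toNNReal (1 + 1 / 4 * 1 : ℝ)⁻¹ : ℝ≥0) : ℝ≥0∞)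
      = ENNReal.ofReal (4 / 5) := by
    rw [one_mul]; unfold ENNReal.ofReal; congr 2; norm_num
  have h3 : ∀ x ξ : E d, ∫⁻ y, ‖y‖ₑ ∂(nu V (x + √(1 / 4 : ℝ) • ξ) (1 / 4)) ≤
      ENNReal.ofReal √(d : ℝ) + ENNReal.ofReal (4 / 5) * ‖x‖ₑ + ENNReal.ofReal (2 / 5) * ‖ξ‖ₑ := by
    intro x ξ
    refine (h2 _ 0).trans ?_
    rw [hc, add_assoc, hs, edist_zero_right]
    gcongr
    · exact outer_nu_moment hV
    · calc ENNReal.ofReal (4 / 5) * ‖x + (1 / 2 : ℝ) • ξ‖ₑ
          ≤ ENNReal.ofReal (4 / 5) * (‖x‖ₑ + ‖(1 / 2 : ℝ) • ξ‖ₑ) := by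
            gcongr; exact enorm_add_le _ _
        _ = _ := by
            rw [mul_add, enorm_smul, ← mul_assoc, Real.enorm_eq_ofReal (by norm_num),
              ← ENNReal.ofReal_mul (by norm_num)]
            norm_num
  have h4 : ∫⁻ x, ‖x‖ₑ ∂(target d V) ≤ ENNReal.ofReal √(d : ℝ) +
      ENNReal.ofReal (4 / 5) * ∫⁻ x, ‖x‖ₑ ∂(target d V) +
        ENNReal.ofReal (2 / 5) * ENNReal.ofReal √(d : ℝ) := by
    calc ∫⁻ x, ‖x‖ₑ ∂(target d V) = _ := h1.symm
      _ ≤ ∫⁻ x, (ENNReal.ofReal √(d : ℝ) + ENNReal.ofReal (4 / 5) * ‖x‖ₑ +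
          ENNReal.ofReal (2 / 5) * ENNReal.ofReal √(d : ℝ)) ∂(target d V) := by
          refine lintegral_mono fun x => (lintegral_mono fun ξ => h3 x ξ).trans ?_
          rw [lintegral_add_left (by fun_prop), lintegral_const, measure_univ, mul_one,
            lintegral_const_mul _ (by fun_prop)]
          gcongr
          exact lintegral_enorm_gam
      _ = _ := by
          rw [lintegral_add_right _ (by fun_prop), lintegral_add_left (by fun_prop),
            lintegral_const, lintegral_const, measure_univ, mul_one, mul_one,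
            lintegral_const_mul _ (by fun_prop)]
  have hfin := (outer_moment_lt_top hV).ne
  set m := ∫⁻ x, ‖x‖ₑ ∂(target d V) with hm
  rw [← ENNReal.ofReal_toReal hfin] at h4 ⊢
  have hm0 : 0 ≤ m.toReal := ENNReal.toReal_nonneg
  have hd : 0 ≤ √(d : ℝ) := Real.sqrt_nonneg _
  rw [← ENNReal.ofReal_mul (by norm_num), ← ENNReal.ofReal_mul (by norm_num),
    ← ENNReal.ofReal_add hd (by positivity), ← ENNReal.ofReal_add (by positivity) (by positivity),
    ENNReal.ofReal_le_ofReal_iff (by positivity)] at h4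
  exact ENNReal.ofReal_le_ofReal (by linarith)

theorem outer_shift_target {V : E d → ℝ} (hV : Admissible d V) (v : E d) {f : E d → ℝ≥0∞}
    (hf : Measurable f) (hf1 : ∀ x, f x ≤ 1) :
    ∫⁻ x, f (x + v) ∂(target d V) ≤
      ∫⁻ x, f x ∂(target d V) + ENNReal.ofReal (2 * (7 * √(d : ℝ) + 1)) * ‖v‖ₑ :=
  have := outer_isProb_target hV
  outer_shift hV.1.continuous (outer_incr hV) (outer_target_eq V) (by positivity)
    (outer_moment hV) v hf hf1

theorem outer_shift_gam (v : E d) {f : E d → ℝ≥0∞} (hf : Measurable f) (hf1 : ∀ x, f x ≤ 1) :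
    ∫⁻ x, f (x + v) ∂(gam d) ≤
      ∫⁻ x, f x ∂(gam d) + ENNReal.ofReal (2 * (√(d : ℝ) + 1)) * ‖v‖ₑ := by
  refine outer_shift (U := fun z => ‖z‖ ^ 2 / 2)
    (c := ENNReal.ofReal (∫ z : E d, Real.exp (-‖z‖ ^ 2 / 2))⁻¹) (by fun_prop) (fun x v => ?_) ?_
    (by positivity) lintegral_enorm_gam v hf hf1
  · have h1 := norm_add_le x v
    have h2 := norm_nonneg (x + v)
    have h3 := norm_nonneg x
    have h4 := norm_nonneg v
    have h5 : ‖x + v‖ ^ 2 ≤ (‖x‖ + ‖v‖) ^ 2 := by gcongr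
    nlinarith
  · rw [gam_eq_tilted]
    unfold Measure.tilted outerDens
    rw [← withDensity_smul _ (by fun_prop)]
    congr 1
    funext x
    have hI : 0 ≤ ∫ z : E d, Real.exp (-‖z‖ ^ 2 / 2) :=
      integral_nonneg fun _ => (Real.exp_pos _).le
    simp only [Pi.smul_apply, smul_eq_mul]
    rw [← ENNReal.ofReal_mul (inv_nonneg.2 hI), neg_div, div_eq_inv_mul]

end Crest.Agent.R285
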