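import Mathlib

/-! Row 285: the parameters of the recursion. -/

set_option autoImplicit false

namespace Crest.Agent.R285

/-- Parameters of the recursion with all inequalities that are used. -/
structure Par where
  p : ℕ
  n : ℕ
  v : ℕ
  J : ℕ
  nx : ℕ
  U : ℝ
  R : ℝ
  Λ : ℝ
  P : ℝ
  G : ℝ
  δ₀ : ℝ
  εd : ℝ
  ω : ℕ → ℝ
  ξ : ℕ → ℝ
  η : ℕ → ℝ
  lam : ℕ → ℝ
  p_pos : 1 ≤ p
  p_lt : p < n
  R_nonneg : 0 ≤ R
  s_le : 20 ≤ Real.cosh R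
  Λ_ge : Real.cosh (R + 1) ≤ Λ
  P_ge : 1 ≤ P
  G_pos : 0 < G
  G_ge : 1 ≤ G
  δ₀_pos : 0 < δ₀
  δ₀_le : 2 * δ₀ * P ^ 2 ≤ 1
  εd_nonneg : 0 ≤ εd
  ω_pos : ∀ l, 0 < ω l
  ω_le : ∀ l, ω l ≤ 1
  ω_step : ∀ l, 2 * (1 + P) * Λ * ω (l + 1) ≤ ω l
  ξ_nonneg : ∀ l, 0 ≤ ξ l
  ξ_step : ∀ l, 2 * (1 + P) * Λ * ξ (l + 1) ≤ ξ l
  ξ_crude : ∀ l < p, 2 * P * Λ ≤ ξ l
  ξ_le : ∀ l, p < l → ξ l ≤ 1
  η_triv : ∀ l ≤ p, ξ l + 4 ≤ η l
  η_ge : ∀ l, 6 * (2 + P) * ξ l ≤ η l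
  lam_pos : ∀ l, 0 < lam l
  lam_ge : ∀ l ≤ n, δ₀ ≤ G * lam l
  lam_le : ∀ l ≤ n, 3 * G * lam l * P ≤ 1
  virt_noise : ∀ l' l, p ≤ l' → l' ≤ l → l ≤ n → 8 * P * G * Λ * lam l ≤ lam (l' - p) * ω l'
  virt_err : ∀ l' l, p ≤ l' → l' ≤ l → l ≤ n → 8 * P * G * Λ * lam l * η (l' - p) ≤ ξ l'
  side_noise : ∀ l, 4 * P * lam (l + 1) ≤ G * lam l
  side_err : ∀ l, 30 * P * η l ≤ G * η (l + 1)
  disc : ∀ l ≤ n, 12 * εd ≤ η l
  chain : ∀ l ≤ n, 12 * (5 / Real.cosh R) ^ J ≤ η l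
  nx_pos : 1 ≤ nx
  U_ge : 2 * nx * 3 ^ J ≤ U
  cost : ∀ l, p ≤ l → l ≤ n → (v + 2) * (l - p) + v + 1 ≤ v * l

theorem par_key {H c : ℝ} (hH : 1 ≤ H) {e i j : ℤ} (hc : c ≤ H ^ e) (h : e + i ≤ j) :
    c * H ^ i ≤ H ^ j := by
  have h0 : 0 < H := by linarith
  calc c * H ^ i ≤ H ^ e * H ^ i := by gcongr
    _ = H ^ (e + i) := (zpow_add₀ h0.ne' _ _).symm
    _ ≤ H ^ j := zpow_le_zpow_right₀ hH h

/-- The parameters as integer powers of one large number `H`. -/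
noncomputable def parOf (r J : ℕ) (hr : 4 ≤ r) (H R Λ : ℝ) (hH : 30 ≤ H) (hJ : 4 * 3 ^ J ≤ H)
    (hR : 0 ≤ R) (hs : 20 ≤ Real.cosh R) (hΛ : Real.cosh (R + 1) ≤ Λ) (hΛ' : Λ ≤ H)
    (hch : (5 / Real.cosh R) ^ J ≤ H ^ (-(8 * (r : ℤ) ^ 5))) : Par :=
  have hH1 : (1 : ℝ) ≤ H := by linarith
  have hH0 : (0 : ℝ) < H := by linarith
  have hΛ0 : 0 ≤ Λ := (Real.cosh_pos _).le.trans hΛ
  have hr' : (4 : ℤ) ≤ r := by exact_mod_cast hr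
  have hr2 : (16 : ℤ) ≤ (r : ℤ) ^ 2 := by nlinarith
  have hr3 : 4 * (r : ℤ) ^ 2 ≤ (r : ℤ) ^ 3 := by nlinarith
  have hr4 : 4 * (r : ℤ) ^ 3 ≤ (r : ℤ) ^ 4 := by nlinarith
  have hP1 : (1 : ℝ) ≤ H ^ 5 := one_le_pow₀ hH1
  have h6 : ∀ c : ℝ, c ≤ 30 → c * H ^ 5 ≤ H ^ (6 : ℤ) := fun c hc => by
    rw [show H ^ (6 : ℤ) = H * H ^ 5 by norm_cast; ring]
    gcongr
    linarith
  have h7 : ∀ c : ℝ, c ≤ 30 → c * H ^ 5 * Λ ≤ H ^ (7 : ℤ) := fun c hc => by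
    rw [show H ^ (7 : ℤ) = H ^ (6 : ℤ) * H by norm_cast]
    exact mul_le_mul (h6 c hc) hΛ' hΛ0 (by positivity)
  have h7' : 2 * (1 + H ^ 5) * Λ ≤ H ^ (7 : ℤ) :=
    le_trans (by gcongr ?_ * _; linarith) (h7 4 (by norm_num))
  have h1 : ∀ c : ℝ, c ≤ 30 → c ≤ H ^ (1 : ℤ) := fun c hc => by rw [zpow_one]; linarith
  { p := 2 * r
    n := r ^ 2
    v := r ^ 2
    J := J
    nx := ⌈H ^ 5⌉₊
    U := H ^ 7
    R := R
    Λ := Λ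
    P := H ^ 5
    G := H ^ (12 * (r : ℤ) ^ 3)
    δ₀ := H ^ (-(32 * (r : ℤ) ^ 4))
    εd := H ^ (1 - 8 * (r : ℤ) ^ 5)
    ω := fun l => H ^ (-(7 * (l : ℤ)))
    ξ := fun l => H ^ (7 + 8 * (r : ℤ) ^ 3 * (2 * r - l))
    η := fun l => H ^ (14 + 8 * (r : ℤ) ^ 3 * (2 * r - l))
    lam := fun l => H ^ (-(32 * (r : ℤ) ^ 4) + 8 * (r : ℤ) ^ 2 * (r ^ 2 - l))
    p_pos := by omega
    p_lt := by nlinarith
    R_nonneg := hR
    s_le := hs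
    Λ_ge := hΛ
    P_ge := hP1
    G_pos := by positivity
    G_ge := one_le_zpow₀ hH1 (by positivity)
    δ₀_pos := by positivity
    δ₀_le := by
      have : 2 * (H ^ 5) ^ 2 ≤ H ^ (11 : ℤ) := by
        rw [show H ^ (11 : ℤ) = H * (H ^ 5) ^ 2 by norm_cast; ring]
        gcongr
        linarith
      have := par_key hH1 this (i := -(32 * (r : ℤ) ^ 4)) (j := 0) (by linarith)
      rw [zpow_zero] at this
      linarith
    εd_nonneg := by positivity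
    ω_pos := fun l => by positivity
    ω_le := fun l => zpow_le_one_of_nonpos₀ hH1 (by omega)
    ω_step := fun l => par_key hH1 h7' (by push_cast; linarith)
    ξ_nonneg := fun l => by positivity
    ξ_step := fun l => par_key hH1 h7' (by push_cast; nlinarith)
    ξ_crude := fun l hl => by
      have hl' : (l : ℤ) < 2 * r := by exact_mod_cast hl
      refine (h7 2 (by norm_num)).trans (zpow_le_zpow_right₀ hH1 ?_)
      have : 0 ≤ 8 * (r : ℤ) ^ 3 * (2 * r - l) := mul_nonneg (by positivity) (by linarith)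
      linarith
    ξ_le := fun l hl => by
      have hl' : 2 * (r : ℤ) < l := by exact_mod_cast hl
      refine zpow_le_one_of_nonpos₀ hH1 ?_
      nlinarith
    η_triv := fun l hl => by
      have hl' : (l : ℤ) ≤ 2 * r := by exact_mod_cast hl
      have h0 : 0 ≤ 8 * (r : ℤ) ^ 3 * (2 * r - l) := mul_nonneg (by positivity) (by linarith)
      have h2 : (4 : ℝ) ≤ H ^ (7 + 8 * (r : ℤ) ^ 3 * (2 * r - l)) :=
        (h1 4 (by norm_num)).trans (zpow_le_zpow_right₀ hH1 (by linarith))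
      have h3 := par_key hH1 (h1 2 (by norm_num)) (i := 7 + 8 * (r : ℤ) ^ 3 * (2 * r - l))
        (j := 14 + 8 * (r : ℤ) ^ 3 * (2 * r - l)) (by linarith)
      linarith
    η_ge := fun l => par_key hH1 (le_trans (by linarith) (h6 18 (by norm_num))) (by linarith)
    lam_pos := fun l => by positivity
    lam_ge := fun l hl => by
      have hl' : (l : ℤ) ≤ (r : ℤ) ^ 2 := by exact_mod_cast hl
      rw [← zpow_add₀ hH0.ne']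
      refine zpow_le_zpow_right₀ hH1 ?_
      have h0 : 0 ≤ 8 * (r : ℤ) ^ 2 * (r ^ 2 - l) := mul_nonneg (by positivity) (by linarith)
      linarith
    lam_le := fun l hl => by
      have := par_key hH1 (h6 3 (by norm_num))
        (i := 12 * (r : ℤ) ^ 3 + (-(32 * (r : ℤ) ^ 4) + 8 * (r : ℤ) ^ 2 * (r ^ 2 - l))) (j := 0)
        (by nlinarith [mul_nonneg (sq_nonneg (r : ℤ)) (Int.natCast_nonneg l)])
      rw [zpow_zero, zpow_add₀ hH0.ne'] at this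
      linarith
    virt_noise := fun l' l h1 h2 h3 => by
      have h1' : 2 * (r : ℤ) ≤ l' := by exact_mod_cast h1
      have h2' : (l' : ℤ) ≤ l := by exact_mod_cast h2
      have h3' : (l : ℤ) ≤ (r : ℤ) ^ 2 := by exact_mod_cast h3
      have := par_key hH1 (h7 8 (by norm_num))
        (i := 12 * (r : ℤ) ^ 3 + (-(32 * (r : ℤ) ^ 4) + 8 * (r : ℤ) ^ 2 * (r ^ 2 - l)))
        (j := (-(32 * (r : ℤ) ^ 4) + 8 * (r : ℤ) ^ 2 * (r ^ 2 - ((l' - 2 * r : ℕ) : ℤ))) +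
          -(7 * (l' : ℤ))) (by
          rw [Nat.cast_sub h1]
          push_cast
          nlinarith [mul_nonneg (sq_nonneg (r : ℤ)) (sub_nonneg.2 h2')])
      rw [zpow_add₀ hH0.ne', zpow_add₀ hH0.ne' _ (-(7 * (l' : ℤ)))] at this
      linarith
    virt_err := fun l' l h1 h2 h3 => by
      have := par_key hH1 (h7 8 (by norm_num))
        (i := 12 * (r : ℤ) ^ 3 + (-(32 * (r : ℤ) ^ 4) + 8 * (r : ℤ) ^ 2 * (r ^ 2 - l)) +
          (14 + 8 * (r : ℤ) ^ 3 * (2 * r - ((l' - 2 * r : ℕ) : ℤ))))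
        (j := 7 + 8 * (r : ℤ) ^ 3 * (2 * r - l')) (by
          rw [Nat.cast_sub h1]
          push_cast
          nlinarith [mul_nonneg (sq_nonneg (r : ℤ)) (Int.natCast_nonneg l)])
      rw [zpow_add₀ hH0.ne', zpow_add₀ hH0.ne'] at this
      linarith
    side_noise := fun l => by
      rw [← zpow_add₀ hH0.ne']
      exact par_key hH1 (h6 4 (by norm_num)) (by push_cast; nlinarith)
    side_err := fun l => by
      rw [← zpow_add₀ hH0.ne']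
      exact par_key hH1 (h6 30 (by norm_num)) (by push_cast; nlinarith)
    disc := fun l hl => by
      have hl' : (l : ℤ) ≤ (r : ℤ) ^ 2 := by exact_mod_cast hl
      refine par_key hH1 (h1 12 (by norm_num)) ?_
      nlinarith [mul_nonneg (pow_nonneg (Int.natCast_nonneg r) 3) (sub_nonneg.2 hl')]
    chain := fun l hl => by
      have hl' : (l : ℤ) ≤ (r : ℤ) ^ 2 := by exact_mod_cast hl
      refine le_trans (by gcongr) (par_key hH1 (h1 12 (by norm_num))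
        (i := -(8 * (r : ℤ) ^ 5)) ?_)
      nlinarith [mul_nonneg (pow_nonneg (Int.natCast_nonneg r) 3) (sub_nonneg.2 hl')]
    nx_pos := Nat.one_le_iff_ne_zero.2 (Nat.ceil_pos.2 (by positivity)).ne'
    U_ge := by
      have h2 : (⌈H ^ 5⌉₊ : ℝ) ≤ 2 * H ^ 5 := by
        have := Nat.ceil_lt_add_one (a := H ^ 5) (by positivity)
        linarith
      calc 2 * (⌈H ^ 5⌉₊ : ℝ) * 3 ^ J ≤ 2 * (2 * H ^ 5) * 3 ^ J := by gcongr
        _ = (4 * 3 ^ J) * H ^ 5 := by ring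
        _ ≤ H * H ^ 5 := by gcongr
        _ = H ^ 6 := by ring
        _ ≤ H ^ 7 := pow_le_pow_right₀ hH1 (by norm_num)
    cost := fun l h1 h2 => by
      obtain ⟨m, rfl⟩ := Nat.exists_eq_add_of_le h1
      rw [Nat.add_sub_cancel_left]
      nlinarith }

theorem exists_par (A : ℕ) : ∃ k : ℕ, 1 ≤ k ∧ ∀ (C : ℝ) (N : ℕ), 1 ≤ C →
    ∃ δ₁ : ℝ, 0 < δ₁ ∧ ∀ δ₀ : ℝ, 0 < δ₀ → δ₀ ≤ δ₁ → ∃ (M : ℕ) (h : ℝ) (Q : Par),
      Q.δ₀ = δ₀ ∧ 0 < M ∧ 0 < h ∧ C * h ≤ 1 ∧ Q.R = M * h ∧ C * Q.Λ ^ N / h ^ 4 ≤ Q.P ∧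
      Q.P ≤ Q.nx ∧ C * Q.Λ ^ N * h ^ k ≤ Q.εd ∧ Q.U ^ (Q.v * Q.n + 1) ≤ δ₀⁻¹ ∧
      Q.η Q.n ≤ δ₀ ^ A := by
  obtain ⟨r, hrA⟩ : ∃ r : ℕ, r = 4 * A + 4 := ⟨_, rfl⟩
  have hr : 4 ≤ r := by omega
  have hr0 : 0 < r := by omega
  refine ⟨8 * r ^ 5, Nat.one_le_iff_ne_zero.2 (by positivity), fun C N hC => ?_⟩
  obtain ⟨a, ha⟩ : ∃ a : ℕ, a = 2 * N + 2 := ⟨_, rfl⟩
  obtain ⟨J, hJ⟩ : ∃ J : ℕ, J = 2 * (a * (8 * r ^ 5)) := ⟨_, rfl⟩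
  obtain ⟨m, hm⟩ : ∃ m : ℕ, m = a * (32 * r ^ 4) := ⟨_, rfl⟩
  have hm0 : m ≠ 0 := by rw [hm, ha]; positivity
  obtain ⟨L₀, hL₀⟩ : ∃ L₀ : ℝ, L₀ = 100 + C + 4 * 3 ^ J := ⟨_, rfl⟩
  have h3J : (0 : ℝ) < 4 * 3 ^ J := by positivity
  have hL₀0 : 0 < L₀ := by linarith
  refine ⟨(L₀ ^ m)⁻¹, by positivity, fun δ₀ h0 h1 => ?_⟩
  obtain ⟨L, hL0, hLm⟩ : ∃ L : ℝ, 0 ≤ L ∧ L ^ m = δ₀⁻¹ :=
    ⟨δ₀⁻¹ ^ ((m : ℝ)⁻¹), by positivity, Real.rpow_inv_natCast_pow (by positivity) hm0⟩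
  have hL : L₀ ≤ L := by
    refine le_of_pow_le_pow_left₀ hm0 hL0 ?_
    rw [hLm]
    exact (le_inv_comm₀ h0 (by positivity)).1 h1
  have hL100 : 100 ≤ L := by linarith
  have hL1 : 1 ≤ L := by linarith
  have hLpos : 0 < L := by linarith
  obtain ⟨H, hH⟩ : ∃ H : ℝ, H = L ^ a := ⟨_, rfl⟩
  have hH2 : L ^ 2 ≤ H := hH ▸ pow_le_pow_right₀ hL1 (by omega)
  have hLH : L ≤ H := le_trans (by nlinarith) hH2
  have hH1 : 1 ≤ H := by linarith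
  have hH0 : 0 < H := by linarith
  have hlog : 0 < Real.log L := Real.log_pos (by linarith)
  obtain ⟨M, hM⟩ : ∃ M : ℕ, M = ⌈H * Real.log L⌉₊ := ⟨_, rfl⟩
  have hM1 : Real.log L ≤ M * H⁻¹ := by
    rw [← div_eq_mul_inv, le_div_iff₀ hH0, mul_comm, hM]
    exact Nat.le_ceil _
  have hM2 : M * H⁻¹ ≤ Real.log L + 1 := by
    rw [← div_eq_mul_inv, div_le_iff₀ hH0, hM]
    have := Nat.ceil_lt_add_one (a := H * Real.log L) (by positivity)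
    nlinarith
  have hcosh : L / 2 ≤ Real.cosh (M * H⁻¹) := by
    rw [Real.cosh_eq]
    have h2 : L ≤ Real.exp (M * H⁻¹) := by
      rw [← Real.exp_log hLpos]
      exact Real.exp_le_exp.2 hM1
    have h3 := Real.exp_pos (-(M * H⁻¹))
    linarith
  have hcosh' : Real.cosh (M * H⁻¹ + 1) ≤ L ^ 2 := by
    rw [Real.cosh_eq]
    have h2 : Real.exp (-(M * H⁻¹ + 1)) ≤ Real.exp (M * H⁻¹ + 1) :=
      Real.exp_le_exp.2 (by linarith)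
    have h3 : Real.exp (M * H⁻¹ + 1) ≤ Real.exp (Real.log L + 1 + 1) :=
      Real.exp_le_exp.2 (by linarith)
    rw [Real.exp_add (Real.log L + 1), Real.exp_add (Real.log L), Real.exp_log hLpos] at h3
    have h4 : Real.exp 1 ≤ 3 := Real.exp_one_lt_d9.le.trans (by norm_num)
    have h5 : L * Real.exp 1 * Real.exp 1 ≤ L * 3 * 3 := by gcongr
    nlinarith
  have hch : (5 / Real.cosh (M * H⁻¹)) ^ J ≤ H ^ (-(8 * (r : ℤ) ^ 5)) := by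
    have h2 : (5 / Real.cosh (M * H⁻¹)) ^ 2 ≤ L⁻¹ := by
      have h3 : 5 / Real.cosh (M * H⁻¹) ≤ 10 / L := by
        rw [div_le_div_iff₀ (Real.cosh_pos _) hLpos]
        linarith
      calc (5 / Real.cosh (M * H⁻¹)) ^ 2 ≤ (10 / L) ^ 2 := by
            have := Real.cosh_pos (M * H⁻¹)
            gcongr
        _ = (100 / L) * L⁻¹ := by field_simp; norm_num
        _ ≤ 1 * L⁻¹ := by gcongr; exact (div_le_one hLpos).2 hL100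
        _ = L⁻¹ := one_mul _
    calc (5 / Real.cosh (M * H⁻¹)) ^ J = ((5 / Real.cosh (M * H⁻¹)) ^ 2) ^ (a * (8 * r ^ 5)) := by
          rw [hJ, pow_mul]
      _ ≤ L⁻¹ ^ (a * (8 * r ^ 5)) := by gcongr
      _ = H ^ (-(8 * (r : ℤ) ^ 5)) := by
          rw [inv_pow, pow_mul, ← hH, zpow_neg]
          norm_cast
  have hCL : C * (L ^ 2) ^ N ≤ H := by
    rw [hH, ha, ← pow_mul, pow_add, mul_comm]
    gcongr
    nlinarith
  have hδ : H ^ (-(32 * (r : ℤ) ^ 4)) = δ₀ := by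
    rw [← inv_inv δ₀, ← hLm, hm, pow_mul, ← hH, zpow_neg]
    norm_cast
  have hr' : (4 : ℤ) ≤ r := by exact_mod_cast hr
  have hr2 : (16 : ℤ) ≤ (r : ℤ) ^ 2 := by nlinarith
  have hr4 : (1 : ℤ) ≤ (r : ℤ) ^ 4 := by nlinarith
  refine ⟨M, H⁻¹, parOf r J hr H (M * H⁻¹) (L ^ 2) (by linarith) (by linarith) (by positivity)
    (by linarith) hcosh' hH2 hch, hδ, ?_, by positivity, ?_, rfl, ?_, Nat.le_ceil _, ?_, ?_, ?_⟩
  · rw [hM]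
    exact Nat.ceil_pos.2 (by positivity)
  · rw [← div_eq_mul_inv, div_le_one hH0]
    linarith
  · show C * (L ^ 2) ^ N / H⁻¹ ^ 4 ≤ H ^ 5
    calc C * (L ^ 2) ^ N / H⁻¹ ^ 4 = C * (L ^ 2) ^ N * H ^ 4 := by field_simp
      _ ≤ H * H ^ 4 := by gcongr
      _ = H ^ 5 := by ring
  · show C * (L ^ 2) ^ N * H⁻¹ ^ (8 * r ^ 5) ≤ H ^ (1 - 8 * (r : ℤ) ^ 5)
    rw [show H⁻¹ ^ (8 * r ^ 5) = H ^ (-(8 * (r : ℤ) ^ 5)) by rw [inv_pow, zpow_neg]; norm_cast]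
    exact par_key hH1 (e := 1) (by rwa [zpow_one]) (by linarith)
  · show (H ^ 7) ^ (r ^ 2 * r ^ 2 + 1) ≤ δ₀⁻¹
    rw [← hδ, ← zpow_neg, ← pow_mul, ← zpow_natCast]
    refine zpow_le_zpow_right₀ hH1 ?_
    push_cast
    nlinarith
  · show H ^ (14 + 8 * (r : ℤ) ^ 3 * (2 * r - ((r ^ 2 : ℕ) : ℤ))) ≤ δ₀ ^ A
    rw [← hδ, ← zpow_natCast, ← zpow_mul]
    refine zpow_le_zpow_right₀ hH1 ?_
    have hA : (r : ℤ) = 4 * A + 4 := by exact_mod_cast hrA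
    have : (r : ℤ) ^ 5 = (4 * A + 4) * (r : ℤ) ^ 4 := by rw [← hA]; ring
    push_cast
    nlinarith

end Crest.Agent.R285
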