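import Crest.Agent.R285.RecB

/-! Row 285: the recursion. -/

set_option autoImplicit false

open MeasureTheory ProbabilityTheory Crest.OracleSampling
open scoped ENNReal NNReal

namespace Crest.Agent.R285

namespace Par

variable {Q : Par} {d : ℕ} {X : Type} {b : (E d → ℝ) → X → E d} {t Y : ℝ}
  {N : (E d → ℝ) → X → ℝ}

lemma cen_lip (ht : 0 < t) {r : ℝ} {F : Fn d} (V : E d → ℝ) (x : X) (g : E d)
    (hF : ∀ w w', ‖F (uu (resc V (b V x) t)) w - F (uu (resc V (b V x) t)) w'‖ ≤ ‖w - w'‖) :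
    LipschitzWith 2 fun y => cen b t r 1 0 F V (x, y, g) := by
  refine LipschitzWith.of_dist_le_mul fun y y' => ?_
  have hs : 0 < √t := Real.sqrt_pos.2 ht
  have h1 := hF (zg b t V (x, y, g)) (zg b t V (x, y', g))
  have h2 := norm_fst_le (zg b t V (x, y, g) - zg b t V (x, y', g))
  rw [zg_dist] at h1 h2
  simp only [dist_eq_norm, cen, add_sub_add_left_eq_sub, ← smul_sub, norm_smul, one_smul,
    zero_smul, add_zero, Real.norm_of_nonneg hs.le, NNReal.coe_ofNat]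
  rw [add_sub_add_comm]
  have h3 := (norm_add_le _ _).trans (add_le_add h2 h1)
  calc _ ≤ √t * (1 * ((√t)⁻¹ * ‖y - y'‖ + (√t)⁻¹ * ‖y - y'‖)) := by
        gcongr
        · exact (Real.abs_tanh_lt_one r).le
        · exact h3
    _ = _ := by field_simp; ring

variable [MeasurableSpace X]

lemma chain_fam {ℓ : ℕ} {Mx : ℝ} {F : Fn d} (h : Q.Good d b t N) (hℓ : ℓ ≤ Q.n)
    (hA : Q.AccFam d Y ℓ X b t N) (hMx : 0 < Mx) (hMx' : t * Mx ≤ 2 * Q.G * Q.lam ℓ * Q.P)
    (hg : Q.Gro t 1 0 F) (hF : Q.NLA ℓ Y b t N Mx Q.nx F) :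
    Q.AccFam d (2 * Y) ℓ (X × E d × E d) (cen b t Q.R 1 0 F) (t * (1 - Real.tanh Q.R ^ 2))
      (nxt b t N) := by
  have hs : 0 < √t := Real.sqrt_pos.2 h.pos
  have key : ∀ a : ℝ, 0 ≤ a →
      2 * (|1 - Real.tanh Q.R * 1| * (a * √t)) ≤ a * √(t * (1 - Real.tanh Q.R ^ 2)) := by
    intro a ha
    have h0 := rec_tanh_nonneg Q.R_nonneg
    have h1 := (Real.tanh_lt_one Q.R).le
    have h2 : (Real.cosh Q.R)⁻¹ * (Real.cosh Q.R)⁻¹ = 1 - Real.tanh Q.R ^ 2 := by
      rw [← rec_sqrt_chi, Real.mul_self_sqrt (rec_chi_pos _).le]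
    have h3 : (Real.cosh Q.R)⁻¹ ≤ 1 / 2 := by
      rw [inv_le_comm₀ (Real.cosh_pos _) (by norm_num)]; linarith [Q.s_le]
    have h4 := inv_pos.2 (Real.cosh_pos Q.R)
    have h5 : 2 * (1 - Real.tanh Q.R) ≤ (Real.cosh Q.R)⁻¹ := by nlinarith
    rw [mul_one, abs_of_nonneg (by linarith), rec_sqrt_mul h.pos]
    nlinarith [mul_le_mul_of_nonneg_right h5 (mul_nonneg ha hs.le)]
  refine centre_fam h hℓ le_rfl hA.one_le le_rfl hMx hMx' Q.R_nonneg (by linarith) hg hF
    fun l' hl' _ => ?_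
  obtain ⟨q, hq, a⟩ := hA l' hl'
  exact ⟨q, _, Q.ξ l' * √t, hq, (mul_pos (Q.ω_pos _) hs).le, mul_nonneg (Q.ξ_nonneg _) hs.le, a,
    key _ (Q.ω_pos _).le, key _ (Q.ξ_nonneg _)⟩

lemma MS.mono {ℓ : ℕ} {c c' e e' : ℝ} (h : Q.MS d ℓ c e) (hc : c ≤ c') (he : e ≤ e') :
    Q.MS d ℓ c' e' := by
  intro X _ b t N σ Y hg hA hσ hσ'
  obtain ⟨q, hq, a⟩ := h X b t N σ Y hg hA hσ hσ'
  have := hA.one_le
  have := two_le_U (Q := Q)
  exact ⟨q, hq.trans (by gcongr), a.mono le_rfl (fun _ _ _ => rfl) hσ.le le_rfl fun V hV x => by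
    have := hg.nonneg V hV x; gcongr⟩

lemma ms_triv (ℓ : ℕ) : Q.MS d ℓ 1 (Q.ξ ℓ + 4) := by
  intro X _ b t N σ Y hg hA hσ _
  obtain ⟨q, hq, a⟩ := hA ℓ le_rfl
  have := hA.one_le
  have hU : 1 ≤ Q.U := by linarith [two_le_U (Q := Q)]
  have := Q.ξ_nonneg ℓ
  refine ⟨q + 1, ?_, (a.grad (v' := fun V x => mn V (b V x) t) (e' := fun V x => 8 * √t * N V x)
    (fun V hV x => by have := hg.nonneg V hV x; positivity)
    (fun V hV x => by have := hg.nonneg V hV x; positivity)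
    (fun V hV x => rec_triv_err hV _ hg.pos hg.four (hg.size V hV x) (Q.ω_pos ℓ).le (Q.ω_le ℓ))
    σ).mono le_rfl (fun _ _ _ => rfl) hσ.le le_rfl fun V _ x => le_of_eq (by ring)⟩
  push_cast
  rw [one_mul]
  exact hq.trans (by gcongr; omega)

lemma ms_step (hC : Circ d Q.R Q.P Q.εd Q.nx) {ℓ : ℕ} (hp : Q.p < ℓ) (hℓ : ℓ ≤ Q.n)
    (IH : ∀ l < ℓ, Q.MS d l (3 ^ Q.J) (Q.η l)) {c e : ℝ} (he : 0 ≤ e) (hM : Q.MS d ℓ c e) :
    Q.MS d ℓ (2 * c + 1) (5 / Real.cosh Q.R * e + Q.η ℓ / 2) := by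
  intro X _ b t N σ Y hg hA hσ hσ'
  obtain ⟨l, rfl⟩ : ∃ l, ℓ = l + 1 := ⟨ℓ - 1, by omega⟩
  have hY := hA.one_le
  have hU := two_le_U (Q := Q)
  have ht := hg.pos
  have hs : 0 < √t := Real.sqrt_pos.2 ht
  have hss := Real.mul_self_sqrt ht.le
  have hG := Q.G_ge
  have hP := Q.P_ge
  have hlam := Q.lam_pos (l + 1)
  have hcosh := Q.s_le
  have hη := η_nonneg (Q := Q) l
  obtain ⟨κ, hκ⟩ : ∃ κ, κ = 2 / (σ * √t) := ⟨_, rfl⟩
  have hκ0 : 0 < κ := by rw [hκ]; positivity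
  have hκt : κ * t ≤ Q.lam (l + 1) := by
    rw [hκ, div_mul_eq_mul_div, div_le_iff₀ (by positivity)]
    nlinarith [mul_le_mul_of_nonneg_right hσ' hs.le]
  have hδ : 2 * t ≤ Q.G * Q.lam (l + 1) := hg.le.trans (Q.lam_ge _ hℓ)
  have hKt : Q.G * κ * t ≤ Q.G * Q.lam (l + 1) := by rw [mul_assoc]; gcongr
  obtain ⟨Fz, Fs, hFz, hFs, hW⟩ := hC κ (Q.G * κ) (2 * t) hκ0.le
    (le_mul_of_one_le_left hκ0.le hG) (by positivity) (by positivity)
    (le_trans (by gcongr ?_ * _; linarith) (Q.lam_le _ hℓ))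
  have hMx' : t * ((1 + Q.G * κ) * Q.P) ≤ 2 * Q.G * Q.lam (l + 1) * Q.P := by
    rw [← mul_assoc]; gcongr ?_ * _; linarith
  have hgro : Q.Gro t 1 0 Fz := fun W hW' x => by simpa using (hW W hW').1 x
  have hz := nl_acc hg hℓ hA IH (by positivity) hMx' hFz
  have hside := nl_acc hg hℓ hA IH (by positivity) hMx' hFs
  have hm : κ / (Q.G * κ) * Q.P = Q.P / Q.G := by field_simp
  rw [hm] at hside
  obtain ⟨q₂, hq₂, a₂⟩ := hside l (by omega) (σ / (4 * (Q.P / Q.G))) (by positivity) (by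
    refine hσ'.trans ?_
    rw [← mul_div_assoc, le_div_iff₀ (by positivity), ← mul_div_assoc, ← mul_div_assoc,
      div_le_iff₀ (by positivity)]
    nlinarith [mul_le_mul_of_nonneg_right (Q.side_noise l) hσ.le])
  have hg' := hg.cen Q.R_nonneg hgro
  have hci : (Real.cosh Q.R)⁻¹ ≤ 1 / 4 := by
    rw [inv_le_comm₀ (Real.cosh_pos _) (by norm_num)]; linarith
  have hci0 := inv_pos.2 (Real.cosh_pos Q.R)
  obtain ⟨q₁, hq₁, a₁⟩ := hM _ _ _ _ (σ / 4) _ hg' (chain_fam hg hℓ hA (by positivity) hMx' hgro hz)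
    (by positivity) (by rw [rec_sqrt_mul ht]; nlinarith [mul_le_mul_of_nonneg_left hci hs.le])
  obtain ⟨q₀, hq₀, a₀⟩ := hA (l + 1) le_rfl
  have hξ := Q.ξ_nonneg (l + 1)
  have hε := Q.εd_nonneg
  have hw : Measurable fun x : X × E d × E d => (σ / 2) • x.2.2 := by fun_prop
  have a₃ : Acc d (0 + q₁ + q₂) (X × E d × E d) (fun V x => (σ / 2) • x.2.2 +
      mn V (cen b t Q.R 1 0 Fz V x) (t * (1 - Real.tanh Q.R ^ 2)) + virt b t Fs V x) (σ / 2)
      fun V x => (e * (2 * √t * (Real.cosh Q.R)⁻¹) + Q.P / Q.G * Q.η l * (2 * √t)) *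
        nxt b t N V x :=
    (((Acc.crude hw (fun _ x => (σ / 2) • x.2.2) 0).add a₁ le_rfl (by positivity)
      (fun _ _ _ => norm_nonneg _) fun V hV x => by have := hg'.nonneg V hV x; positivity).add a₂
      (by positivity) (by positivity) (fun V hV x => by have := hg'.nonneg V hV x; positivity)
      fun V hV x => by have := hg'.nonneg V hV x; positivity).mono le_rfl (fun _ _ _ => rfl)
      (by positivity) (le_of_eq (by field_simp; ring)) fun V _ x => le_of_eq (by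
        rw [sub_self, norm_zero, rec_sqrt_mul ht]; ring)
  have a₄ := rec_step (T' := fun V x => gauss (mn V (b V x) t) √((σ / 2) ^ 2 + (σ / 2) ^ 2))
    (e' := fun V x => 4 * Q.εd * √t * N V x) ht hξ (Q.ξ_le _ hp) (by positivity) hg.sqrt_le
    (fun V hV x => by have := hg.nonneg V hV x; positivity)
    (a₀.mono le_rfl (fun _ _ _ => rfl) (mul_pos (Q.ω_pos _) hs).le
      (mul_le_of_le_one_left hs.le (Q.ω_le _)) fun _ _ _ => le_rfl) a₃ (4 + 2 * Q.P).toNNReal
    (fun V hV x L f hf g => ?_) fun V hV x L f hf => ?_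
  · refine ⟨q₀ + (0 + q₁ + q₂), ?_, Acc.mono a₄ le_rfl (fun _ _ _ => rfl) (Real.sqrt_nonneg _)
      (Real.sqrt_le_iff.2 ⟨hσ.le, by nlinarith⟩) fun V hV x => ?_⟩
    · have h1 : (q₂ : ℝ) ≤ Y * Q.U ^ ((Q.v + 2) * l + Q.v + 1) :=
        calc (q₂ : ℝ) ≤ _ := hq₂
          _ = 2 * Q.nx * 3 ^ Q.J * (Y * Q.U ^ ((Q.v + 2) * l + Q.v)) := by ring
          _ ≤ Q.U * (Y * Q.U ^ ((Q.v + 2) * l + Q.v)) := by gcongr; exact Q.U_ge
          _ = _ := by ring
      have h2 : Y * Q.U ^ (Q.v * (l + 1)) ≤ Y * Q.U ^ ((Q.v + 2) * l + Q.v + 1) := by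
        gcongr
        · linarith
        · nlinarith
      have h3 : Y * Q.U ^ ((Q.v + 2) * (l + 1)) = Q.U * (Y * Q.U ^ ((Q.v + 2) * l + Q.v + 1)) := by
        ring
      have h4 : 2 * (Y * Q.U ^ ((Q.v + 2) * l + Q.v + 1)) ≤
          Q.U * (Y * Q.U ^ ((Q.v + 2) * l + Q.v + 1)) := by gcongr
      push_cast
      nlinarith
    · have hN : 0 ≤ √t * N V x := mul_nonneg hs.le (hg.nonneg V hV x)
      have h1 := mul_le_mul_of_nonneg_right (Q.disc _ hℓ) hN
      have h2 := mul_le_mul_of_nonneg_right (Q.η_ge (l + 1)) hN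
      have h3 : 30 * (Q.P / Q.G * Q.η l) ≤ Q.η (l + 1) := by
        rw [div_mul_eq_mul_div, ← mul_div_assoc, div_le_iff₀ (by positivity)]
        linarith [Q.side_err l]
      have h4 := mul_le_mul_of_nonneg_right h3 hN
      rw [Real.coe_toNNReal _ (by positivity), div_eq_mul_inv 5]
      nlinarith
  · obtain ⟨-, l₁, l₂, -⟩ := hW _ (rec_pot hV (b V x) ht)
    simp only [lintegral_gauss _ _ hf.measurable]
    refine (LipE.lintegral (gam d) (f := fun a ξ => f (a + (σ / 2) • ξ))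
      fun ξ => hf.comp_add _).comp_lip (LipschitzWith.of_dist_le_mul fun y y' => ?_)
    have h1 := (cen_lip (r := Q.R) ht V x g l₁).dist_le_mul y y'
    have h2 := lip_mn (pot_of_admissible hV) zero_le_one zero_le_two hg'.pos
      (cen b t Q.R 1 0 Fz V (x, y, g)) (cen b t Q.R 1 0 Fz V (x, y', g))
    have h3 : ‖virt b t Fs V (x, y, g) - virt b t Fs V (x, y', g)‖ ≤ 2 * Q.P * ‖y - y'‖ := by
      have := l₂ (zg b t V (x, y, g)) (zg b t V (x, y', g))
      rw [zg_dist] at this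
      rw [virt, virt, ← smul_sub, norm_smul, norm_inv, Real.norm_of_nonneg hs.le]
      refine (mul_le_mul_of_nonneg_left this (by positivity)).trans_eq ?_
      field_simp
      rw [Real.sq_sqrt ht.le, mul_comm]
    simp only [dist_eq_norm, NNReal.coe_ofNat] at h1 ⊢
    rw [Real.coe_toNNReal _ (by positivity), add_sub_add_comm, add_sub_add_left_eq_sub]
    refine (norm_add_le _ _).trans ?_
    linarith
  · have hWp := rec_pot hV (b V x) ht
    obtain ⟨-, l₁, l₂, Ψ, hΨ, hmap, -, herr⟩ := hW _ hWp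
    have c₁ : Continuous (Fz (uu (resc V (b V x) t))) :=
      (LipschitzWith.of_dist_le' (K := 1) fun y y' => by
        simpa [dist_eq_norm] using l₁ y y').continuous
    have c₂ : Continuous (Fs (uu (resc V (b V x) t))) :=
      (LipschitzWith.of_dist_le' (K := 2 * t * Q.P) fun y y' => by
        simpa [dist_eq_norm] using l₂ y y').continuous
    have c₃ : Continuous (uu (resc V (b V x) t) Q.R) :=
      (LipschitzWith.of_dist_le' (K := 2 * t) fun y y' => by
        simpa [dist_eq_norm] using uu_lip hWp (by positivity) Q.R y y').continuous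
    have hB : LipE L fun a => ∫⁻ ξ, f (a + (σ / 2) • ξ) ∂(gam d) :=
      LipE.lintegral (gam d) (f := fun a ξ => f (a + (σ / 2) • ξ)) fun ξ => hf.comp_add _
    have hBm : Measurable fun w : E d × E d =>
        ∫⁻ ξ, f (mn V (b V x) t + (σ / 2) • w.2 + (σ / 2) • ξ) ∂(gam d) :=
      hB.measurable.comp (f := fun w : E d × E d => mn V (b V x) t + (σ / 2) • w.2) (by fun_prop)
    simp only [lintegral_gauss _ _ hf.measurable]
    refine (rec_transport hΨ hBm
      (err := fun w => w.2 + κ • (uu (resc V (b V x) t) Q.R (w.1 + Fz (uu (resc V (b V x) t)) w) +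
        Fs (uu (resc V (b V x) t)) w) - (κ • mn (resc V (b V x) t) 0 1 + (Ψ w).2))
      (by have := c₁.measurable; have := c₂.measurable; have := c₃.measurable; fun_prop)
      (L := L * ENNReal.ofReal (σ / 2)) fun z g =>
        (hB _ (mn V (b V x) t + (σ / 2) • (Ψ (z, g)).2)).trans_eq ?_).trans (add_le_add ?_ ?_)
    · have e1 : σ / 2 * (κ * √t) = 1 := by rw [hκ]; field_simp
      have e2 : σ / 2 * κ = (√t)⁻¹ := by rw [hκ]; field_simp
      rw [edist_eq_enorm_sub, mul_assoc, ← Real.enorm_of_nonneg (by positivity), ← enorm_smul]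
      congr 3
      simp only [cen, virt, zg_eval b ht, rec_uu hV _ ht, rec_mn0 hV _ ht, smul_add, smul_sub,
        smul_smul, e1, e2, one_smul, zero_smul, add_zero]
      abel
    · have := isProb_pz hWp Q.R
      rw [hmap, pp, lintegral_prod _ hBm.aemeasurable]
      dsimp only
      rw [lintegral_const, measure_univ, mul_one,
        ← lintegral_gam_add _ _ (hf.comp_add_left (mn V (b V x) t)).measurable]
      simp only [add_assoc, le_refl]
    · rw [mul_assoc]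
      gcongr
      refine (mul_le_mul_right herr _).trans ?_
      rw [← ENNReal.ofReal_mul (by positivity)]
      refine ENNReal.ofReal_le_ofReal ?_
      have h1 := rec_MM_le hV (b V x) ht hg.four (hg.size V hV x)
      have e1 : σ / 2 * (κ * (2 * t) * Q.εd * MM (resc V (b V x) t)) =
          2 * Q.εd * √t * MM (resc V (b V x) t) := by
        rw [hκ]; field_simp; rw [Real.sq_sqrt ht.le, mul_comm]
      rw [e1]
      nlinarith [mul_le_mul_of_nonneg_left h1 (by positivity : 0 ≤ 2 * Q.εd * √t)]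

lemma five_div_le : 5 / Real.cosh Q.R ≤ 1 / 4 := by
  rw [div_le_iff₀ (Real.cosh_pos _)]; linarith [Q.s_le]

lemma ms_all (hC : Circ d Q.R Q.P Q.εd Q.nx) (ℓ : ℕ) (hℓ : ℓ ≤ Q.n) :
    Q.MS d ℓ (3 ^ Q.J) (Q.η ℓ) := by
  induction ℓ using Nat.strong_induction_on with
  | _ ℓ ih =>
    rcases le_or_gt ℓ Q.p with hp | hp
    · exact (ms_triv ℓ).mono (one_le_pow₀ (by norm_num)) (Q.η_triv ℓ hp)
    have hη := η_nonneg (Q := Q) ℓ
    have h0 : 0 ≤ 5 / Real.cosh Q.R := by have := Real.cosh_pos Q.R; positivity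
    have key : ∀ j : ℕ, Q.MS d ℓ (3 ^ j) (4 * (5 / Real.cosh Q.R) ^ j + 2 / 3 * Q.η ℓ) := by
      intro j
      induction j with
      | zero =>
        refine (ms_triv ℓ).mono (by simp) ?_
        nlinarith [Q.η_ge ℓ, Q.ξ_nonneg ℓ, Q.P_ge]
      | succ j ihj =>
        refine (ms_step hC hp hℓ (fun l hl => ih l hl (by omega)) (by positivity) ihj).mono ?_ ?_
        · have : (1 : ℝ) ≤ 3 ^ j := one_le_pow₀ (by norm_num)
          rw [pow_succ]; linarith
        · rw [pow_succ]; nlinarith [mul_le_mul_of_nonneg_right (five_div_le (Q := Q)) hη]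
    exact (key Q.J).mono le_rfl (by linarith [Q.chain ℓ hℓ])

variable (Q d) in
/-- The statement on sampling. -/
def SS (c e : ℝ) : Prop :=
  ∀ (X : Type) [MeasurableSpace X] (b : (E d → ℝ) → X → E d) (t : ℝ) (N : (E d → ℝ) → X → ℝ)
    (Y : ℝ), Q.Good d b t N → Q.AccFam d Y Q.n X b t N →
    ∃ q : ℕ, (q : ℝ) ≤ c * Y * Q.U ^ (Q.v * Q.n) ∧
      Sam d q X (fun V x => nu V (b V x) t) fun V x => e * (√t * N V x)

lemma SS.mono {c c' e e' : ℝ} (h : Q.SS d c e) (hc : c ≤ c') (he : e ≤ e') : Q.SS d c' e' := by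
  intro X _ b t N Y hg hA
  obtain ⟨q, hq, a⟩ := h X b t N Y hg hA
  have := hA.one_le
  have := two_le_U (Q := Q)
  exact ⟨q, hq.trans (by gcongr), a.mono le_rfl (fun _ _ _ => rfl) fun V hV x => by
    have := hg.nonneg V hV x; gcongr⟩

lemma ss_triv : Q.SS d 1 5 := by
  intro X _ b t N Y hg hA
  obtain ⟨q, hq, a⟩ := hA Q.n le_rfl
  have := Q.ξ_nonneg Q.n
  refine ⟨q, by linarith, (Sam.trans a (e' := fun V x => 4 * √t * N V x)
    (fun V hV x => by have := hg.nonneg V hV x; positivity)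
    (fun V hV x => by have := hg.nonneg V hV x; positivity)
    fun V hV x L f hf => rec_gauss_nu hV _ hg.pos hg.four (hg.size V hV x) (Q.ω_pos _).le
      (Q.ω_le _) hf).mono le_rfl (fun _ _ _ => rfl) fun V hV x => ?_⟩
  have hN : 0 ≤ √t * N V x := mul_nonneg (Real.sqrt_nonneg _) (hg.nonneg V hV x)
  nlinarith [mul_le_mul_of_nonneg_right (Q.ξ_le _ Q.p_lt) hN]

lemma ss_step (hC : Circ d Q.R Q.P Q.εd Q.nx) {c e : ℝ} (he : 0 ≤ e) (hS : Q.SS d c e) :
    Q.SS d (2 * c + 1) (5 / Real.cosh Q.R * e + Q.η Q.n / 3) := by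
  intro X _ b t N Y hg hA
  have hY := hA.one_le
  have ht := hg.pos
  have hs : 0 < √t := Real.sqrt_pos.2 ht
  have hP := Q.P_ge
  have hδ : 2 * t ≤ Q.G * Q.lam Q.n := hg.le.trans (Q.lam_ge _ le_rfl)
  obtain ⟨Fz, Fs, hFz, -, hW⟩ := hC 0 1 (2 * t) le_rfl zero_le_one one_pos (by positivity) (by
    have h1 := mul_le_mul_of_nonneg_right hg.le (by linarith : 0 ≤ Q.P)
    have h2 : Q.δ₀ * Q.P ≤ Q.δ₀ * Q.P ^ 2 := by
      have := Q.δ₀_pos; gcongr; nlinarith
    linarith [Q.δ₀_le])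
  have hMx' : t * ((1 + 1) * Q.P) ≤ 2 * Q.G * Q.lam Q.n * Q.P := by
    rw [← mul_assoc]; gcongr ?_ * _; linarith
  have hgro : Q.Gro t 1 0 Fz := fun W hW' x => by simpa using (hW W hW').1 x
  have hz := nl_acc hg le_rfl hA (fun l hl => ms_all hC l hl.le) (by positivity) hMx' hFz
  have hg' := hg.cen Q.R_nonneg hgro
  have hci0 := inv_pos.2 (Real.cosh_pos Q.R)
  obtain ⟨q₁, hq₁, a₁⟩ := hS _ _ _ _ _ hg' (chain_fam hg le_rfl hA (by positivity) hMx' hgro hz)
  obtain ⟨q₀, hq₀, a₀⟩ := hA Q.n le_rfl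
  have hξ := Q.ξ_nonneg Q.n
  have hε := Q.εd_nonneg
  have hB : ∀ V, Admissible d V → ∀ (L : ℝ≥0) (f : E d → ℝ≥0∞), LipE L f →
      LipE L fun a => ∫⁻ w, f w ∂(nu V a (t * (1 - Real.tanh Q.R ^ 2))) := fun V hV L f hf => by
    simpa using lipE_mean ((pot_of_admissible hV).weaken zero_le_one le_rfl) le_rfl hg'.pos hf
  have a₄ := rec_step (T' := fun V x => nu V (b V x) t) (c := e * (√t * (Real.cosh Q.R)⁻¹))
    (e' := fun V x => 2 * Q.εd * √t * N V x) ht hξ (Q.ξ_le _ Q.p_lt) (by positivity) hg.sqrt_le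
    (fun V hV x => by have := hg.nonneg V hV x; positivity)
    (a₀.mono le_rfl (fun _ _ _ => rfl) (mul_pos (Q.ω_pos _) hs).le
      (mul_le_of_le_one_left hs.le (Q.ω_le _)) fun _ _ _ => le_rfl)
    (a₁.mono le_rfl (fun _ _ _ => rfl) fun V _ x => le_of_eq (by rw [rec_sqrt_mul ht]; ring)) 2
    (fun V hV x L f hf g => ?_) fun V hV x L f hf => ?_
  · refine ⟨q₀ + q₁, by push_cast; nlinarith, a₄.mono le_rfl (fun _ _ _ => rfl) fun V hV x => ?_⟩
    have hN : 0 ≤ √t * N V x := mul_nonneg hs.le (hg.nonneg V hV x)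
    have h1 := mul_le_mul_of_nonneg_right (Q.disc _ le_rfl) hN
    have h2 : 12 * Q.ξ Q.n ≤ Q.η Q.n := by nlinarith [Q.η_ge Q.n]
    have h3 := mul_le_mul_of_nonneg_right h2 hN
    rw [NNReal.coe_ofNat, div_eq_mul_inv 5]
    nlinarith
  · exact (hB V hV L f hf).comp_lip (cen_lip ht V x g (hW _ (rec_pot hV (b V x) ht)).2.1)
  · have hWp := rec_pot hV (b V x) ht
    obtain ⟨-, l₁, -, Ψ, hΨ, hmap, herr, -⟩ := hW _ hWp
    have c₁ : Continuous (Fz (uu (resc V (b V x) t))) :=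
      (LipschitzWith.of_dist_le' (K := 1) fun y y' => by
        simpa [dist_eq_norm] using l₁ y y').continuous
    have hBm : Measurable fun w : E d × E d => ∫⁻ y, f y ∂(nu V
        (b V x + √t • (Real.tanh Q.R • w.1)) (t * (1 - Real.tanh Q.R ^ 2))) :=
      (hB V hV L f hf).measurable.comp
        (f := fun w : E d × E d => b V x + √t • (Real.tanh Q.R • w.1)) (by fun_prop)
    refine (rec_transport hΨ hBm
      (err := fun w => w.1 + Fz (uu (resc V (b V x) t)) w - (Ψ w).1)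
      (by have := c₁.measurable; fun_prop)
      (L := L * ENNReal.ofReal √t) fun z g => (hB V hV L f hf _
        (b V x + √t • (Real.tanh Q.R • (Ψ (z, g)).1))).trans ?_).trans (add_le_add ?_ ?_)
    · rw [edist_eq_enorm_sub, mul_assoc]
      gcongr
      simp only [cen, zg_eval b ht, one_smul, zero_smul, add_zero, add_sub_add_left_eq_sub,
        ← smul_sub, enorm_smul, Real.enorm_of_nonneg hs.le]
      gcongr
      refine mul_le_of_le_one_left' ?_
      rw [← ofReal_norm, ENNReal.ofReal_le_one]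
      exact (Real.abs_tanh_lt_one _).le
    · have hf' : Measurable fun y => f (b V x + √t • y) := hf.measurable.comp (by fun_prop)
      have e1 := nu_resc (pot_of_admissible hV) (b V x) 0 ht one_pos
      rw [smul_zero, add_zero, mul_one] at e1
      rw [hmap, pp, lintegral_prod _ hBm.aemeasurable, e1,
        lintegral_map hf.measurable (by fun_prop),
        ← lintegral_nu_disint hWp Q.R hf']
      refine lintegral_mono fun z => ?_
      dsimp only
      rw [lintegral_const, measure_univ, mul_one,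
        nu_resc (pot_of_admissible hV) _ _ ht (rec_chi_pos _),
        lintegral_map hf.measurable (by fun_prop)]
    · rw [mul_assoc]
      gcongr
      refine (mul_le_mul_right herr _).trans ?_
      rw [← ENNReal.ofReal_mul (by positivity)]
      refine ENNReal.ofReal_le_ofReal ?_
      have h1 := rec_MM_le hV (b V x) ht hg.four (hg.size V hV x)
      nlinarith [mul_le_mul_of_nonneg_left h1 (by positivity : 0 ≤ Q.εd * √t)]

lemma ss_all (hC : Circ d Q.R Q.P Q.εd Q.nx) : Q.SS d (3 ^ Q.J) (Q.η Q.n) := by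
  have hη := η_nonneg (Q := Q) Q.n
  have h0 : 0 ≤ 5 / Real.cosh Q.R := by have := Real.cosh_pos Q.R; positivity
  have key : ∀ j : ℕ, Q.SS d (3 ^ j) (5 * (5 / Real.cosh Q.R) ^ j + 4 / 9 * Q.η Q.n) := by
    intro j
    induction j with
    | zero => exact ss_triv.mono (by simp) (by simp [hη])
    | succ j ihj =>
      refine (ss_step hC (by positivity) ihj).mono ?_ ?_
      · have : (1 : ℝ) ≤ 3 ^ j := one_le_pow₀ (by norm_num)
        rw [pow_succ]; linarith
      · rw [pow_succ]; nlinarith [mul_le_mul_of_nonneg_right (five_div_le (Q := Q)) hη]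
  exact (key Q.J).mono le_rfl (by linarith [Q.chain _ le_rfl])

end Par

theorem rec_core (Q : Par) (d : ℕ) (hC : Circ d Q.R Q.P Q.εd Q.nx) :
    ∃ q : ℕ, (q : ℝ) ≤ Q.U ^ (Q.v * Q.n + 1) ∧
      Sam d q (E d) (fun V y => nu V y (Q.δ₀ / 2)) fun _ y => Q.η Q.n * (√(d : ℝ) + ‖y‖) := by
  have hU := Par.two_le_U (Q := Q)
  have hg : Q.Good d (fun _ (y : E d) => y) (Q.δ₀ / 2) fun _ y => √(d : ℝ) + ‖y‖ :=
    ⟨by linarith [Q.δ₀_pos], by linarith, fun _ _ _ => le_rfl⟩
  obtain ⟨q, hq, a⟩ := Par.ss_all hC (E d) _ _ _ 1 hg fun l _ => ⟨0, by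
    simpa using one_le_pow₀ (by linarith), (Acc.crude measurable_id _ _).mono le_rfl
      (fun _ _ _ => rfl) (mul_nonneg (Q.ω_pos l).le (Real.sqrt_nonneg _)) le_rfl fun V _ y => by
        have := Q.ξ_nonneg l
        simp only [id, sub_self, norm_zero]; positivity⟩
  refine ⟨q, hq.trans ?_, a.mono le_rfl (fun _ _ _ => rfl) fun V _ y => ?_⟩
  · have h1 : (1 : ℝ) ≤ Q.nx := by exact_mod_cast Q.nx_pos
    have h2 : (3 : ℝ) ^ Q.J ≤ Q.U := by nlinarith [Q.U_ge, pow_pos (by norm_num : (0 : ℝ) < 3) Q.J]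
    rw [mul_one, pow_succ']
    gcongr
  · refine mul_le_mul_of_nonneg_left (mul_le_of_le_one_left (by positivity) ?_) (Par.η_nonneg _)
    linarith [rec_sqrt_le hg.four]

end Crest.Agent.R285
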