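import Crest.Agent.R285.NLDef
import Crest.Agent.R285.Comp
import Crest.Agent.R285.Poincare

/-! Row 285: tools for the recursion. -/

set_option autoImplicit false

open MeasureTheory ProbabilityTheory Crest.OracleSampling
open scoped ENNReal NNReal

namespace Crest.Agent.R285

variable {d q q' : ℕ} {X : Type} [MeasurableSpace X] {V : E d → ℝ}

lemma rec_chi_pos (r : ℝ) : 0 < 1 - Real.tanh r ^ 2 := by
  have := Real.tanh_sq_lt_one r
  linarith

lemma rec_sqrt_chi (r : ℝ) : √(1 - Real.tanh r ^ 2) = (Real.cosh r)⁻¹ := by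
  rw [Real.sqrt_eq_iff_mul_self_eq (rec_chi_pos r).le (inv_pos.2 (Real.cosh_pos r)).le,
    Real.tanh_eq_sinh_div_cosh]
  have := Real.cosh_pos r
  field_simp
  rw [Real.cosh_sq']; ring

lemma rec_sqrt_mul {t : ℝ} (ht : 0 < t) (r : ℝ) :
    √(t * (1 - Real.tanh r ^ 2)) = √t * (Real.cosh r)⁻¹ := by
  rw [Real.sqrt_mul ht.le, rec_sqrt_chi]

lemma rec_tanh_nonneg {r : ℝ} (hr : 0 ≤ r) : 0 ≤ Real.tanh r := by
  rw [Real.tanh_eq_sinh_div_cosh]
  exact div_nonneg (Real.sinh_nonneg_iff.2 hr) (Real.cosh_pos r).le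

lemma rec_pot (hV : Admissible d V) (b : E d) {t : ℝ} (ht : 0 < t) : Pot 0 (2 * t) (resc V b t) := by
  rw [mul_comm]; exact (pot_of_admissible hV).resc zero_le_one b ht

lemma rec_uu (hV : Admissible d V) (b : E d) {t : ℝ} (ht : 0 < t) (r : ℝ) (w : E d) :
    uu (resc V b t) r w = √t • mn V (b + √t • (Real.tanh r • w)) (t * (1 - Real.tanh r ^ 2)) :=
  mn_resc (pot_of_admissible hV) b _ ht (rec_chi_pos r)

lemma rec_mn0 (hV : Admissible d V) (b : E d) {t : ℝ} (ht : 0 < t) :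
    mn (resc V b t) 0 1 = √t • mn V b t := by
  simpa using mn_resc (pot_of_admissible hV) b 0 ht one_pos

lemma rec_sqrt_le {t : ℝ} (ht : 4 * t ≤ 1) : √t ≤ 1 / 2 := by
  rw [Real.sqrt_le_iff]; constructor <;> linarith

lemma rec_mn_le (hV : Admissible d V) (b : E d) {t N : ℝ} (ht : 0 < t) (ht' : 4 * t ≤ 1)
    (hN : √(d : ℝ) + ‖b‖ ≤ N) : √(d : ℝ) + √t * ‖mn V b t‖ ≤ 2 * N := by
  have h1 := mn_sub_grad (pot_of_admissible hV) zero_le_one zero_le_two b ht
  have h2 := norm_gradient_le_of_admissible hV b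
  have h3 : ‖mn V b t‖ ≤ ‖mn V b t - gradient V b‖ + ‖gradient V b‖ := by
    simpa using norm_add_le (mn V b t - gradient V b) (gradient V b)
  rw [Real.sqrt_mul ht.le] at h1
  have h4 := rec_sqrt_le ht'
  have h5 := Real.sqrt_nonneg (d : ℝ)
  have h6 := norm_nonneg (mn V b t)
  have h7 : √t * √(d : ℝ) ≤ 1 / 2 * √(d : ℝ) := by gcongr
  have h8 : ‖mn V b t‖ ≤ 4 * ‖b‖ + 2 * √(d : ℝ) := by nlinarith
  have h9 : √t * ‖mn V b t‖ ≤ 1 / 2 * (4 * ‖b‖ + 2 * √(d : ℝ)) := by gcongr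
  linarith

lemma rec_MM_le (hV : Admissible d V) (b : E d) {t N : ℝ} (ht : 0 < t) (ht' : 4 * t ≤ 1)
    (hN : √(d : ℝ) + ‖b‖ ≤ N) : MM (resc V b t) ≤ 2 * N := by
  rw [MM, rec_mn0 hV b ht, norm_smul, Real.norm_of_nonneg (Real.sqrt_nonneg _)]
  exact rec_mn_le hV b ht ht' hN

lemma rec_lintegral_aff {a c : ℝ} (ha : 0 ≤ a) (hc : 0 ≤ c) :
    ∫⁻ ξ, ENNReal.ofReal (a + c * ‖ξ‖) ∂(gam d) ≤ ENNReal.ofReal (a + c * √(d : ℝ)) := by
  have : ∀ ξ : E d, ENNReal.ofReal (a + c * ‖ξ‖) = ENNReal.ofReal a + ENNReal.ofReal c * ‖ξ‖ₑ :=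
    fun ξ => by rw [ENNReal.ofReal_add ha (by positivity), ENNReal.ofReal_mul hc, ofReal_norm]
  simp only [this]
  rw [lintegral_add_left measurable_const, lintegral_const, measure_univ, mul_one,
    lintegral_const_mul _ (by fun_prop), ENNReal.ofReal_add ha (by positivity),
    ENNReal.ofReal_mul hc]
  gcongr
  exact lintegral_enorm_gam

/-- The error of the one-sample estimator. -/
lemma rec_triv_err (hV : Admissible d V) (b : E d) {t N ω : ℝ} (ht : 0 < t) (ht' : 4 * t ≤ 1)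
    (hN : √(d : ℝ) + ‖b‖ ≤ N) (hω : 0 ≤ ω) (hω' : ω ≤ 1) :
    ∫⁻ ξ, ‖gradient V (b + (ω * √t) • ξ) - mn V b t‖ₑ ∂(gam d) ≤ ENNReal.ofReal (8 * √t * N) := by
  have h1 := mn_sub_grad (pot_of_admissible hV) zero_le_one zero_le_two b ht
  have h2 := rec_mn_le hV b ht ht' hN
  have hs := Real.sqrt_nonneg t
  have hd : √(d : ℝ) ≤ N := by linarith [norm_nonneg b]
  have hd0 := Real.sqrt_nonneg (d : ℝ)
  have h3 : ‖mn V b t - gradient V b‖ ≤ 4 * √t * N := by
    rw [Real.sqrt_mul ht.le] at h1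
    have : t * ‖mn V b t‖ = √t * (√t * ‖mn V b t‖) := by rw [← mul_assoc, Real.mul_self_sqrt ht.le]
    nlinarith [mul_le_mul_of_nonneg_left h2 hs]
  refine (lintegral_mono fun ξ => ?_).trans ((rec_lintegral_aff (a := 4 * √t * N) (c := 2 * √t)
    (by nlinarith) (by positivity)).trans (ENNReal.ofReal_le_ofReal (by nlinarith)))
  rw [← ofReal_norm]
  refine ENNReal.ofReal_le_ofReal ?_
  have h4 := (pot_of_admissible hV).lip_grad zero_le_one (b + (ω * √t) • ξ) b
  rw [add_sub_cancel_left, norm_smul, Real.norm_of_nonneg (by positivity)] at h4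
  have h5 : ω * √t * ‖ξ‖ ≤ 1 * √t * ‖ξ‖ := by gcongr
  have h6 := norm_sub_le_norm_sub_add_norm_sub (gradient V (b + (ω * √t) • ξ)) (gradient V b)
    (mn V b t)
  rw [norm_sub_rev (gradient V b)] at h6
  linarith

lemma Sam.trans {T T' : (E d → ℝ) → X → Measure (E d)} {e e' : (E d → ℝ) → X → ℝ}
    (h : Sam d q X T e) (he : ∀ V, Admissible d V → ∀ x, 0 ≤ e V x)
    (he' : ∀ V, Admissible d V → ∀ x, 0 ≤ e' V x)
    (hT : ∀ V, Admissible d V → ∀ (x : X) (L : ℝ≥0) (f : E d → ℝ≥0∞), LipE L f →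
      ∫⁻ y, f y ∂(T V x) ≤ ∫⁻ y, f y ∂(T' V x) + L * ENNReal.ofReal (e' V x)) :
    Sam d q X T' fun V x => e' V x + e V x := by
  obtain ⟨Ω, mΩ, μ, hμ, F, hF, hb⟩ := h
  refine ⟨Ω, mΩ, μ, hμ, F, hF, fun V hV x L f hf => (hb V hV x L f hf).trans ?_⟩
  rw [ENNReal.ofReal_add (he' V hV x) (he V hV x), mul_add, ← add_assoc]
  gcongr
  exact hT V hV x L f hf

/-- The Gaussian is a crude approximation of the tilted Gaussian. -/
lemma rec_gauss_nu (hV : Admissible d V) (b : E d) {t N ω : ℝ} (ht : 0 < t) (ht' : 4 * t ≤ 1)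
    (hN : √(d : ℝ) + ‖b‖ ≤ N) (hω : 0 ≤ ω) (hω' : ω ≤ 1) {L : ℝ≥0} {f : E d → ℝ≥0∞}
    (hf : LipE L f) : ∫⁻ y, f y ∂(gauss b (ω * √t)) ≤
      ∫⁻ y, f y ∂(nu V b t) + L * ENNReal.ofReal (4 * √t * N) := by
  have hP := pot_of_admissible hV
  have := isProb_nu hP b ht
  have h2 := rec_mn_le hV b ht ht' hN
  have hs := Real.sqrt_nonneg t
  have hd : √(d : ℝ) ≤ N := by linarith [norm_nonneg b]
  have hd0 := Real.sqrt_nonneg (d : ℝ)
  have h1 : ∫⁻ y, f y ∂(gauss b (ω * √t)) ≤ f b + L * ENNReal.ofReal (√t * N) := by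
    rw [lintegral_gauss _ _ hf.measurable]
    calc _ ≤ ∫⁻ ξ, f b + L * ENNReal.ofReal (0 + √t * ‖ξ‖) ∂(gam d) := by
          refine lintegral_mono fun ξ => (hf _ b).trans ?_
          rw [edist_dist, dist_eq_norm, add_sub_cancel_left, norm_smul,
            Real.norm_of_nonneg (by positivity), zero_add]
          gcongr
          exact mul_le_of_le_one_left hs hω'
      _ ≤ _ := by
          rw [lintegral_add_left measurable_const, lintegral_const, measure_univ, mul_one,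
            lintegral_const_mul _ (by fun_prop)]
          gcongr
          exact (rec_lintegral_aff le_rfl hs).trans (ENNReal.ofReal_le_ofReal (by nlinarith))
  have h3 : f b ≤ ∫⁻ y, f y ∂(nu V b t) + L * ENNReal.ofReal (2 * √t * N) := by
    have hi : Integrable (fun x => ‖x - b‖) (nu V b t) :=
      (integrable_nu hP b ht (by fun_prop) (tilt_pgrowth_sub b)).norm
    calc f b = ∫⁻ _, f b ∂(nu V b t) := by rw [lintegral_const, measure_univ, mul_one]
      _ ≤ ∫⁻ y, f y + L * ENNReal.ofReal ‖y - b‖ ∂(nu V b t) := by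
          refine lintegral_mono fun y => (hf b y).trans ?_
          rw [edist_dist, dist_eq_norm, norm_sub_rev]
      _ ≤ _ := by
          rw [lintegral_add_left hf.measurable, lintegral_const_mul _ (by fun_prop),
            ← ofReal_integral_eq_lintegral_ofReal hi (.of_forall fun _ => norm_nonneg _)]
          gcongr
          refine (integral_norm_sub_le hP zero_le_one b ht).trans ?_
          rw [Real.sqrt_mul ht.le]
          have : t * ‖mn V b t‖ = √t * (√t * ‖mn V b t‖) := by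
            rw [← mul_assoc, Real.mul_self_sqrt ht.le]
          nlinarith [mul_le_mul_of_nonneg_left h2 hs]
  refine h1.trans ((add_le_add h3 le_rfl).trans ?_)
  rw [add_assoc, ← mul_add, ← ENNReal.ofReal_add (by nlinarith) (by nlinarith)]
  gcongr
  nlinarith

/-- The normalised Gaussian data. -/
noncomputable def zg (b : (E d → ℝ) → X → E d) (t : ℝ) (V : E d → ℝ) (x : X × E d × E d) :
    E d × E d := ((√t)⁻¹ • (x.2.1 - b V x.1), x.2.2)

/-- The new size function. -/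
noncomputable def nxt (b : (E d → ℝ) → X → E d) (t : ℝ) (N : (E d → ℝ) → X → ℝ) (V : E d → ℝ)
    (x : X × E d × E d) : ℝ := 2 * N V x.1 + ‖(zg b t V x).1‖ + ‖x.2.2‖

omit [MeasurableSpace X] in
lemma zg_eval (b : (E d → ℝ) → X → E d) {t : ℝ} (ht : 0 < t) (V : E d → ℝ) (x : X) (ξ g : E d) :
    zg b t V (x, b V x + √t • ξ, g) = (ξ, g) := by
  have : √t ≠ 0 := (Real.sqrt_pos.2 ht).ne'
  simp [zg, smul_smul, this]

omit [MeasurableSpace X] in
lemma zg_dist (b : (E d → ℝ) → X → E d) (t : ℝ) (V : E d → ℝ) (x : X) (y y' g : E d) :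
    ‖zg b t V (x, y, g) - zg b t V (x, y', g)‖ = (√t)⁻¹ * ‖y - y'‖ := by
  simp only [zg, Prod.mk_sub_mk, sub_self, Prod.norm_mk, norm_zero, ← smul_sub,
    sub_sub_sub_cancel_right, norm_smul, norm_inv, Real.norm_of_nonneg (Real.sqrt_nonneg t)]
  exact max_eq_left (by positivity)

lemma rec_step {b : (E d → ℝ) → X → E d} {t ξ c : ℝ} {N e' : (E d → ℝ) → X → ℝ}
    {S : (E d → ℝ) → X × E d × E d → Measure (E d)} {T' : (E d → ℝ) → X → Measure (E d)}
    (ht : 0 < t) (hξ : 0 ≤ ξ) (hξ' : ξ ≤ 1) (hc : 0 ≤ c)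
    (hN : ∀ V, Admissible d V → ∀ x, √(d : ℝ) ≤ N V x)
    (he' : ∀ V, Admissible d V → ∀ x, 0 ≤ e' V x)
    (h : Acc d q X b √t fun V x => ξ * √t * N V x)
    (h' : Sam d q' (X × E d × E d) S fun V x => c * nxt b t N V x) (Λ : ℝ≥0)
    (hlip : ∀ V, Admissible d V → ∀ (x : X) (L : ℝ≥0) (f : E d → ℝ≥0∞), LipE L f → ∀ g,
      LipE (L * Λ) fun y => ∫⁻ w, f w ∂(S V (x, y, g)))
    (hT : ∀ V, Admissible d V → ∀ (x : X) (L : ℝ≥0) (f : E d → ℝ≥0∞), LipE L f →
      ∫⁻ z, ∫⁻ g, ∫⁻ w, f w ∂(S V (x, b V x + √t • z, g)) ∂(gam d) ∂(gam d) ≤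
        ∫⁻ w, f w ∂(T' V x) + L * ENNReal.ofReal (e' V x)) :
    Sam d (q + q') X T' fun V x => e' V x + 5 * c * N V x + Λ * (ξ * √t * N V x) := by
  have hs : 0 < √t := Real.sqrt_pos.2 ht
  have hd0 := Real.sqrt_nonneg (d : ℝ)
  have hN0 : ∀ V, Admissible d V → ∀ x, 0 ≤ N V x := fun V hV x => hd0.trans (hN V hV x)
  have hlip' : ∀ V, Admissible d V → ∀ (x : X) (L : ℝ≥0) (f : E d → ℝ≥0∞), LipE L f → ∀ g,
      LipE (L * (Λ + (c / √t).toNNReal)) fun y => ∫⁻ w, f w ∂(S V (x, y, g)) +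
        L * ENNReal.ofReal (c * nxt b t N V (x, y, g)) := by
    intro V hV x L f hf g y y'
    have h1 := hlip V hV x L f hf g y y'
    have h2 : ENNReal.ofReal (c * nxt b t N V (x, y, g)) ≤
        ENNReal.ofReal (c * nxt b t N V (x, y', g)) + ENNReal.ofReal (c / √t) * edist y y' := by
      have := hN0 V hV x
      rw [edist_dist, dist_eq_norm, ← ENNReal.ofReal_mul (by positivity),
        ← ENNReal.ofReal_add (by unfold nxt; positivity) (by positivity)]
      refine ENNReal.ofReal_le_ofReal ?_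
      have h3 := (norm_fst_le _).trans (zg_dist b t V x y y' g).le
      have h4 := norm_sub_norm_le (zg b t V (x, y, g)).1 (zg b t V (x, y', g)).1
      rw [Prod.fst_sub] at h3
      have h5 : c / √t * ‖y - y'‖ = c * ((√t)⁻¹ * ‖y - y'‖) := by ring
      simp only [nxt]
      nlinarith [mul_le_mul_of_nonneg_left (h4.trans h3) hc]
    beta_reduce at h1 ⊢
    refine (add_le_add h1 (mul_le_mul_right h2 _)).trans_eq ?_
    rw [show ENNReal.ofReal (c / √t) = (c / √t).toNNReal from rfl]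
    push_cast
    ring
  refine (Sam.bind2 h h' (Λ + (c / √t).toNNReal) (e' := fun V x => e' V x + 4 * c * N V x)
    (T' := T') (fun V hV x => by have := hN0 V hV x; positivity)
    (fun V hV x => by have := hN0 V hV x; have := he' V hV x; positivity) hlip'
    fun V hV x L f hf => ?_).mono le_rfl (fun _ _ _ => rfl) fun V hV x => ?_
  · have hN1 := hN0 V hV x
    have hN2 := hN V hV x
    rw [lintegral_gauss _ _ (LipE.lintegral (gam d) (hlip' V hV x L f hf)).measurable]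
    have e1 : ∀ z g, nxt b t N V (x, b V x + √t • z, g) = 2 * N V x + ‖z‖ + ‖g‖ := fun z g => by
      rw [nxt, zg_eval b ht]
    simp only [e1]
    calc _ ≤ ∫⁻ z, (∫⁻ g, ∫⁻ w, f w ∂(S V (x, b V x + √t • z, g)) ∂(gam d) +
          L * ENNReal.ofReal (3 * c * N V x + c * ‖z‖)) ∂(gam d) := by
          refine lintegral_mono fun z => ?_
          rw [lintegral_add_right _ (by fun_prop), lintegral_const_mul _ (by fun_prop)]
          gcongr
          refine le_trans (le_of_eq ?_) ((rec_lintegral_aff (a := c * (2 * N V x + ‖z‖))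
            (by positivity) hc).trans (ENNReal.ofReal_le_ofReal (by nlinarith)))
          simp only [mul_add]
      _ ≤ _ := by
          rw [lintegral_add_right _ (by fun_prop), lintegral_const_mul _ (by fun_prop),
            ENNReal.ofReal_add (he' V hV x) (by positivity), mul_add, ← add_assoc]
          refine add_le_add (hT V hV x L f hf) ?_
          gcongr
          exact (rec_lintegral_aff (by positivity) hc).trans
            (ENNReal.ofReal_le_ofReal (by nlinarith))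
  · have hN1 := hN0 V hV x
    have e : c / √t * (ξ * √t * N V x) = ξ * (c * N V x) := by field_simp
    have : ξ * (c * N V x) ≤ c * N V x := mul_le_of_le_one_left (by positivity) hξ'
    rw [NNReal.coe_add, Real.coe_toNNReal _ (by positivity), add_mul, e]
    linarith

lemma rec_transport {Ψ : E d × E d → E d × E d} (hΨ : Measurable Ψ) {B : E d × E d → ℝ≥0∞}
    (hB : Measurable B) {err : E d × E d → E d} (herr : Measurable err) {A : E d → E d → ℝ≥0∞}
    {L : ℝ≥0∞} (hA : ∀ z g, A z g ≤ B (Ψ (z, g)) + L * ‖err (z, g)‖ₑ) :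
    ∫⁻ z, ∫⁻ g, A z g ∂(gam d) ∂(gam d) ≤ ∫⁻ w, B w ∂(((gam d).prod (gam d)).map Ψ) +
      L * ∫⁻ w, ‖err w‖ₑ ∂((gam d).prod (gam d)) := by
  rw [lintegral_map hB hΨ, ← lintegral_const_mul _ herr.enorm,
    ← lintegral_add_left (f := fun w => B (Ψ w)) (hB.comp hΨ), lintegral_prod _ (by fun_prop)]
  exact lintegral_mono fun z => lintegral_mono fun g => hA z g

end Crest.Agent.R285
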