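import Crest.Agent.R285.RecA
import Crest.Agent.R285.Par

/-! Row 285: access to the centres of the circuit. -/

set_option autoImplicit false

open MeasureTheory ProbabilityTheory Crest.OracleSampling
open scoped ENNReal NNReal

namespace Crest.Agent.R285

namespace Par

variable (Q : Par) (d : ℕ)

/-- Access to a virtual centre at all levels up to `ℓ`. -/
def AccFam (Y : ℝ) (ℓ : ℕ) (X : Type) [MeasurableSpace X] (b : (E d → ℝ) → X → E d) (t : ℝ)
    (N : (E d → ℝ) → X → ℝ) : Prop :=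
  ∀ l ≤ ℓ, ∃ q : ℕ, (q : ℝ) + 1 ≤ Y * Q.U ^ (Q.v * l) ∧
    Acc d q X b (Q.ω l * √t) fun V x => Q.ξ l * √t * N V x

/-- Admissible data. -/
structure Good {X : Type} (b : (E d → ℝ) → X → E d) (t : ℝ) (N : (E d → ℝ) → X → ℝ) : Prop where
  pos : 0 < t
  le : 2 * t ≤ Q.δ₀
  size : ∀ V, Admissible d V → ∀ x, √(d : ℝ) + ‖b V x‖ ≤ N V x

/-- The statement on mean gradients at level `ℓ`. -/
def MS (ℓ : ℕ) (c e : ℝ) : Prop :=
  ∀ (X : Type) [MeasurableSpace X] (b : (E d → ℝ) → X → E d) (t : ℝ) (N : (E d → ℝ) → X → ℝ)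
    (σ Y : ℝ), Q.Good d b t N → Q.AccFam d Y ℓ X b t N → 0 < σ → 2 * √t ≤ Q.lam ℓ * σ →
    ∃ q : ℕ, (q : ℝ) ≤ c * Y * Q.U ^ ((Q.v + 2) * ℓ) ∧
      Acc d q X (fun V x => mn V (b V x) t) σ fun V x => e * (2 * √t * N V x)

variable {Q d} {X : Type} {b : (E d → ℝ) → X → E d} {t Y : ℝ} {N : (E d → ℝ) → X → ℝ}

lemma two_le_U : 2 ≤ Q.U := by
  have h1 : (1 : ℝ) ≤ Q.nx := by exact_mod_cast Q.nx_pos
  have h2 : (1 : ℝ) ≤ 3 ^ Q.J := one_le_pow₀ (by norm_num)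
  nlinarith [Q.U_ge]

lemma one_le_Λ : 1 ≤ Q.Λ := (Real.one_le_cosh _).trans Q.Λ_ge

lemma η_nonneg (l : ℕ) : 0 ≤ Q.η l :=
  le_trans (mul_nonneg (by linarith [Q.P_ge]) (Q.ξ_nonneg l)) (Q.η_ge l)

lemma Good.four (h : Q.Good d b t N) : 4 * t ≤ 1 := by
  have := one_le_pow₀ (n := 2) Q.P_ge
  nlinarith [h.le, Q.δ₀_le, Q.δ₀_pos]

lemma Good.sqrt_mul (h : Q.Good d b t N) : √t * Q.P ≤ 1 / 2 := by
  have hP := Q.P_ge
  refine le_of_pow_le_pow_left₀ two_ne_zero (by norm_num) ?_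
  rw [mul_pow, Real.sq_sqrt h.pos.le]
  nlinarith [mul_le_mul_of_nonneg_right h.le (sq_nonneg Q.P), Q.δ₀_le]

lemma Good.sqrt_le (h : Q.Good d b t N) (V : E d → ℝ) (hV : Admissible d V) (x : X) :
    √(d : ℝ) ≤ N V x := by
  linarith [h.size V hV x, norm_nonneg (b V x)]

lemma Good.nonneg (h : Q.Good d b t N) (V : E d → ℝ) (hV : Admissible d V) (x : X) : 0 ≤ N V x :=
  (Real.sqrt_nonneg _).trans (h.sqrt_le V hV x)

lemma Good.le_nxt (h : Q.Good d b t N) (V : E d → ℝ) (hV : Admissible d V) (x : X × E d × E d) :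
    N V x.1 ≤ nxt b t N V x := by
  have := h.nonneg V hV x.1
  rw [nxt]; linarith [norm_nonneg (zg b t V x).1, norm_nonneg x.2.2]

lemma sqrt_le_Λ {r : ℝ} (ht : 0 < t) (hr : 0 ≤ r) (hr' : r ≤ Q.R + 1) :
    √t ≤ Q.Λ * √(t * (1 - Real.tanh r ^ 2)) := by
  have h1 : Real.cosh r ≤ Q.Λ := le_trans (Real.cosh_le_cosh.2 (by
    rw [abs_of_nonneg hr, abs_of_nonneg (hr.trans hr')]; exact hr')) Q.Λ_ge
  have h2 := Real.cosh_pos r
  rw [rec_sqrt_mul ht, mul_left_comm, ← div_eq_mul_inv]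
  exact le_mul_of_one_le_right (Real.sqrt_nonneg _) ((one_le_div h2).2 h1)

lemma sqrt_le_sqrt (ht : 0 < t) (r : ℝ) : √(t * (1 - Real.tanh r ^ 2)) ≤ √t :=
  Real.sqrt_le_sqrt (mul_le_of_le_one_right ht.le (by nlinarith [sq_nonneg (Real.tanh r)]))

/-- The virtual vector attached to a circuit. -/
noncomputable def virt (b : (E d → ℝ) → X → E d) (t : ℝ) (F : Fn d) (V : E d → ℝ)
    (x : X × E d × E d) : E d := (√t)⁻¹ • F (uu (resc V (b V x.1) t)) (zg b t V x)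

/-- The new centre. -/
noncomputable def cen (b : (E d → ℝ) → X → E d) (t r α β : ℝ) (F : Fn d) (V : E d → ℝ)
    (x : X × E d × E d) : E d := b V x.1 + √t • (Real.tanh r • (α • (zg b t V x).1 +
      β • (zg b t V x).2 + F (uu (resc V (b V x.1) t)) (zg b t V x)))

variable {r α β : ℝ} {F : Fn d}

lemma cen_eq (ht : 0 < t) (V : E d → ℝ) (x : X × E d × E d) :
    cen b t r α β F V x = (1 - Real.tanh r * α) • b V x.1 + ((Real.tanh r * α) • x.2.1 +
      (√t * Real.tanh r * β) • x.2.2) + (t * Real.tanh r) • virt b t F V x := by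
  have hs : √t ≠ 0 := (Real.sqrt_pos.2 ht).ne'
  have e1 : √t * (Real.tanh r * (α * (√t)⁻¹)) = Real.tanh r * α := by field_simp
  have e2 : t * Real.tanh r * (√t)⁻¹ = √t * Real.tanh r := by
    field_simp; rw [Real.sq_sqrt ht.le, mul_comm]
  simp only [cen, virt, zg, smul_add, smul_smul, e1, e2, smul_sub, sub_smul, one_smul, mul_assoc]
  abel

/-- The growth hypothesis of a centre. -/
def Gro (Q : Par) (t α β : ℝ) (F : Fn d) : Prop :=
  ∀ W : E d → ℝ, Pot 0 (2 * t) W → ∀ x : E d × E d,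
    ‖α • x.1 + β • x.2 + F (uu W) x‖ ≤ Q.P * (‖x‖ + MM W)

lemma Good.cen_sub (h : Q.Good d b t N) (hr : 0 ≤ r) (hg : Q.Gro t α β F) (V : E d → ℝ)
    (hV : Admissible d V) (x : X × E d × E d) :
    ‖cen b t r α β F V x - b V x.1‖ ≤ √t * Q.P * nxt b t N V x := by
  have h1 := hg _ (rec_pot hV (b V x.1) h.pos) (zg b t V x)
  have h2 := rec_MM_le hV (b V x.1) h.pos h.four (h.size V hV x.1)
  have h3 : ‖zg b t V x‖ ≤ ‖(zg b t V x).1‖ + ‖x.2.2‖ :=
    max_le (le_add_of_nonneg_right (norm_nonneg _)) (le_add_of_nonneg_left (norm_nonneg _))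
  have hP := Q.P_ge
  rw [cen, add_sub_cancel_left, norm_smul, norm_smul, Real.norm_of_nonneg (Real.sqrt_nonneg _),
    Real.norm_of_nonneg (rec_tanh_nonneg hr), mul_assoc]
  refine mul_le_mul_of_nonneg_left ((mul_le_of_le_one_left (norm_nonneg _)
    (Real.tanh_lt_one r).le).trans (h1.trans ?_)) (Real.sqrt_nonneg _)
  rw [nxt]
  exact mul_le_mul_of_nonneg_left (by linarith) (by linarith)

lemma Good.cen (h : Q.Good d b t N) (hr : 0 ≤ r) (hg : Q.Gro t α β F) :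
    Q.Good d (cen b t r α β F) (t * (1 - Real.tanh r ^ 2)) (nxt b t N) := by
  refine ⟨mul_pos h.pos (rec_chi_pos r), le_trans ?_ h.le, fun V hV x => ?_⟩
  · nlinarith [mul_nonneg h.pos.le (sq_nonneg (Real.tanh r))]
  · have h1 := h.cen_sub hr hg V hV x
    have h2 := norm_le_insert' (Par.cen b t r α β F V x) (b V x.1)
    have h3 := mul_le_mul_of_nonneg_right h.sqrt_mul ((h.nonneg V hV x.1).trans (h.le_nxt V hV x))
    have h4 := h.size V hV x.1
    have h5 : 2 * N V x.1 ≤ nxt b t N V x := by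
      rw [nxt]; linarith [norm_nonneg (zg b t V x).1, norm_nonneg x.2.2]
    linarith

variable [MeasurableSpace X]

lemma AccFam.one_le {ℓ : ℕ} (h : Q.AccFam d Y ℓ X b t N) : 1 ≤ Y := by
  obtain ⟨q, hq, -⟩ := h 0 (Nat.zero_le _)
  simp only [mul_zero, pow_zero, mul_one] at hq
  linarith [Nat.cast_nonneg (α := ℝ) q]

/-- Access to the virtual vector attached to a circuit. -/
def NLA (Q : Par) (ℓ : ℕ) (Y : ℝ) (b : (E d → ℝ) → X → E d) (t : ℝ) (N : (E d → ℝ) → X → ℝ)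
    (m : ℝ) (k : ℕ) (F : Fn d) : Prop :=
  ∀ l < ℓ, ∀ σ : ℝ, 0 < σ → 2 * √t ≤ Q.lam l * σ → ∃ q : ℕ,
    (q : ℝ) ≤ k * (3 ^ Q.J * (2 * (Y * Q.U ^ Q.v)) * Q.U ^ ((Q.v + 2) * l)) ∧
    Acc d q (X × E d × E d) (virt b t F) (m * σ)
      fun V x => m * Q.η l * (2 * √t * nxt b t N V x)

lemma centre_fam {ℓ l : ℕ} {Mx Y₁ : ℝ} (h : Q.Good d b t N) (hℓ : ℓ ≤ Q.n) (hl : l ≤ ℓ)
    (hY : 1 ≤ Y) (hY₁ : Y ≤ Y₁) (hMx : 0 < Mx) (hMx' : t * Mx ≤ 2 * Q.G * Q.lam ℓ * Q.P)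
    (hr : 0 ≤ r) (hr' : r ≤ Q.R + 1) (hg : Q.Gro t α β F) (hF : Q.NLA ℓ Y b t N Mx Q.nx F)
    (hb : ∀ l' ≤ l, Q.p ≤ l' → ∃ (q : ℕ) (σ e : ℝ), (q : ℝ) + 1 ≤ Y₁ * Q.U ^ (Q.v * l') ∧ 0 ≤ σ ∧
      0 ≤ e ∧ (Acc d q X b σ fun V x => e * N V x) ∧
      2 * (|1 - Real.tanh r * α| * σ) ≤ Q.ω l' * √(t * (1 - Real.tanh r ^ 2)) ∧
      2 * (|1 - Real.tanh r * α| * e) ≤ Q.ξ l' * √(t * (1 - Real.tanh r ^ 2))) :
    Q.AccFam d (2 * Y₁) l (X × E d × E d) (cen b t r α β F) (t * (1 - Real.tanh r ^ 2))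
      (nxt b t N) := by
  intro l' hl'
  have hU : 1 ≤ Q.U := by linarith [two_le_U (Q := Q)]
  have hΛ := sqrt_le_Λ h.pos hr hr'
  have hs : 0 < √t := Real.sqrt_pos.2 h.pos
  have hs' : 0 < √(t * (1 - Real.tanh r ^ 2)) := Real.sqrt_pos.2 (h.cen hr hg).pos
  have hP := Q.P_ge
  have hn : ∀ V, Admissible d V → ∀ x, 0 ≤ nxt b t N V x := (h.cen hr hg).nonneg
  set s' := √(t * (1 - Real.tanh r ^ 2)) with hs'e
  rcases lt_or_ge l' Q.p with hp | hp
  · refine ⟨0, ?_, (Acc.crude (w := fun x : X × E d × E d => x.2.1) (by fun_prop) _ _).mono le_rfl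
      (fun _ _ _ => rfl) (mul_pos (Q.ω_pos l') hs').le le_rfl fun V hV x => ?_⟩
    · have := one_le_pow₀ (n := Q.v * l') hU
      push_cast; nlinarith
    · have h1 := h.cen_sub hr hg V hV x
      have h2 : ‖x.2.1 - b V x.1‖ = √t * ‖(zg b t V x).1‖ := by
        rw [zg, norm_smul, norm_inv, Real.norm_of_nonneg hs.le, mul_inv_cancel_left₀ hs.ne']
      have h3 : ‖(zg b t V x).1‖ ≤ Q.P * nxt b t N V x := by
        refine le_trans ?_ (le_mul_of_one_le_left (hn V hV x) hP)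
        rw [nxt]; linarith [h.nonneg V hV x.1, norm_nonneg x.2.2]
      have h4 := norm_sub_le_norm_sub_add_norm_sub x.2.1 (b V x.1) (cen b t r α β F V x)
      rw [norm_sub_rev (b V x.1)] at h4
      have h5 : √t * (2 * Q.P) ≤ Q.ξ l' * s' :=
        calc √t * (2 * Q.P) ≤ Q.Λ * s' * (2 * Q.P) := by gcongr
          _ = 2 * Q.P * Q.Λ * s' := by ring
          _ ≤ _ := by gcongr; exact Q.ξ_crude l' hp
      nlinarith [mul_le_mul_of_nonneg_left h3 hs.le, mul_le_mul_of_nonneg_right h5 (hn V hV x)]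
  · obtain ⟨q₁, σ, e, hq₁, hσ, he, hA₁, hσ', he'⟩ := hb l' hl' hp
    have hp1 := Q.p_pos
    have htM : 0 < t * Mx := mul_pos h.pos hMx
    have hω := Q.ω_pos l'
    have hη := η_nonneg (Q := Q) (l' - Q.p)
    have hΛ0 : 0 < Q.Λ := by linarith [one_le_Λ (Q := Q)]
    have ht := h.pos
    have hlam := Q.lam_pos ℓ
    have hG := Q.G_pos
    have hY₀ : 0 ≤ Y₁ := by linarith
    obtain ⟨q₂, hq₂, hA₂⟩ := hF (l' - Q.p) (by omega) (Q.ω l' * s' / (2 * (t * Mx)))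
      (by positivity) (by
        rw [← mul_div_assoc, le_div_iff₀ (by positivity)]
        calc 2 * √t * (2 * (t * Mx)) ≤ 2 * (Q.Λ * s') * (2 * (2 * Q.G * Q.lam ℓ * Q.P)) := by gcongr
          _ = 8 * Q.P * Q.G * Q.Λ * Q.lam ℓ * s' := by ring
          _ ≤ Q.lam (l' - Q.p) * Q.ω l' * s' := by
            gcongr ?_ * _; exact Q.virt_noise l' ℓ hp (hl'.trans hl) hℓ
          _ = _ := by ring)
    have hρ : |t * Real.tanh r| ≤ t := by
      rw [abs_of_nonneg (mul_nonneg h.pos.le (rec_tanh_nonneg hr))]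
      exact mul_le_of_le_one_right h.pos.le (Real.tanh_lt_one r).le
    have hw : Measurable fun x : X × E d × E d =>
        (Real.tanh r * α) • x.2.1 + (√t * Real.tanh r * β) • x.2.2 := by fun_prop
    refine ⟨q₁ + 0 + q₂, ?_, (((((hA₁.comap measurable_fst).smul (1 - Real.tanh r * α)).add
      (Acc.crude hw (fun _ x => (Real.tanh r * α) • x.2.1 + (√t * Real.tanh r * β) • x.2.2) 0)
      (by positivity) le_rfl (fun V hV x => by have := h.nonneg V hV x.1; positivity)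
      (fun _ _ _ => norm_nonneg _)).add (hA₂.smul (t * Real.tanh r)) (by positivity)
      (by positivity) (fun V hV x => by have := h.nonneg V hV x.1; positivity)
      (fun V hV x => by have := hn V hV x; positivity)).mono le_rfl
      (fun V _ x => (cen_eq h.pos V x).symm) (by positivity) ?_ fun V hV x => ?_)⟩
    · have h1 : (q₂ : ℝ) ≤ Y₁ * Q.U ^ (Q.v * l') :=
        calc (q₂ : ℝ) ≤ _ := hq₂
          _ = 2 * Q.nx * 3 ^ Q.J * (Y * Q.U ^ ((Q.v + 2) * (l' - Q.p) + Q.v)) := by ring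
          _ ≤ Q.U * (Y * Q.U ^ ((Q.v + 2) * (l' - Q.p) + Q.v)) := by gcongr; exact Q.U_ge
          _ = Y * Q.U ^ ((Q.v + 2) * (l' - Q.p) + Q.v + 1) := by ring
          _ ≤ _ := by gcongr; exact Q.cost l' hp ((hl'.trans hl).trans hℓ)
      push_cast; linarith
    · have : |t * Real.tanh r| * (Mx * (Q.ω l' * s' / (2 * (t * Mx)))) ≤ Q.ω l' * s' / 2 :=
        calc _ ≤ t * (Mx * (Q.ω l' * s' / (2 * (t * Mx)))) := by gcongr
          _ = _ := by have := h.pos.ne'; field_simp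
      linarith
    · have h1 := h.nonneg V hV x.1
      have h2 := h.le_nxt V hV x
      have h3 := hn V hV x
      have h4 : |t * Real.tanh r| * (Mx * Q.η (l' - Q.p) * (2 * √t * nxt b t N V x)) ≤
          Q.ξ l' * s' * nxt b t N V x / 2 :=
        calc _ ≤ t * (Mx * Q.η (l' - Q.p) * (2 * (Q.Λ * s') * nxt b t N V x)) := by gcongr
          _ = t * Mx * (Q.η (l' - Q.p) * (2 * (Q.Λ * s') * nxt b t N V x)) := by ring
          _ ≤ 2 * Q.G * Q.lam ℓ * Q.P * (Q.η (l' - Q.p) * (2 * (Q.Λ * s') * nxt b t N V x)) := by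
            gcongr
          _ = 8 * Q.P * Q.G * Q.Λ * Q.lam ℓ * Q.η (l' - Q.p) * s' * nxt b t N V x / 2 := by ring
          _ ≤ _ := by gcongr; exact Q.virt_err l' ℓ hp (hl'.trans hl) hℓ
      have h5 : |1 - Real.tanh r * α| * (e * N V x.1) ≤ Q.ξ l' * s' * nxt b t N V x / 2 :=
        calc _ ≤ |1 - Real.tanh r * α| * (e * nxt b t N V x) := by gcongr
          _ = 2 * (|1 - Real.tanh r * α| * e) * nxt b t N V x / 2 := by ring
          _ ≤ _ := by gcongr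
      simp only [sub_self, norm_zero, add_zero]
      linarith

lemma nl_acc {ℓ : ℕ} {Mx : ℝ} (h : Q.Good d b t N) (hℓ : ℓ ≤ Q.n) (hA : Q.AccFam d Y ℓ X b t N)
    (IH : ∀ l < ℓ, Q.MS d l (3 ^ Q.J) (Q.η l)) (hMx : 0 < Mx)
    (hMx' : t * Mx ≤ 2 * Q.G * Q.lam ℓ * Q.P) {m : ℝ} {k : ℕ}
    (hF : NL d ⟨Q.R + 1, Q.P, Q.P, Mx, 2 * t, Q.nx⟩ m k F) : Q.NLA ℓ Y b t N m k F := by
  have hY := hA.one_le
  have hU : 1 ≤ Q.U := by linarith [two_le_U (Q := Q)]
  have hs : 0 < √t := Real.sqrt_pos.2 h.pos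
  have hn : ∀ V, Admissible d V → ∀ x, 0 ≤ nxt b t N V x := fun V hV x =>
    (h.nonneg V hV x.1).trans (h.le_nxt V hV x)
  induction hF with
  | zero =>
    intro l _ σ _ _
    refine ⟨0, by simp, (Acc.crude (w := fun _ => 0) measurable_const _ _).mono le_rfl
      (fun _ _ _ => rfl) (by simp) le_rfl fun V _ x => by simp [virt]⟩
  | add h₁ h₂ ih₁ ih₂ =>
    intro l hl σ hσ hσ'
    obtain ⟨q₁, hq₁, a₁⟩ := ih₁ l hl σ hσ hσ'
    obtain ⟨q₂, hq₂, a₂⟩ := ih₂ l hl σ hσ hσ'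
    have := h₁.nonneg
    have := h₂.nonneg
    have := η_nonneg (Q := Q) l
    refine ⟨q₁ + q₂, by push_cast; linarith, (a₁.add a₂ (by positivity) (by positivity)
      (fun V hV x => by have := hn V hV x; positivity)
      (fun V hV x => by have := hn V hV x; positivity)).mono le_rfl
      (fun V _ x => by simp [virt]) (by positivity) (by linarith) fun V _ x => by linarith⟩
  | smul c h₁ ih =>
    intro l hl σ hσ hσ'
    obtain ⟨q₁, hq₁, a₁⟩ := ih l hl σ hσ hσ'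
    have := h₁.nonneg
    exact ⟨q₁, hq₁, (a₁.smul c).mono le_rfl (fun V _ x => by simp [virt, smul_comm c])
      (by positivity) (by linarith) fun V _ x => by linarith⟩
  | mono h₁ hm hk ih =>
    intro l hl σ hσ hσ'
    obtain ⟨q₁, hq₁, a₁⟩ := ih l hl σ hσ hσ'
    have := h₁.nonneg
    have := η_nonneg (Q := Q) l
    exact ⟨q₁, hq₁.trans (by gcongr), a₁.mono le_rfl (fun _ _ _ => rfl) (by positivity)
      (by gcongr) fun V hV x => by have := hn V hV x; gcongr⟩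
  | @app r α β F hr hr' hα _ hg ih =>
    intro l hl σ hσ hσ'
    have hΛ := sqrt_le_Λ h.pos hr hr'
    have hs' := Real.sqrt_nonneg (t * (1 - Real.tanh r ^ 2))
    have hP := Q.P_ge
    have hc : |1 - Real.tanh r * α| ≤ 1 + Q.P := by
      refine (abs_sub _ _).trans ?_
      rw [abs_one, abs_mul]
      have : |α| ≤ Q.P := le_trans (le_add_of_nonneg_right (abs_nonneg β)) hα
      nlinarith [mul_le_of_le_one_left (abs_nonneg α) (Real.abs_tanh_lt_one r).le]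
    have key : ∀ a a' : ℝ, 0 ≤ a → 2 * (1 + Q.P) * Q.Λ * a ≤ a' →
        2 * (|1 - Real.tanh r * α| * (a * √t)) ≤ a' * √(t * (1 - Real.tanh r ^ 2)) :=
      fun a a' ha haa =>
        calc _ ≤ 2 * ((1 + Q.P) * (a * (Q.Λ * √(t * (1 - Real.tanh r ^ 2))))) := by gcongr
          _ = 2 * (1 + Q.P) * Q.Λ * a * √(t * (1 - Real.tanh r ^ 2)) := by ring
          _ ≤ _ := by gcongr
    have hfam := centre_fam (l := l) (Y₁ := Y * Q.U ^ Q.v) h hℓ hl.le hY
      (le_mul_of_one_le_right (by linarith) (one_le_pow₀ hU)) hMx hMx' hr hr' hg ih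
      fun l' hl' _ => by
        obtain ⟨q, hq, a⟩ := hA (l' + 1) (by omega)
        exact ⟨q, _, Q.ξ (l' + 1) * √t, hq.trans_eq (by ring), (mul_pos (Q.ω_pos _) hs).le,
          mul_nonneg (Q.ξ_nonneg _) hs.le, a, key _ _ (Q.ω_pos _).le (Q.ω_step l'),
          key _ _ (Q.ξ_nonneg _) (Q.ξ_step l')⟩
    obtain ⟨q, hq, a⟩ := IH l hl _ _ _ _ σ _ (h.cen hr hg) hfam hσ
      (le_trans (by linarith [sqrt_le_sqrt h.pos r]) hσ')
    refine ⟨q, by simpa using hq, a.mono le_rfl (fun V hV x => ?_) hσ.le (by linarith)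
      fun V hV x => ?_⟩
    · rw [virt, rec_uu hV _ h.pos, inv_smul_smul₀ hs.ne']; rfl
    · have := hn V hV x
      have := η_nonneg (Q := Q) l
      rw [one_mul]
      gcongr _ * (2 * ?_ * _)
      exact sqrt_le_sqrt h.pos r

end Par

end Crest.Agent.R285
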