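import Crest.Agent.R285.Defs

/-! Row 285: basic facts on potentials and tilted Gaussians. -/

set_option autoImplicit false

open MeasureTheory ProbabilityTheory Crest.OracleSampling
open scoped ENNReal NNReal RealInnerProductSpace

namespace Crest.Agent.R285

variable {d : ℕ} {α δ : ℝ} {W : E d → ℝ}

theorem tilt_hasFDerivAt_fderiv (hc : ContDiff ℝ 2 W) (x : E d) :
    HasFDerivAt (fderiv ℝ W) (fderiv ℝ (fderiv ℝ W) x) x :=
  (((hc.fderiv_right (m := 1) le_rfl).differentiable one_ne_zero) x).hasFDerivAt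

theorem tilt_hasFDerivAt (hc : ContDiff ℝ 2 W) (x : E d) : HasFDerivAt W (fderiv ℝ W x) x :=
  (hc.differentiable two_ne_zero x).hasFDerivAt

theorem tilt_iter (W : E d → ℝ) (x v : E d) :
    iteratedFDeriv ℝ 2 W x ![v, v] = fderiv ℝ (fderiv ℝ W) x v v := by
  rw [iteratedFDeriv_two_apply]; rfl

theorem tilt_taylor (hc : ContDiff ℝ 2 W)
    (hα : ∀ x v : E d, α * ‖v‖ ^ 2 ≤ iteratedFDeriv ℝ 2 W x ![v, v]) (x v : E d) :
    W x + fderiv ℝ W x v + α * ‖v‖ ^ 2 / 2 ≤ W (x + v) := by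
  have hl : ∀ s : ℝ, HasDerivAt (fun s : ℝ => x + s • v) v s := fun s => by
    simpa using ((hasDerivAt_id s).smul_const v).const_add x
  have h1 : ∀ s : ℝ, HasDerivAt
      (fun s : ℝ => W (x + s • v) - s * fderiv ℝ W x v - α * ‖v‖ ^ 2 / 2 * s ^ 2)
      (fderiv ℝ W (x + s • v) v - fderiv ℝ W x v - α * ‖v‖ ^ 2 * s) s := fun s => by
    have h2 := (tilt_hasFDerivAt hc (x + s • v)).comp_hasDerivAt s (hl s)
    have h3 := (h2.sub ((hasDerivAt_id s).mul_const (fderiv ℝ W x v))).sub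
      (((hasDerivAt_id s).pow 2).const_mul (α * ‖v‖ ^ 2 / 2))
    refine h3.congr_deriv ?_
    simp
    ring
  have h2 : ∀ s : ℝ, HasDerivAt
      (fun s : ℝ => fderiv ℝ W (x + s • v) v - fderiv ℝ W x v - α * ‖v‖ ^ 2 * s)
      (fderiv ℝ (fderiv ℝ W) (x + s • v) v v - α * ‖v‖ ^ 2) s := fun s => by
    have h2 := (tilt_hasFDerivAt_fderiv hc (x + s • v)).comp_hasDerivAt s (hl s)
    have h3 := ((h2.clm_apply (hasDerivAt_const s v)).sub_const (fderiv ℝ W x v)).sub
      ((hasDerivAt_id s).const_mul (α * ‖v‖ ^ 2))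
    refine h3.congr_deriv ?_
    simp
  have h3 : Monotone
      (fun s : ℝ => fderiv ℝ W (x + s • v) v - fderiv ℝ W x v - α * ‖v‖ ^ 2 * s) :=
    monotone_of_deriv_nonneg (fun s => (h2 s).differentiableAt) fun s => by
      rw [(h2 s).deriv, sub_nonneg, ← tilt_iter]; exact hα _ _
  obtain ⟨c, hc, h4⟩ := exists_hasDerivAt_eq_slope _ _ zero_lt_one
    (fun s _ => (h1 s).continuousAt.continuousWithinAt) (fun s _ => h1 s)
  have h5 := h3 hc.1.le
  simp only [zero_smul, add_zero, sub_self, mul_zero, one_smul, one_mul, one_pow, mul_one,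
    zero_mul, sub_zero, div_one, ne_eq, OfNat.ofNat_ne_zero, not_false_eq_true, zero_pow] at h4 h5
  linarith

theorem pot_of_admissible {V : E d → ℝ} (hV : Admissible d V) : Pot 1 2 V := by
  obtain ⟨h1, h2, h3, h4⟩ := hV
  refine ⟨h1, fun x => ?_, fun x v => by simpa using h4 x v⟩
  have h5 := tilt_taylor (α := 1) h1 (fun x v => by simpa using (h4 x v).1) 0 x
  have h6 : fderiv ℝ V 0 = 0 := by
    simpa [gradient] using h3
  rw [h2, h6, zero_add, zero_add] at h5
  refine le_trans ?_ h5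
  simp only [zero_apply, zero_add]
  positivity

theorem Pot.weaken (h : Pot α δ W) {α' δ' : ℝ} (h1 : α' ≤ α) (h2 : δ ≤ δ') : Pot α' δ' W :=
  ⟨h.c2, h.nonneg, fun x v => ⟨le_trans (by gcongr) (h.hess x v).1,
    (h.hess x v).2.trans (by gcongr)⟩⟩

theorem tilt_delta_nonneg (h : Pot α δ W) (hα : 0 ≤ α) (v : E d) : 0 ≤ δ * ‖v‖ := by
  rcases (norm_nonneg v).eq_or_lt with h0 | h0
  · rw [← h0, mul_zero]
  · have := (h.hess 0 v).1.trans (h.hess 0 v).2
    have h1 : 0 ≤ δ * ‖v‖ * ‖v‖ := by nlinarith [mul_nonneg hα (sq_nonneg ‖v‖)]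
    exact nonneg_of_mul_nonneg_left h1 h0

theorem tilt_hess_bound (h : Pot α δ W) (hα : 0 ≤ α) (x v w : E d) :
    |fderiv ℝ (fderiv ℝ W) x v w| ≤ δ * ‖v‖ * ‖w‖ := by
  set B := fderiv ℝ (fderiv ℝ W) x with hB
  have hs : B w v = B v w := (h.c2.contDiffAt.isSymmSndFDerivAt (by simp)).eq w v
  have h0 : ∀ u, 0 ≤ B u u := fun u => by
    rw [hB, ← tilt_iter]; exact le_trans (by positivity) (h.hess x u).1
  have h1 : ∀ u, B u u ≤ δ * ‖u‖ ^ 2 := fun u => by
    rw [hB, ← tilt_iter]; exact (h.hess x u).2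
  have h2 := discrim_le_zero (a := B w w) (b := 2 * B v w) (c := B v v) fun s => by
    have := h0 (v + s • w)
    simp only [map_add, map_smul, add_apply, smul_apply,
      smul_eq_mul, hs] at this
    linarith
  rw [discrim] at h2
  apply abs_le_of_sq_le_sq _ (mul_nonneg (tilt_delta_nonneg h hα v) (norm_nonneg _))
  have h3 : B w w * B v v ≤ (δ * ‖w‖ ^ 2) * (δ * ‖v‖ ^ 2) :=
    mul_le_mul (h1 w) (h1 v) (h0 v) ((h0 w).trans (h1 w))
  nlinarith

/-- The inverse Riesz map as a real linear map. -/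
noncomputable def tiltRiesz (d : ℕ) : StrongDual ℝ (E d) →L[ℝ] E d :=
  (InnerProductSpace.toDual ℝ (E d)).symm.toContinuousLinearEquiv.toContinuousLinearMap

theorem tilt_hasFDerivAt_gradient (hc : ContDiff ℝ 2 W) (x : E d) :
    HasFDerivAt (gradient W) ((tiltRiesz d).comp (fderiv ℝ (fderiv ℝ W) x)) x :=
  (tiltRiesz d).hasFDerivAt.comp x (tilt_hasFDerivAt_fderiv hc x)

theorem Pot.contDiff_gradient (h : Pot α δ W) : ContDiff ℝ 1 (gradient W) :=
  (tiltRiesz d).contDiff.comp (h.c2.fderiv_right (m := 1) le_rfl)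

theorem Pot.norm_fderiv_gradient_le (h : Pot α δ W) (hα : 0 ≤ α) (x v : E d) :
    ‖fderiv ℝ (gradient W) x v‖ ≤ δ * ‖v‖ := by
  rw [(tilt_hasFDerivAt_gradient h.c2 x).fderiv]
  have : ‖(InnerProductSpace.toDual ℝ (E d)).symm (fderiv ℝ (fderiv ℝ W) x v)‖ ≤ δ * ‖v‖ := by
    rw [LinearIsometryEquiv.norm_map]
    exact ContinuousLinearMap.opNorm_le_bound _ (tilt_delta_nonneg h hα v) fun w =>
      tilt_hess_bound h hα x v w
  exact this

theorem Pot.lip_grad (h : Pot α δ W) (hα : 0 ≤ α) (x y : E d) :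
    ‖gradient W x - gradient W y‖ ≤ δ * ‖x - y‖ := by
  by_cases hxy : x = y
  · simp [hxy]
  have hδ : 0 ≤ δ := nonneg_of_mul_nonneg_left (tilt_delta_nonneg h hα (x - y))
    (norm_pos_iff.2 (sub_ne_zero.2 hxy))
  exact (convex_univ (𝕜 := ℝ)).norm_image_sub_le_of_norm_fderiv_le (𝕜 := ℝ)
    (fun z _ => h.contDiff_gradient.differentiable one_ne_zero z)
    (fun z _ => ContinuousLinearMap.opNorm_le_bound _ hδ (h.norm_fderiv_gradient_le hα z))
    (Set.mem_univ y) (Set.mem_univ x)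

theorem norm_gradient_le_of_admissible {V : E d → ℝ} (hV : Admissible d V) (x : E d) :
    ‖gradient V x‖ ≤ 2 * ‖x‖ := by
  simpa [hV.2.2.1] using (pot_of_admissible hV).lip_grad zero_le_one x 0

/-- Strong midpoint convexity. -/
theorem Pot.midpoint (h : Pot α δ W) (x y : E d) :
    W ((1 / 2 : ℝ) • x + (1 / 2 : ℝ) • y) ≤ (W x + W y) / 2 - α * ‖x - y‖ ^ 2 / 8 := by
  set m := (1 / 2 : ℝ) • x + (1 / 2 : ℝ) • y with hm
  have h1 := tilt_taylor h.c2 (fun x v => (h.hess x v).1) m ((1 / 2 : ℝ) • (x - y))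
  have h2 := tilt_taylor h.c2 (fun x v => (h.hess x v).1) m (-((1 / 2 : ℝ) • (x - y)))
  rw [show m + (1 / 2 : ℝ) • (x - y) = x by rw [hm]; module] at h1
  rw [show m + -((1 / 2 : ℝ) • (x - y)) = y by rw [hm]; module, map_neg, norm_neg] at h2
  rw [norm_smul, Real.norm_of_nonneg (by norm_num)] at h1 h2
  linarith

theorem tilt_hasFDerivAt_aff (b : E d) (c : ℝ) (y : E d) :
    HasFDerivAt (fun y : E d => b + c • y) (c • ContinuousLinearMap.id ℝ (E d)) y :=
  ((hasFDerivAt_id y).const_smul c).const_add b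

theorem tilt_fderiv_resc (hc : ContDiff ℝ 2 W) (b : E d) (t : ℝ) :
    fderiv ℝ (resc W b t) = fun y => √t • fderiv ℝ W (b + √t • y) := by
  funext y
  have := ((tilt_hasFDerivAt hc (b + √t • y)).comp y (tilt_hasFDerivAt_aff b √t y)).fderiv
  refine this.trans ?_
  ext v
  simp

theorem Pot.resc (h : Pot α δ W) (hα : 0 ≤ α) (b : E d) {t : ℝ} (ht : 0 < t) :
    Pot 0 (t * δ) (resc W b t) := by
  refine ⟨h.c2.comp (by fun_prop), fun x => h.nonneg _, fun x v => ?_⟩
  have h1 : iteratedFDeriv ℝ 2 (R285.resc W b t) x ![v, v] =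
      t * iteratedFDeriv ℝ 2 W (b + √t • x) ![v, v] := by
    rw [tilt_iter, tilt_iter, tilt_fderiv_resc h.c2]
    have := (((tilt_hasFDerivAt_fderiv h.c2 (b + √t • x)).comp x
      (tilt_hasFDerivAt_aff b √t x)).const_smul √t).fderiv
    erw [this]
    simp [← mul_assoc, Real.mul_self_sqrt ht.le]
  rw [h1, zero_mul, mul_assoc]
  exact ⟨mul_nonneg ht.le (le_trans (by positivity) (h.hess _ v).1),
    mul_le_mul_of_nonneg_left (h.hess _ v).2 ht.le⟩

theorem tilt_integrable_gauss {c : ℝ} (hc : 0 < c) (b : E d) :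
    Integrable (fun x : E d => Real.exp (-c * ‖x - b‖ ^ 2)) := by
  have h := (GaussianFourier.integrable_cexp_neg_mul_sq_norm_add (V := E d) (b := (c : ℂ))
    (by simpa using hc) 0 0).norm
  have h2 : Integrable (fun x : E d => Real.exp (-c * ‖x‖ ^ 2)) := by
    refine h.congr (Filter.Eventually.of_forall fun x => ?_)
    simp only [zero_mul, add_zero, Complex.norm_exp]
    congr 1
    norm_cast
  exact h2.comp_sub_right b

theorem tilt_integrable_gauss_poly {c : ℝ} (hc : 0 < c) (b : E d) (n : ℕ) :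
    Integrable (fun x : E d => Real.exp (-c * ‖x - b‖ ^ 2) * (1 + ‖x‖) ^ n) := by
  refine ((tilt_integrable_gauss (half_pos hc) b).const_mul
    (Real.exp (n * ‖b‖ + n ^ 2 / (2 * c)))).mono' (by fun_prop)
    (Filter.Eventually.of_forall fun x => ?_)
  rw [Real.norm_of_nonneg (by positivity), ← Real.exp_add]
  have h1 : (1 + ‖x‖) ^ n ≤ Real.exp (n * ‖x‖) := by
    rw [Real.exp_nat_mul]
    gcongr
    rw [add_comm]; exact Real.add_one_le_exp _
  refine (mul_le_mul_of_nonneg_left h1 (Real.exp_pos _).le).trans ?_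
  rw [← Real.exp_add, Real.exp_le_exp]
  have h2 : ‖x‖ ≤ ‖b‖ + ‖x - b‖ := norm_le_norm_add_norm_sub' x b
  have h3 : (n : ℝ) * ‖x‖ ≤ n * (‖b‖ + ‖x - b‖) := by gcongr
  have h4 : (n : ℝ) * ‖x - b‖ ≤ c / 2 * ‖x - b‖ ^ 2 + n ^ 2 / (2 * c) := by
    have : c / 2 * ‖x - b‖ ^ 2 + n ^ 2 / (2 * c) - n * ‖x - b‖ =
        (c * ‖x - b‖ - n) ^ 2 / (2 * c) := by field_simp; ring
    have h5 : 0 ≤ (c * ‖x - b‖ - n) ^ 2 / (2 * c) := by positivity
    linarith
  linarith

theorem tilt_continuous_weight (h : Pot α δ W) (b : E d) (t : ℝ) :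
    Continuous fun x => Real.exp (-‖x - b‖ ^ 2 / (2 * t) - W x) := by
  have := h.c2.continuous
  fun_prop

theorem integrable_weight (h : Pot α δ W) (b : E d) {t : ℝ} (ht : 0 < t) {Y : Type*}
    [NormedAddCommGroup Y] [NormedSpace ℝ Y] {f : E d → Y} (hf : AEStronglyMeasurable f volume)
    (hg : PGrowth f) :
    Integrable (fun x => Real.exp (-‖x - b‖ ^ 2 / (2 * t) - W x) • f x) := by
  obtain ⟨C, n, hC⟩ := hg
  refine ((tilt_integrable_gauss_poly (c := 1 / (2 * t)) (by positivity) b n).const_mul C).mono'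
    ((tilt_continuous_weight h b t).aestronglyMeasurable.smul hf)
    (Filter.Eventually.of_forall fun x => ?_)
  rw [norm_smul, Real.norm_of_nonneg (Real.exp_pos _).le, mul_left_comm]
  refine mul_le_mul (Real.exp_le_exp.2 ?_) (hC x) (norm_nonneg _) (Real.exp_pos _).le
  have := h.nonneg x
  have h2 : -‖x - b‖ ^ 2 / (2 * t) = -(1 / (2 * t)) * ‖x - b‖ ^ 2 := by ring
  linarith

theorem tilt_pgrowth_const {Y : Type*} [NormedAddCommGroup Y] (c : Y) :
    PGrowth fun _ : E d => c := ⟨‖c‖, 0, fun _ => by simp⟩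

theorem tilt_pgrowth_sub (b : E d) : PGrowth fun x : E d => x - b :=
  ⟨1 + ‖b‖, 1, fun x => (norm_sub_le x b).trans (by
    nlinarith [norm_nonneg x, norm_nonneg b, mul_nonneg (norm_nonneg x) (norm_nonneg b)])⟩

theorem tilt_pgrowth_smul {Y : Type*} [NormedAddCommGroup Y] [NormedSpace ℝ Y] {f : E d → ℝ}
    {g : E d → Y} (hf : PGrowth f) (hg : PGrowth g) : PGrowth fun x => f x • g x := by
  obtain ⟨C, n, hC⟩ := hf
  obtain ⟨C', n', hC'⟩ := hg
  refine ⟨C * C', n + n', fun x => ?_⟩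
  rw [norm_smul, pow_add, mul_mul_mul_comm]
  exact mul_le_mul (hC x) (hC' x) (norm_nonneg _) ((norm_nonneg _).trans (hC x))

theorem tilt_integrable_exp (h : Pot α δ W) (b : E d) {t : ℝ} (ht : 0 < t) :
    Integrable (fun x => Real.exp (-‖x - b‖ ^ 2 / (2 * t) - W x)) := by
  simpa using integrable_weight h b ht (f := fun _ => (1 : ℝ)) aestronglyMeasurable_const
    (tilt_pgrowth_const _)

theorem isProb_nu (h : Pot α δ W) (b : E d) {t : ℝ} (ht : 0 < t) :
    IsProbabilityMeasure (nu W b t) :=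
  isProbabilityMeasure_tilted (tilt_integrable_exp h b ht)

theorem integrable_nu (h : Pot α δ W) (b : E d) {t : ℝ} (ht : 0 < t) {Y : Type*}
    [NormedAddCommGroup Y] [NormedSpace ℝ Y] {f : E d → Y} (hf : AEStronglyMeasurable f volume)
    (hg : PGrowth f) : Integrable f (nu W b t) :=
  (integrable_tilted_iff (tilt_integrable_exp h b ht) f).2 (integrable_weight h b ht hf hg)

theorem Pot.pgrowth_gradient (h : Pot α δ W) (hα : 0 ≤ α) : PGrowth (gradient W) := by
  refine ⟨‖gradient W 0‖ + |δ|, 1, fun x => ?_⟩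
  have h1 := h.lip_grad hα x 0
  have h2 : ‖gradient W x‖ ≤ ‖gradient W 0‖ + ‖gradient W x - gradient W 0‖ :=
    norm_le_norm_add_norm_sub' _ _
  rw [sub_zero] at h1
  have h3 : δ * ‖x‖ ≤ |δ| * ‖x‖ := by gcongr; exact le_abs_self _
  nlinarith [norm_nonneg x, norm_nonneg (gradient W 0), abs_nonneg δ,
    mul_nonneg (norm_nonneg x) (norm_nonneg (gradient W 0))]

theorem tilt_integral_nu (W : E d → ℝ) (b : E d) (t : ℝ) {Y : Type*}
    [NormedAddCommGroup Y] [NormedSpace ℝ Y] (f : E d → Y) :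
    ∫ x, f x ∂(nu W b t) = (∫ x, Real.exp (-‖x - b‖ ^ 2 / (2 * t) - W x))⁻¹ •
      ∫ x, Real.exp (-‖x - b‖ ^ 2 / (2 * t) - W x) • f x := by
  rw [nu, integral_tilted, ← integral_smul]
  simp_rw [smul_smul, div_eq_inv_mul]

theorem tilt_mean_sub (h : Pot α δ W) (b c : E d) {t : ℝ} (ht : 0 < t) :
    ∫ x, x - c ∂(nu W b t) = ∫ x, x ∂(nu W b t) - c := by
  have := isProb_nu h b ht
  rw [integral_sub _ (integrable_const c)]
  · simp
  · simpa using integrable_nu h b ht (f := fun x => x - 0) (by fun_prop) (tilt_pgrowth_sub 0)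

/-- Stein's identity. -/
theorem stein (h : Pot α δ W) (hα : 0 ≤ α) (b : E d) {t : ℝ} (ht : 0 < t) :
    ∫ x, x ∂(nu W b t) = b - t • mn W b t := by
  have hgm : AEStronglyMeasurable (gradient W) volume :=
    h.contDiff_gradient.continuous.aestronglyMeasurable
  have i1 := integrable_weight h b ht (f := fun x => x - b) (by fun_prop) (tilt_pgrowth_sub b)
  have i2 := integrable_weight h b ht hgm (h.pgrowth_gradient hα)
  have i3 : Integrable fun x => Real.exp (-‖x - b‖ ^ 2 / (2 * t) - W x) •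
      (-(t⁻¹ • (x - b)) - gradient W x) := by
    refine ((i1.smul t⁻¹).neg.sub i2).congr (Filter.Eventually.of_forall fun x => ?_)
    simp only [Pi.sub_apply, Pi.neg_apply, Pi.smul_apply]
    module
  have hd : ∀ x, HasFDerivAt (fun x => Real.exp (-‖x - b‖ ^ 2 / (2 * t) - W x))
      (innerSL ℝ (Real.exp (-‖x - b‖ ^ 2 / (2 * t) - W x) •
        (-(t⁻¹ • (x - b)) - gradient W x))) x := by
    intro x
    have h1 := ((((hasFDerivAt_id x).sub_const b).norm_sq.neg.mul_const (2 * t)⁻¹).sub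
      (tilt_hasFDerivAt h.c2 x)).exp
    refine h1.congr_fderiv ?_
    ext v
    have h2 : fderiv ℝ W x v = ⟪gradient W x, v⟫ := by simp [gradient]
    rw [innerSL_apply_apply, real_inner_smul_left, inner_sub_left, inner_neg_left,
      real_inner_smul_left, ← h2, inner_sub_left]
    simp [div_eq_mul_inv]
    field_simp
  have h0 : ∫ x, Real.exp (-‖x - b‖ ^ 2 / (2 * t) - W x) •
      (-(t⁻¹ • (x - b)) - gradient W x) = 0 := by
    refine ext_inner_left ℝ fun v => ?_
    rw [← integral_inner i3, inner_zero_right]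
    have h1 := integral_mul_fderiv_eq_neg_fderiv_mul_of_integrable (μ := (volume : Measure (E d)))
      (f := fun _ => (1 : ℝ)) (g := fun x => Real.exp (-‖x - b‖ ^ 2 / (2 * t) - W x)) (v := v)
      (by simp) (by
        simp_rw [(hd _).fderiv, one_mul, innerSL_apply_apply]
        exact i3.inner_const v) (by simpa using tilt_integrable_exp h b ht)
      (fun _ _ => differentiableAt_const _) (fun x _ => (hd x).differentiableAt)
    simp_rw [(hd _).fderiv, one_mul, innerSL_apply_apply] at h1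
    simp_rw [real_inner_comm _ v]
    simpa using h1
  have h1 : ∫ x, (-(t⁻¹ • (x - b)) - gradient W x) ∂(nu W b t) = 0 := by
    rw [tilt_integral_nu, h0, smul_zero]
  rw [integral_sub, integral_neg, integral_smul, tilt_mean_sub h b b ht, sub_eq_zero] at h1
  · rw [mn, ← h1, smul_neg, smul_smul, mul_inv_cancel₀ ht.ne', one_smul]
    abel
  · exact ((integrable_nu h b ht (f := fun x => x - b) (by fun_prop)
      (tilt_pgrowth_sub b)).smul t⁻¹).neg
  · exact integrable_nu h b ht hgm (h.pgrowth_gradient hα)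

theorem tilt_hasFDerivAt_num (h : Pot α δ W) (b : E d) {t : ℝ} (ht : 0 < t) {f : E d → ℝ}
    (hf : AEStronglyMeasurable f volume) (hg : PGrowth f) :
    HasFDerivAt (fun b => ∫ x, Real.exp (-‖x - b‖ ^ 2 / (2 * t) - W x) • f x)
      (innerSL ℝ (t⁻¹ • ∫ x, Real.exp (-‖x - b‖ ^ 2 / (2 * t) - W x) • (f x • (x - b)))) b := by
  have i1 := integrable_weight h b ht (f := fun x => f x • (x - b)) (hf.smul (by fun_prop))
    (tilt_pgrowth_smul hg (tilt_pgrowth_sub b))
  obtain ⟨C, n, hC⟩ := id hg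
  have key := hasFDerivAt_integral_of_dominated_of_fderiv_le (𝕜 := ℝ)
    (μ := (volume : Measure (E d))) (x₀ := b) (s := Metric.ball b 1)
    (F := fun b x => Real.exp (-‖x - b‖ ^ 2 / (2 * t) - W x) • f x)
    (F' := fun b x => innerSL ℝ (t⁻¹ • Real.exp (-‖x - b‖ ^ 2 / (2 * t) - W x) • (f x • (x - b))))
    (bound := fun x => (t⁻¹ * Real.exp (1 / (2 * t)) * C * (1 + ‖b‖)) *
      (Real.exp (-(1 / (4 * t)) * ‖x - b‖ ^ 2) * (1 + ‖x‖) ^ (n + 1)))
    (Metric.ball_mem_nhds b one_pos)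
    (Filter.Eventually.of_forall fun b => (integrable_weight h b ht hf hg).1)
    (integrable_weight h b ht hf hg)
    ((innerSL ℝ).continuous.comp_aestronglyMeasurable (i1.smul t⁻¹).1) ?_
    ((tilt_integrable_gauss_poly (by positivity) b _).const_mul _) ?_
  · refine key.congr_fderiv ?_
    ext v
    rw [ContinuousLinearMap.integral_apply, ← integral_smul, innerSL_apply_apply, real_inner_comm]
    · simp_rw [innerSL_apply_apply, real_inner_comm v]
      exact integral_inner (i1.smul t⁻¹) v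
    · refine ⟨(innerSL ℝ).continuous.comp_aestronglyMeasurable (i1.smul t⁻¹).1, ?_⟩
      refine (hasFiniteIntegral_norm_iff _).1 ?_
      simp_rw [innerSL_apply_norm]
      exact (i1.smul t⁻¹).norm.2
  · refine Filter.Eventually.of_forall fun x b' hb' => ?_
    rw [innerSL_apply_norm, norm_smul, norm_smul, norm_smul, Real.norm_of_nonneg (by positivity),
      Real.norm_of_nonneg (Real.exp_pos _).le]
    rw [Metric.mem_ball, dist_eq_norm] at hb'
    have h1 : ‖x - b‖ ≤ ‖x - b'‖ + 1 := by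
      have := norm_sub_le_norm_sub_add_norm_sub x b' b
      linarith
    have h2 : ‖x - b'‖ ≤ (1 + ‖b‖) * (1 + ‖x‖) := by
      have h3 := norm_sub_le x b'
      have h4 : ‖b'‖ ≤ ‖b‖ + ‖b' - b‖ := norm_le_norm_add_norm_sub' _ _
      nlinarith [mul_nonneg (norm_nonneg x) (norm_nonneg b)]
    have h3 : Real.exp (-‖x - b'‖ ^ 2 / (2 * t) - W x) ≤
        Real.exp (1 / (2 * t)) * Real.exp (-(1 / (4 * t)) * ‖x - b‖ ^ 2) := by
      rw [← Real.exp_add, Real.exp_le_exp]
      have h4 : ‖x - b‖ ^ 2 ≤ 2 * ‖x - b'‖ ^ 2 + 2 := by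
        nlinarith [norm_nonneg (x - b), norm_nonneg (x - b'), sq_nonneg (‖x - b'‖ - 1)]
      have h5 : 1 / (2 * t) + -(1 / (4 * t)) * ‖x - b‖ ^ 2 - -‖x - b'‖ ^ 2 / (2 * t) =
          (2 * ‖x - b'‖ ^ 2 + 2 - ‖x - b‖ ^ 2) / (4 * t) := by field_simp; ring
      have h6 : 0 ≤ (2 * ‖x - b'‖ ^ 2 + 2 - ‖x - b‖ ^ 2) / (4 * t) :=
        div_nonneg (by linarith) (by positivity)
      linarith [h.nonneg x]
    have h4 : 0 ≤ C * (1 + ‖x‖) ^ n := (norm_nonneg _).trans (hC x)
    calc t⁻¹ * (Real.exp (-‖x - b'‖ ^ 2 / (2 * t) - W x) * (‖f x‖ * ‖x - b'‖))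
        ≤ t⁻¹ * ((Real.exp (1 / (2 * t)) * Real.exp (-(1 / (4 * t)) * ‖x - b‖ ^ 2)) *
          ((C * (1 + ‖x‖) ^ n) * ((1 + ‖b‖) * (1 + ‖x‖)))) := by
          gcongr
          exact hC x
      _ = _ := by ring
  · refine Filter.Eventually.of_forall fun x b' _ => ?_
    have h1 := (((((hasFDerivAt_id b').const_sub x).norm_sq.neg.mul_const (2 * t)⁻¹).sub_const
      (W x)).exp).mul_const (f x)
    refine h1.congr_fderiv ?_
    ext v
    simp [div_eq_mul_inv]
    field_simp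
    ring

/-- Derivative of a mean with respect to the centre. -/
theorem hasFDerivAt_mean (h : Pot α δ W) (b : E d) {t : ℝ} (ht : 0 < t) {f : E d → ℝ}
    (hf : AEStronglyMeasurable f volume) (hg : PGrowth f) :
    HasFDerivAt (fun b => ∫ x, f x ∂(nu W b t))
      (innerSL ℝ (t⁻¹ • ∫ x, f x • (x - ∫ y, y ∂(nu W b t)) ∂(nu W b t))) b := by
  have hN := tilt_hasFDerivAt_num h b ht hf hg
  have hZ := tilt_hasFDerivAt_num h b ht (f := fun _ => (1 : ℝ)) aestronglyMeasurable_const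
    (tilt_pgrowth_const _)
  simp only [smul_eq_mul, mul_one, one_smul] at hZ
  have hZ0 : (∫ x, Real.exp (-‖x - b‖ ^ 2 / (2 * t) - W x)) ≠ 0 :=
    (integral_exp_pos (tilt_integrable_exp h b ht)).ne'
  have h1 := ((hasFDerivAt_inv hZ0).comp b hZ).mul hN
  have h2 : ∫ x, f x • (x - ∫ y, y ∂(nu W b t)) ∂(nu W b t) =
      ∫ x, f x • (x - b) ∂(nu W b t) - (∫ x, f x ∂(nu W b t)) • ∫ x, x - b ∂(nu W b t) := by
    rw [tilt_mean_sub h b b ht, ← integral_smul_const, ← integral_sub]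
    · congr 1
      funext x
      module
    · exact integrable_nu h b ht (hf.smul (by fun_prop)) (tilt_pgrowth_smul hg (tilt_pgrowth_sub b))
    · exact (integrable_nu h b ht hf hg).smul_const _
  rw [h2]
  simp_rw [tilt_integral_nu]
  refine h1.congr_fderiv ?_
  ext v
  simp
  field_simp
  ring

theorem tilt_map {X Y : Type*} [MeasurableSpace X] [MeasurableSpace Y] {e : X → Y}
    (he : MeasurableEmbedding e) (μ : Measure X) (F : Y → ℝ) :
    (μ.tilted fun x => F (e x)).map e = (μ.map e).tilted F := by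
  ext s hs
  rw [he.map_apply, tilted_apply' _ _ (he.measurable hs), tilted_apply' _ _ hs, he.integral_map,
    he.restrict_map, he.lintegral_map]

theorem tilt_smul {X : Type*} [MeasurableSpace X] (μ : Measure X) (F : X → ℝ) {c : ℝ} (hc : 0 < c) :
    (ENNReal.ofReal c • μ).tilted F = μ.tilted F := by
  ext s hs
  rw [tilted_apply' _ _ hs, tilted_apply' _ _ hs, Measure.restrict_smul, lintegral_smul_measure,
    integral_smul_measure, smul_eq_mul, ← lintegral_const_mul' _ _ ENNReal.ofReal_ne_top]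
  congr 1
  funext x
  rw [← ENNReal.ofReal_mul hc.le, ENNReal.toReal_ofReal hc.le, smul_eq_mul, ← mul_div_assoc,
    mul_div_mul_left _ _ hc.ne']

theorem tilt_aff_embedding (b : E d) {c : ℝ} (hc : c ≠ 0) :
    MeasurableEmbedding fun y : E d => b + c • y :=
  (MeasurableEquiv.addLeft b).measurableEmbedding.comp (measurableEmbedding_const_smul₀ hc)

/-- Change of scale. -/
theorem nu_resc {V : E d → ℝ} (h : Pot α δ V) (b b' : E d) {t t' : ℝ} (ht : 0 < t)
    (ht' : 0 < t') :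
    nu V (b + √t • b') (t * t') = (nu (resc V b t) b' t').map fun y => b + √t • y := by
  have hs : 0 < √t := Real.sqrt_pos.2 ht
  have h1 : (volume : Measure (E d)).map (fun y => b + √t • y) =
      ENNReal.ofReal |(√t ^ Module.finrank ℝ (E d))⁻¹| • volume := by
    have : (fun y : E d => b + √t • y) = (fun y => b + y) ∘ fun y => √t • y := rfl
    rw [this, ← Measure.map_map (by fun_prop) (by fun_prop), Measure.map_addHaar_smul _ hs.ne',
      Measure.map_smul, map_add_left_eq_self]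
  rw [nu, ← tilt_smul _ _ (c := |(√t ^ Module.finrank ℝ (E d))⁻¹|) (by positivity), ← h1,
    ← tilt_map (tilt_aff_embedding b hs.ne'), nu]
  congr 2
  funext y
  rw [add_sub_add_left_eq_sub, ← smul_sub, norm_smul, mul_pow, Real.norm_eq_abs, sq_abs,
    Real.sq_sqrt ht.le, resc]
  field_simp

theorem mn_resc {V : E d → ℝ} (h : Pot α δ V) (b b' : E d) {t t' : ℝ} (ht : 0 < t) (ht' : 0 < t') :
    mn (resc V b t) b' t' = √t • mn V (b + √t • b') (t * t') := by
  rw [mn, mn, nu_resc h b b' ht ht',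
    (tilt_aff_embedding b (Real.sqrt_pos.2 ht).ne').integral_map, ← integral_smul]
  congr 1
  funext y
  simp [gradient, tilt_fderiv_resc h.c2]

end Crest.Agent.R285
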